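import Vale.Agent.P155.NT613.UnxB
import Vale.Agent.P155.NT905.UnxDet

/-!
# P155, NT, visit bound (4): mesoscopic scales, expectation of the unexplored sum
-/

namespace Vale.Agent.P155.NT613

open Vale.Agent.P155 Finset SW HT T905 T802 T862 G45 J H904 H12 NT E4 S862 NT905 NT743 S743

open Classical in
theorem nU_le_tau {T : Temp} {R : ℕ} {ω : Conf} (hω : ω ∈ DD T.V) (E : Set Pt) {φ : Pt → ℝ}
    {K : ℝ} (hK : 0 ≤ K) {y : Pt} (hy : y ∈ box ((0 : ℤ), (0 : ℤ)) R) :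
    (nU ω E φ y : ℝ) ≤ K + tauN (box (0, 0) R) K ω := by
  have h6 : (nU ω E φ y : ℝ) ≤ (N ω y : ℝ) := by
    unfold N nU
    have h7 : ((LF ω).filter (fun A => Unx E A ∧ surr ω A y ∧ ∃ y', φ y' ≠ 0 ∧
        surr ω A y')).card ≤ Set.ncard {L | L ∈ Loops ω ∧ surr ω L y} := by
      rw [← Set.ncard_coe_finset]
      apply Set.ncard_le_ncard
      · intro A hA
        rw [mem_coe, mem_filter] at hA
        exact ⟨(mem_LF hω).1 hA.1, hA.2.2.1⟩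
      · exact (L.loops_finite hω).subset fun A hA => hA.1
    exact_mod_cast h7
  exact h6.trans (N_le_tau hy hK)

open Classical in
/-- the good event at mesoscopic scales -/
theorem meso_pt : ∃ β > (0 : ℝ), β ≤ 1 ∧ ∃ γ' > (0 : ℝ), γ' ≤ 1 ∧ ∀ C0 : ℝ, 0 ≤ C0 →
    ∃ M > (0 : ℝ), ∃ C > (0 : ℝ),
    ∀ (T : Temp) (R : ℕ), Skel.Fits T R → ∀ (xS : ℤ) (τ : Stop T.V xS), ∀ ω ∈ DD T.V, τ.New ω →
    ∀ (x0 p : Pt) (N κ s ρ0 ρ A : ℕ) (γ Cd K : ℝ) (φ : Conf → Pt → ℝ), 0 ≤ K →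
      (∀ x ∈ box x0 N, (ρ0 : ℤ) + 1 < |x.1 - xS|) →
      (∀ x ∈ box x0 N, Cd * ρ0 ≤ dF T.faceSet x) →
      ¬ NBad T x0 N κ s ρ0 (4 * s) C0 (32 ^ 4) γ Cd ω → 8 ≤ s → 8 * s ≤ κ → ρ0 + 2 * s < κ →
      4 * s + 1 ≤ ρ0 → ((4 * s : ℕ) : ℝ) < Cd * ρ0 →
      1 ≤ A → A * κ ≤ ρ → 4 * ρ ≤ N → p ∉ OE T (τ.E ω) → dn x0 p ≤ A * κ →
      (∀ y, |φ ω y| ≤ dens C0 p κ y) → (∀ y, φ ω y ≠ 0 → κ ≤ dF (OE T (τ.E ω)) y) →
      (∀ y, φ ω y ≠ 0 → dn x0 y ≤ A * κ) →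
      UnS τ φ s ω ≤ 128 * C0 * ((K + tauN (box (0, 0) R) K ω) *
        (C * (((2 * (A * κ) : ℕ) : ℝ) / ρ) ^ γ') +
        4 * s * (M * ((ρ0 : ℝ) / κ) ^ β +
          Cd * (((N : ℝ) / κ) ^ γ * (N : ℝ) ^ (-(γ ^ 2 / 128))))) := by
  obtain ⟨β, hβ, hβ1, hdet⟩ := unx_det
  obtain ⟨γ', hγ', hγ1', hfar⟩ := far_small
  refine ⟨β, hβ, hβ1, γ', hγ', hγ1', ?_⟩
  intro C0 hC0
  obtain ⟨M, hM, hdet⟩ := hdet C0 (32 ^ 4) hC0
  obtain ⟨C, hC, hfar⟩ := hfar C0 hC0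
  refine ⟨M, hM, C, hC, ?_⟩
  intro T R hfit xS τ ω hω hN x0 p N κ s ρ0 ρ A γ Cd K φ hK hline hzone hbad hs8 h8 hρκ hsρ hsC hA
    hAρ hρN hp hxp hφ hsupp hsx
  have hO := S743.oe_finite T (τ.E ω)
  have hcut : IsCut (OE T (τ.E ω)) s (32 ^ 4) (cutf (OE T (τ.E ω)) s) :=
    cutf_isCut (exists_notMem hO) hs8 le_rfl
  have hu := pot_spec hO (φ ω)
  have hCP := Stop.cpr (τ := τ) hω
  have hs1 : 1 ≤ s := by omega
  have hκ1 : 1 ≤ κ := by omega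
  have hκρ : κ ≤ ρ := le_trans (Nat.le_mul_of_pos_left κ hA) hAρ
  have h1 := hdet T xS τ ω hω hN x0 N κ s ρ0 (4 * s) γ Cd hline hbad hs1 h8 (by omega)
    hsρ le_rfl hsC p (φ ω) (pot (OE T (τ.E ω)) (φ ω)) _ hp hφ hcut hu
    (fun y hy => lt_of_lt_of_le hρκ (hsupp y hy)) hO
  have h2 := hfar (OE T (τ.E ω)) hO hCP κ s ρ A _ (φ ω) _ x0 p hs1 (by omega) hκ1 hA hAρ hp hxp
    hcut hu hφ hsx (hO.toFinset.filter (fun x => x ∉ box x0 N)) (fun x hx => by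
      have := (mem_filter.1 hx).2
      rw [mem_box_dn905] at this
      omega)
  have hτ0 := tauN_nonneg (box (0, 0) R) K ω
  have e1 : ∑ x ∈ hO.toFinset.filter (fun x => x ∉ box x0 N),
      |fL (OE T (τ.E ω)) (φ ω) (cutf (OE T (τ.E ω)) s) (pot (OE T (τ.E ω)) (φ ω)) x| *
        nU ω (τ.E ω) (φ ω) x ≤ (K + tauN (box (0, 0) R) K ω) *
        (C * (((2 * (A * κ) : ℕ) : ℝ) / ρ) ^ γ') := by
    calc _ ≤ ∑ x ∈ hO.toFinset.filter (fun x => x ∉ box x0 N),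
          |fL (OE T (τ.E ω)) (φ ω) (cutf (OE T (τ.E ω)) s) (pot (OE T (τ.E ω)) (φ ω)) x| *
            (K + tauN (box (0, 0) R) K ω) := by
          refine sum_le_sum fun x hx => mul_le_mul_of_nonneg_left ?_ (abs_nonneg _)
          refine nU_le_tau hω (τ.E ω) hK ?_
          have h3 := (Set.Finite.mem_toFinset hO).1 (mem_filter.1 hx).1
          exact hfit h3.1
      _ = (K + tauN (box (0, 0) R) K ω) * ∑ x ∈ hO.toFinset.filter (fun x => x ∉ box x0 N),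
          |fL (OE T (τ.E ω)) (φ ω) (cutf (OE T (τ.E ω)) s) (pot (OE T (τ.E ω)) (φ ω)) x| := by
          rw [← sum_mul, mul_comm]
      _ ≤ _ := mul_le_mul_of_nonneg_left h2 (by positivity)
  have e2 : ∑ x ∈ (box x0 N).filter (fun x => (dF T.faceSet x : ℝ) < Cd * ρ0),
      |fL (OE T (τ.E ω)) (φ ω) (cutf (OE T (τ.E ω)) s) (pot (OE T (τ.E ω)) (φ ω)) x| *
        nU ω (τ.E ω) (φ ω) x = 0 := by
    apply sum_eq_zero
    intro x hx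
    exact absurd (hzone x (mem_filter.1 hx).1) (not_le.2 (mem_filter.1 hx).2)
  rw [e2, add_zero] at h1
  refine h1.trans (mul_le_mul ((sum_le_sum fun y _ => hφ y).trans (dens_mass hC0 p hκ1 _))
    (add_le_add e1 le_rfl) ?_ (by positivity))
  have k1 : (0 : ℝ) ≤ ∑ x ∈ hO.toFinset.filter (fun x => x ∉ box x0 N),
      |fL (OE T (τ.E ω)) (φ ω) (cutf (OE T (τ.E ω)) s) (pot (OE T (τ.E ω)) (φ ω)) x| *
        nU ω (τ.E ω) (φ ω) x :=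
    sum_nonneg fun _ _ => mul_nonneg (abs_nonneg _) (Nat.cast_nonneg _)
  have hCd : 0 ≤ Cd := by
    by_contra hneg
    have h5 : (0 : ℝ) ≤ ((4 * s : ℕ) : ℝ) := Nat.cast_nonneg _
    have h6 : Cd * ρ0 ≤ 0 := mul_nonpos_of_nonpos_of_nonneg (not_le.1 hneg).le (Nat.cast_nonneg _)
    linarith
  have k2 : (0 : ℝ) ≤ 4 * s * (M * ((ρ0 : ℝ) / κ) ^ β +
      Cd * (((N : ℝ) / κ) ^ γ * (N : ℝ) ^ (-(γ ^ 2 / 128)))) := by positivity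
  exact add_nonneg k1 k2

theorem ge_of_pow {a0 : ℝ} (ha : 0 < a0) (κ0 : ℕ) : ∃ R0 : ℕ, ∀ R κ : ℕ, R0 ≤ R →
    (R : ℝ) ^ a0 ≤ κ → κ0 ≤ κ := by
  obtain ⟨R1, hR1⟩ := pow_lt_ev ha (κ0 : ℝ)
  refine ⟨R1, fun R κ hR hκ => ?_⟩
  have h := (hR1 R hR).trans hκ
  rw [Real.rpow_zero, mul_one] at h
  exact_mod_cast h

/-- the sizes at the scale `κ` compared with `R` -/
theorem meso_num2 {x e θ Cd : ℝ} {A : ℕ} (hx0 : 0 < x) (hx1 : x ≤ e / 2)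
    (he1 : e ≤ 1) (hθ : 0 < θ) (hCd : 0 < Cd) (hA : 1 ≤ A) :
    ∃ R0 κ0 : ℕ, ∀ R κ N ρ0 ρ : ℕ, R0 ≤ R → 1 ≤ R → κ0 ≤ κ → 1 ≤ κ → (κ : ℝ) ≤ (R : ℝ) ^ (1 - e) →
      (κ : ℝ) ^ (1 + x) ≤ N → (N : ℝ) ≤ 2 * (κ : ℝ) ^ (1 + x) → ρ0 ≤ κ → ρ = N / 4 →
      (N : ℝ) + ρ0 + 1 < θ * R ∧ (N : ℝ) + Cd * ρ0 ≤ θ * R ∧ N ≤ R ∧ A * κ ≤ ρ ∧ 4 * ρ ≤ N ∧
      ((2 * (A * κ) : ℕ) : ℝ) / ρ ≤ 16 * A * (κ : ℝ) ^ (-x) := by
  have he0 : 0 < e := by linarith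
  obtain ⟨R1, hR1⟩ := pow_lt_ev (a := 1 - e / 2) (b := 1) (by linarith) (max 8 ((5 + Cd) / θ))
  obtain ⟨κ1, hκ1⟩ := pow_lt_ev (a := 0) (b := x) hx0 (8 * A)
  refine ⟨R1, κ1, ?_⟩
  intro R κ N ρ0 ρ hR hR1' hκ hκ1' hκR hNl hNu hρ hρN
  have t1 := hR1 R hR
  have t2 := hκ1 κ hκ
  rw [Real.rpow_zero, mul_one] at t2
  rw [Real.rpow_one] at t1
  clear hR1 hκ1
  have hk1 : (1 : ℝ) ≤ κ := by exact_mod_cast hκ1'
  have hk0 : (0 : ℝ) < κ := by linarith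
  have hRr : (1 : ℝ) ≤ R := by exact_mod_cast hR1'
  have hR0 : (0 : ℝ) < R := by linarith
  have hAr : (1 : ℝ) ≤ A := by exact_mod_cast hA
  have p1 : (κ : ℝ) ^ (1 + x) ≤ (R : ℝ) ^ (1 - e / 2) := by
    calc (κ : ℝ) ^ (1 + x) ≤ ((R : ℝ) ^ (1 - e)) ^ (1 + x) :=
          Real.rpow_le_rpow hk0.le hκR (by linarith)
      _ = (R : ℝ) ^ ((1 - e) * (1 + x)) := by rw [← Real.rpow_mul hR0.le]
      _ ≤ _ := by
          apply Real.rpow_le_rpow_of_exponent_le hRr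
          have h1 : (1 - e) * (1 + x) ≤ (1 - e) * (1 + e / 2) :=
            mul_le_mul_of_nonneg_left (by linarith) (by linarith)
          nlinarith [mul_pos he0 he0]
  have p2 : (κ : ℝ) ≤ (κ : ℝ) ^ (1 + x) := by
    conv_lhs => rw [← Real.rpow_one (κ : ℝ)]
    exact Real.rpow_le_rpow_of_exponent_le hk1 (by linarith)
  have p3 : 1 ≤ (R : ℝ) ^ (1 - e / 2) := Real.one_le_rpow hRr (by linarith)
  have p4 : (κ : ℝ) ^ (1 + x) = κ * (κ : ℝ) ^ x := by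
    rw [Real.rpow_add hk0, Real.rpow_one]
  have p5 : (5 + Cd) * (R : ℝ) ^ (1 - e / 2) ≤ θ * R := by
    have h1 : (5 + Cd) / θ * (R : ℝ) ^ (1 - e / 2) ≤ R :=
      (mul_le_mul_of_nonneg_right (le_max_right _ _) (by positivity)).trans t1
    calc (5 + Cd) * (R : ℝ) ^ (1 - e / 2) = θ * ((5 + Cd) / θ * (R : ℝ) ^ (1 - e / 2)) := by
          field_simp
      _ ≤ _ := mul_le_mul_of_nonneg_left h1 hθ.le
  have p6 : 8 * (R : ℝ) ^ (1 - e / 2) ≤ R :=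
    (mul_le_mul_of_nonneg_right (le_max_left _ _) (by positivity)).trans t1
  have hρr : (ρ0 : ℝ) ≤ κ := by exact_mod_cast hρ
  have p7 : Cd * ρ0 ≤ Cd * (R : ℝ) ^ (1 - e / 2) :=
    mul_le_mul_of_nonneg_left (hρr.trans (p2.trans p1)) hCd.le
  have p8 : 0 < Cd * (R : ℝ) ^ (1 - e / 2) := by positivity
  have p9 : 8 * (A * (κ : ℝ)) ≤ N := by
    calc 8 * (A * (κ : ℝ)) = κ * (8 * A) := by ring
      _ ≤ κ * (κ : ℝ) ^ x := mul_le_mul_of_nonneg_left t2 hk0.le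
      _ ≤ N := by rw [← p4]; exact hNl
  have p9' : 8 * (A * κ) ≤ N := by exact_mod_cast p9
  have hAκ : 1 ≤ A * κ := Nat.mul_pos hA hκ1'
  have hρ1 : A * κ ≤ ρ := by omega
  have hρ2 : 4 * ρ ≤ N := by omega
  have hρ3 : N ≤ 8 * ρ := by omega
  have hρ3' : (N : ℝ) ≤ 8 * ρ := by exact_mod_cast hρ3
  have hρ0' : (0 : ℝ) < ρ := by
    have : 0 < ρ := by omega
    exact_mod_cast this
  refine ⟨by linarith, by linarith, ?_, hρ1, hρ2, ?_⟩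
  · have : (N : ℝ) ≤ R := by linarith
    exact_mod_cast this
  · rw [div_le_iff₀ hρ0']
    push_cast
    have q1 : (κ : ℝ) = (κ : ℝ) ^ (-x) * (κ : ℝ) ^ (1 + x) := by
      rw [← Real.rpow_add hk0]
      conv_lhs => rw [← Real.rpow_one (κ : ℝ)]
      congr 1
      ring
    calc 2 * (A * (κ : ℝ)) = 2 * A * ((κ : ℝ) ^ (-x) * (κ : ℝ) ^ (1 + x)) := by rw [← q1]; ring
      _ ≤ 2 * A * ((κ : ℝ) ^ (-x) * (8 * ρ)) := by
          refine mul_le_mul_of_nonneg_left (mul_le_mul_of_nonneg_left (hNl.trans hρ3')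
            (by positivity)) (by positivity)
      _ = _ := by ring

/-- combination of the good and the bad event -/
theorem comb2 {U B err K t : ℝ} {Dom NB : Prop} [Decidable Dom] [Decidable NB] (hB : 0 ≤ B)
    (herr : 0 ≤ err) (hK : 0 ≤ K) (ht : 0 ≤ t) (h1 : Dom → NB → U ≤ B * (K + t))
    (h2 : Dom → ¬ NB → U ≤ err + B * t) :
    (if Dom then U else 0) ≤ err + B * (K * (if NB then 1 else 0) + t) := by
  have hi0 : (0 : ℝ) ≤ (if NB then 1 else 0) := by split_ifs <;> norm_num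
  by_cases hd : Dom
  swap
  · rw [if_neg hd]
    positivity
  rw [if_pos hd]
  by_cases hbad : NB
  · rw [if_pos hbad, mul_one]
    have := h1 hd hbad
    linarith
  · have := h2 hd hbad
    rw [if_neg hbad, mul_zero, zero_add]
    exact this

theorem Ex_chain2 {V : Finset Pt} (i t : Conf → ℝ) {a b K : ℝ} (ha : 0 ≤ a) :
    Ex V (fun ω => a + b * (K * i ω + t ω)) ≤ a + b * (K * Ex V i + Ex V t) := by
  refine (Ex_const_add ha _).trans ?_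
  rw [H12.Ex_mul, H12.Ex_add, H12.Ex_mul]

theorem kap_neg {R κ a0 y c : ℝ} (hR : 1 ≤ R) (hκ : R ^ a0 ≤ κ) (hy : 0 ≤ y) (hc : c ≤ a0 * y) :
    κ ^ (-y) ≤ R ^ (-c) := by
  have hR0 : 0 < R := by linarith
  calc κ ^ (-y) ≤ (R ^ a0) ^ (-y) := Real.rpow_le_rpow_of_nonpos (by positivity) hκ (by linarith)
    _ = R ^ (-(a0 * y)) := by
        rw [← Real.rpow_mul hR0.le]
        congr 1
        ring
    _ ≤ _ := Real.rpow_le_rpow_of_exponent_le hR (by linarith)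

theorem far_num {R κ a0 x γ' δ c f far : ℝ} {A : ℕ} (hR : 1 ≤ R) (hκ0 : 0 < κ)
    (hκ : R ^ a0 ≤ κ) (hx : 0 < x) (hγ : 0 < γ') (hγ1 : γ' ≤ 1) (hA : 1 ≤ A)
    (hδ : δ ≤ a0 * x * γ' / 2) (hc : c ≤ a0 * x * γ' / 2) (hf0 : 0 ≤ f)
    (hf : f ≤ 16 * A * κ ^ (-x)) (hfar : far = f ^ γ') :
    R ^ δ * far ≤ 16 * A * R ^ (-c) := by
  have hR0 : 0 < R := by linarith
  have hAr : (1 : ℝ) ≤ A := by exact_mod_cast hA
  have h1 : far ≤ 16 * A * κ ^ (-(x * γ')) := by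
    calc far ≤ (16 * A * κ ^ (-x)) ^ γ' := by
          rw [hfar]; exact Real.rpow_le_rpow hf0 hf hγ.le
      _ = (16 * A : ℝ) ^ γ' * κ ^ (-(x * γ')) := by
          rw [Real.mul_rpow (by positivity) (by positivity), ← Real.rpow_mul hκ0.le]
          congr 2
          ring
      _ ≤ _ := by
          refine mul_le_mul_of_nonneg_right ?_ (by positivity)
          conv_rhs => rw [← Real.rpow_one (16 * A : ℝ)]
          exact Real.rpow_le_rpow_of_exponent_le (by linarith) hγ1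
  have h2 : κ ^ (-(x * γ')) ≤ R ^ (-(a0 * (x * γ'))) :=
    kap_neg hR hκ (by positivity) le_rfl
  calc R ^ δ * far ≤ R ^ δ * (16 * A * R ^ (-(a0 * (x * γ')))) :=
        mul_le_mul_of_nonneg_left (h1.trans (mul_le_mul_of_nonneg_left h2 (by positivity)))
          (by positivity)
    _ = 16 * A * (R ^ δ * R ^ (-(a0 * (x * γ')))) := by ring
    _ = 16 * A * R ^ (δ + -(a0 * (x * γ'))) := by rw [← Real.rpow_add hR0]
    _ ≤ _ := by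
        apply mul_le_mul_of_nonneg_left _ (by positivity)
        exact Real.rpow_le_rpow_of_exponent_le hR (by linarith)

theorem line_of {x z : Pt} {N ρ0 : ℕ} {xS : ℤ} {t : ℝ} (hz : z ∈ box x N)
    (h1 : (N : ℝ) + ρ0 + 1 < t) (h2 : t ≤ ((|x.1 - xS| : ℤ) : ℝ)) :
    (ρ0 : ℤ) + 1 < |z.1 - xS| := by
  have h3 := (G45.dn_le_iff.1 (mem_box_dn905.1 hz)).1
  have h4 : |x.1 - xS| ≤ (N : ℤ) + |z.1 - xS| := by
    have h5 := abs_sub_le x.1 z.1 xS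
    have h6 : |x.1 - z.1| ≤ (N : ℤ) := by rw [abs_le]; constructor <;> omega
    omega
  have h4' : ((|x.1 - xS| : ℤ) : ℝ) ≤ N + ((|z.1 - xS| : ℤ) : ℝ) := by exact_mod_cast h4
  have h5 : ((ρ0 : ℝ)) + 1 < ((|z.1 - xS| : ℤ) : ℝ) := by linarith
  exact_mod_cast h5

theorem zone_of {T : Temp} {x z : Pt} {N : ℕ} {t r : ℝ} (hz : z ∈ box x N)
    (h1 : (N : ℝ) + r ≤ t) (h2 : t ≤ dF T.faceSet x) : r ≤ dF T.faceSet z := by
  have h1' := (mem_box_dn905.1 hz)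
  have h2' := H904.dF_lip (BDK.exists_notMem T) x z
  have h3 : (dF T.faceSet x : ℝ) ≤ dF T.faceSet z + N := by
    have : dF T.faceSet x ≤ dF T.faceSet z + N := by omega
    exact_mod_cast this
  linarith

theorem mem_box_of_dF {T : Temp} {R : ℕ} (hfit : Skel.Fits T R) {x : Pt} {t : ℝ} (ht : 0 < t)
    (h : t ≤ dF T.faceSet x) : x ∈ box ((0 : ℤ), (0 : ℤ)) R := by
  apply hfit
  apply BD.mem_of_lt_dF (z := x)
  rw [H904.dn_self]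
  by_contra hc
  have h1 : dF T.faceSet x = 0 := by omega
  rw [h1] at h
  push_cast at h
  linarith

theorem pow_NB {R Cd : ℝ} {δ c : ℝ} (hR : 1 ≤ R) (hCd : 0 ≤ Cd) (hδ : δ ≤ 1) (hc : c ≤ 1) {P : ℝ}
    (hP : P ≤ 9 * Cd * R ^ (-2 : ℝ)) : R ^ δ * P ≤ 9 * Cd * R ^ (-c) := by
  have hR0 : 0 < R := by linarith
  calc R ^ δ * P ≤ R ^ δ * (9 * Cd * R ^ (-2 : ℝ)) := mul_le_mul_of_nonneg_left hP (by positivity)
    _ = 9 * Cd * (R ^ δ * R ^ (-2 : ℝ)) := by ring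
    _ = 9 * Cd * R ^ (δ + -2) := by rw [← Real.rpow_add hR0]
    _ ≤ _ := mul_le_mul_of_nonneg_left
        (Real.rpow_le_rpow_of_exponent_le hR (by linarith)) (by positivity)

open Classical in
theorem NB_union {T : Temp} {R N κ s ρ0 : ℕ} {C0 γ Cd : ℝ} (hR : 1 ≤ R) (hCd : 0 ≤ Cd)
    (h : ∀ p0 : Pt, Pr T.V (NBad T p0 N κ s ρ0 (4 * s) C0 (32 ^ 4) γ Cd) ≤
      Cd * (R : ℝ) ^ (-4 : ℝ)) :
    Pr T.V (fun ω => ∃ p0 ∈ box ((0 : ℤ), (0 : ℤ)) R,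
      NBad T p0 N κ s ρ0 (4 * s) C0 (32 ^ 4) γ Cd ω) ≤ 9 * Cd * (R : ℝ) ^ (-2 : ℝ) := by
  have hR0 : (0 : ℝ) < R := by exact_mod_cast hR
  refine (Vale.Agent.P155.E.Pr_exists_le_card T.V _ _ (fun p0 _ => h p0)).trans ?_
  calc ((box ((0 : ℤ), (0 : ℤ)) R).card : ℝ) * (Cd * (R : ℝ) ^ (-4 : ℝ)) ≤
      9 * (R : ℝ) ^ 2 * (Cd * (R : ℝ) ^ (-4 : ℝ)) :=
        mul_le_mul_of_nonneg_right (card_box_le hR) (by positivity)
    _ = 9 * Cd * ((R : ℝ) ^ (2 : ℝ) * (R : ℝ) ^ (-4 : ℝ)) := by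
        rw [show (R : ℝ) ^ (2 : ℝ) = (R : ℝ) ^ 2 by
          rw [← Real.rpow_natCast]; norm_num]
        ring
    _ = _ := by
        rw [← Real.rpow_add hR0]
        norm_num

open Classical in
/-- the crude bound for a stopping time -/
theorem crude_stop : ∀ C0 : ℝ, 0 ≤ C0 → ∃ M : ℝ, 0 ≤ M ∧ ∀ (T : Temp) (R : ℕ), Skel.Fits T R →
    ∀ (xS : ℤ) (τ : Stop T.V xS), ∀ ω ∈ DD T.V, ∀ (κ s : ℕ) (φ : Conf → Pt → ℝ) (p : Pt) (K : ℝ),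
      0 ≤ K → 8 ≤ s → 8 * s ≤ κ → p ∉ OE T (τ.E ω) → (∀ y, |φ ω y| ≤ dens C0 p κ y) →
      (∀ y, φ ω y ≠ 0 → κ ≤ dF (OE T (τ.E ω)) y) →
      UnS τ φ s ω ≤ M * (128 * C0 * (K + tauN (box (0, 0) R) K ω)) := by
  obtain ⟨γm, -, -, hmass⟩ := mass_meso
  intro C0 hC0
  obtain ⟨M, hM, hmass⟩ := hmass C0 (32 ^ 4) hC0
  refine ⟨M, hM, ?_⟩
  intro T R hfit xS τ ω hω κ s φ p K hK hs8 h8 hp hφ hsupp
  have hO := S743.oe_finite T (τ.E ω)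
  have hcut : IsCut (OE T (τ.E ω)) s (32 ^ 4) (cutf (OE T (τ.E ω)) s) :=
    cutf_isCut (exists_notMem hO) hs8 le_rfl
  have hu := pot_spec hO (φ ω)
  have q1 := (hmass _ p κ s _ (φ ω) _ hO (Stop.cpr (τ := τ) hω) hp (by omega) (by omega) h8 hcut
    hφ hu).1
  exact unx_crude (R := R) (K := K) hω (τ.E ω) (g := gL T τ.E φ s ω) (φ := φ ω)
    (S := hO.toFinset) hM hK (fL_zero_off hO (by omega) hcut hu) (q1 _) (fun y hy => by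
      by_contra hne
      have h1 := hsupp y hne
      have h2 : y ∈ OE T (τ.E ω) := BD.mem_of_lt_dF (z := y) (by rw [H904.dn_self]; omega)
      exact hy (hfit h2.1))
    ((sum_le_sum fun y _ => hφ y).trans (dens_mass hC0 p (by omega) _))

open Classical in
/-- **the unexplored loops at mesoscopic scales** -/
theorem unx_meso : ∀ a0 : ℝ, 0 < a0 → ∃ am > (0 : ℝ), ∀ e : ℝ, 0 < e → e ≤ 1 → ∃ c > (0 : ℝ),
    ∀ (C0 θ : ℝ) (A : ℕ), 0 ≤ C0 → 0 < θ → 1 ≤ A → ∃ C : ℝ, 0 ≤ C ∧ ∃ R0 : ℕ, 1 ≤ R0 ∧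
    ∀ (R : ℕ) (T : Temp), R0 ≤ R → Skel.Fits T R → ∀ κ s : ℕ, (R : ℝ) ^ a0 ≤ κ →
    (κ : ℝ) ≤ (R : ℝ) ^ (1 - e) → 8 ≤ s → (s : ℝ) ≤ (R : ℝ) ^ am →
    ∀ (xS : ℤ) (τ : Stop T.V xS) (Dom : Conf → Prop) (x : Conf → Pt) (φ : Conf → Pt → ℝ),
    (∀ ω ∈ DD T.V, Dom ω → τ.New ω ∧ θ * R ≤ dF T.faceSet (x ω) ∧
      θ * R ≤ ((|(x ω).1 - xS| : ℤ) : ℝ) ∧
      (∃ p, p ∉ OE T (τ.E ω) ∧ dn (x ω) p ≤ A * κ ∧ ∀ y, |φ ω y| ≤ dens C0 p κ y) ∧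
      ∀ y, φ ω y ≠ 0 → κ ≤ dF (OE T (τ.E ω)) y ∧ dn (x ω) y ≤ A * κ) →
    Ex T.V (fun ω => if Dom ω then UnS τ φ s ω else 0) ≤ C * (R : ℝ) ^ (-c) := by
  obtain ⟨γ, β0, hγ, hγ1, hβ0, hdet⟩ := det_nt
  obtain ⟨β, hβ, hβ1, γ', hγ', hγ1', hpt⟩ := meso_pt
  obtain ⟨g, hg⟩ : ∃ g : ℝ, g = γ ^ 2 / 1024 := ⟨_, rfl⟩
  have hg0 : 0 < g := by rw [hg]; positivity
  have hγ2 : γ ^ 2 ≤ 1 := pow_le_one₀ hγ.le hγ1
  have hg1 : g ≤ 1 / 1024 := by rw [hg]; linarith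
  intro a0 ha0
  obtain ⟨a, ha⟩ : ∃ a : ℝ, a = min (γ / 1024) (g * β / 4) := ⟨_, rfl⟩
  have haa0 : 0 < a := by rw [ha]; exact lt_min (by positivity) (by positivity)
  have haa1 : a ≤ γ / 1024 := by rw [ha]; exact min_le_left _ _
  have haa2 : a ≤ g * β / 4 := by rw [ha]; exact min_le_right _ _
  clear ha hγ2 hβ0
  refine ⟨a0 * a, by positivity, ?_⟩
  intro e he0 he1
  obtain ⟨x, hx⟩ : ∃ x : ℝ, x = min (g / 4) (e / 2) := ⟨_, rfl⟩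
  have hx0 : 0 < x := by rw [hx]; exact lt_min (by positivity) (by positivity)
  have hx1 : x ≤ g / 4 := by rw [hx]; exact min_le_left _ _
  have hx2 : x ≤ e / 2 := by rw [hx]; exact min_le_right _ _
  clear hx
  obtain ⟨δ, hδ⟩ : ∃ δ : ℝ, δ = min (a0 * x * γ' / 2) 1 := ⟨_, rfl⟩
  have hδ0 : 0 < δ := by rw [hδ]; exact lt_min (by positivity) one_pos
  have hδ1 : δ ≤ a0 * x * γ' / 2 := by rw [hδ]; exact min_le_left _ _
  have hδ2 : δ ≤ 1 := by rw [hδ]; exact min_le_right _ _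
  clear hδ
  obtain ⟨c, hc⟩ : ∃ c : ℝ, c = min δ (a0 * (g * β / 4)) := ⟨_, rfl⟩
  have hc0 : 0 < c := by rw [hc]; exact lt_min hδ0 (by positivity)
  have hc1 : c ≤ δ := by rw [hc]; exact min_le_left _ _
  have hc2 : c ≤ a0 * (g * β / 4) := by rw [hc]; exact min_le_right _ _
  clear hc
  refine ⟨c, hc0, ?_⟩
  intro C0 θ A hC0 hθ hA
  obtain ⟨Cd, hCd, hdet⟩ := hdet a0 4 C0 (32 ^ 4) ha0 (by norm_num) hC0
  obtain ⟨M', hM', C', hC', hpt⟩ := hpt C0 hC0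
  obtain ⟨M, hM, hcrude⟩ := crude_stop C0 hC0
  obtain ⟨Cτ, hCτ, htau⟩ := tau_small HT.l_cosh K.c_height' (ε := δ) hδ0 1
  obtain ⟨κ0, hκ01, hnum⟩ := meso_num hg0 hg1 hx0 hx1 haa0 haa1 hγ hγ1
  obtain ⟨R1, κ1, hnum2⟩ := meso_num2 (θ := θ) (Cd := Cd) (A := A) hx0 hx2 he1 hθ hCd hA
  obtain ⟨κ2, hκ2⟩ := pow_lt_ev (a := a) (b := 1 - g) (by linarith) (5 / Cd)
  obtain ⟨R2, hR2⟩ := ge_of_pow ha0 (max κ0 (max κ1 κ2))
  refine ⟨128 * C0 * (C' * (16 * A) + (16 * M' + 8 * Cd)) +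
    128 * C0 * (M + 2 * C') * (9 * Cd + Cτ), by positivity,
    max 1 (max R1 R2), le_max_left _ _, ?_⟩
  intro R T hRR hfit κ s hκ hκR hs8 hs
  have hR1' : 1 ≤ R := (le_max_left _ _).trans hRR
  have hκ3 := hR2 R κ (((le_max_right _ _).trans (le_max_right _ _)).trans hRR) hκ
  have hκ0 : κ0 ≤ κ := (le_max_left _ _).trans hκ3
  have hκ1 : κ1 ≤ κ := ((le_max_left _ _).trans (le_max_right _ _)).trans hκ3
  have t2 := hκ2 κ (((le_max_right _ _).trans (le_max_right _ _)).trans hκ3)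
  clear hκ2
  have hRr : (1 : ℝ) ≤ R := by exact_mod_cast hR1'
  have hR0 : (0 : ℝ) < R := by linarith
  have hk1 : 1 ≤ κ := hκ01.trans hκ0
  have hkr : (1 : ℝ) ≤ κ := by exact_mod_cast hk1
  have hk0 : (0 : ℝ) < κ := by linarith
  have hsκ : (s : ℝ) ≤ (κ : ℝ) ^ a := by
    calc (s : ℝ) ≤ (R : ℝ) ^ (a0 * a) := hs
      _ = ((R : ℝ) ^ a0) ^ a := by rw [Real.rpow_mul hR0.le]
      _ ≤ _ := Real.rpow_le_rpow (by positivity) hκ haa0.le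
  obtain ⟨N, hN⟩ : ∃ N : ℕ, N = ⌈(κ : ℝ) ^ (1 + x)⌉₊ := ⟨_, rfl⟩
  obtain ⟨ρ0, hρ0⟩ : ∃ ρ0 : ℕ, ρ0 = ⌈(N : ℝ) ^ (1 - g)⌉₊ := ⟨_, rfl⟩
  obtain ⟨ρ, hρ⟩ : ∃ ρ : ℕ, ρ = N / 4 := ⟨_, rfl⟩
  obtain ⟨n1, n2, n3, n4, n5, n6, n7, n8, n9, n10⟩ := hnum κ s N ρ0 hκ0 hsκ hN hρ0
  obtain ⟨m1, m2, m3, m4, m5, m6⟩ := hnum2 R κ N ρ0 ρ (((le_max_left _ _).trans
    (le_max_right _ _)).trans hRR) hR1' hκ1 hk1 hκR n8 n9 n2 hρ
  clear hnum hnum2 hR2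
  have hNr : (0 : ℝ) < N := lt_of_lt_of_le hk0 (by exact_mod_cast n7)
  have hρl : (N : ℝ) ^ (1 - g) ≤ ρ0 := by rw [hρ0]; exact Nat.le_ceil _
  have hκρ : (κ : ℝ) ^ (1 - g) ≤ ρ0 := le_trans
    (Real.rpow_le_rpow hk0.le (by exact_mod_cast n7) (by linarith)) hρl
  have hsC : ((4 * s : ℕ) : ℝ) < Cd * ρ0 := by
    have h1 : 5 / Cd * (κ : ℝ) ^ a ≤ ρ0 := t2.trans hκρ
    have h2 : 5 * (κ : ℝ) ^ a ≤ Cd * ρ0 := by
      calc 5 * (κ : ℝ) ^ a = Cd * (5 / Cd * (κ : ℝ) ^ a) := by field_simp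
        _ ≤ _ := mul_le_mul_of_nonneg_left h1 hCd.le
    have h3 : (0 : ℝ) < (κ : ℝ) ^ a := by positivity
    push_cast
    linarith
  have hs1 : 1 ≤ s := by omega
  have hPr : ∀ p0 : Pt, Pr T.V (NBad T p0 N κ s ρ0 (4 * s) C0 (32 ^ 4) γ Cd) ≤
      Cd * (R : ℝ) ^ (-4 : ℝ) := fun p0 =>
    (hdet R T hR1' hfit p0 N κ s ρ0 (4 * s) (hκ.trans (by exact_mod_cast n7)) m3 n7 hs1 n1 n5
      (by push_cast; exact n6) (by rw [← hg]; exact hρl) n2 n3 le_rfl).1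
  clear hdet
  have hEt := htau R T hR1' hfit
  clear htau
  have hPN := NB_union (T := T) hR1' hCd.le hPr
  clear hPr
  obtain ⟨NB, hNB⟩ : ∃ NB : Conf → Prop, NB = fun ω => ∃ p0 ∈ box ((0 : ℤ), (0 : ℤ)) R,
    NBad T p0 N κ s ρ0 (4 * s) C0 (32 ^ 4) γ Cd ω := ⟨_, rfl⟩
  rw [← hNB] at hPN
  obtain ⟨K, hK⟩ : ∃ K : ℝ, K = (R : ℝ) ^ δ := ⟨_, rfl⟩
  have hK0 : 0 ≤ K := by rw [hK]; positivity
  rw [← hK] at hEt
  obtain ⟨far, hfar⟩ : ∃ far : ℝ, far = (((2 * (A * κ) : ℕ) : ℝ) / ρ) ^ γ' := ⟨_, rfl⟩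
  have hfar0 : 0 ≤ far := by rw [hfar]; positivity
  have hfar1 : far ≤ 2 := by
    have hρ0' : (0 : ℝ) < ρ := by
      have h1 : 1 ≤ A * κ := Nat.mul_pos hA hk1
      have : 0 < ρ := lt_of_lt_of_le h1 m4
      exact_mod_cast this
    have h1 : ((2 * (A * κ) : ℕ) : ℝ) / ρ ≤ 2 := by
      rw [div_le_iff₀ hρ0']
      exact_mod_cast Nat.mul_le_mul_left 2 m4
    calc far ≤ 2 ^ γ' := by rw [hfar]; exact Real.rpow_le_rpow (by positivity) h1 hγ'.le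
      _ ≤ 2 ^ (1 : ℝ) := Real.rpow_le_rpow_of_exponent_le (by norm_num) hγ1'
      _ = 2 := Real.rpow_one _
  have hfar2 : K * far ≤ 16 * A * (R : ℝ) ^ (-c) := by
    rw [hK]
    exact far_num hRr hk0 hκ hx0 hγ' hγ1' hA hδ1 (hc1.trans hδ1) (by positivity) m6 hfar
  have her := meso_err (s := (s : ℝ)) (N := (N : ℝ)) (ρ0 := (ρ0 : ℝ)) (κ := (κ : ℝ)) (M := M')
    (C := Cd) hg0 hx0 hx1 haa2 hγ hγ1 hβ hβ1 hg hM'.le hCd.le hkr hsκ (by exact_mod_cast n7) n9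
    (by positivity) n10
  obtain ⟨er, her'⟩ : ∃ er : ℝ, er = 4 * s * (M' * ((ρ0 : ℝ) / κ) ^ β +
          Cd * (((N : ℝ) / κ) ^ γ * (N : ℝ) ^ (-(γ ^ 2 / 128)))) := ⟨_, rfl⟩
  have her0 : 0 ≤ er := by rw [her']; positivity
  have her1 : er ≤ (16 * M' + 8 * Cd) * (R : ℝ) ^ (-c) := by
    rw [her']
    exact her.trans (mul_le_mul_of_nonneg_left (kap_neg hRr hκ (by positivity) hc2)
      (by positivity))
  clear her
  intro xS τ Dom xc φ hDom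
  have key : ∀ ω ∈ DD T.V, (if Dom ω then UnS τ φ s ω else 0) ≤
      128 * C0 * (K * (C' * far) + er) + 128 * C0 * (M + 2 * C') *
        (K * (if NB ω then 1 else 0) + tauN (box (0, 0) R) K ω) := by
    intro ω hω
    have hτ0 := tauN_nonneg (box (0, 0) R) K ω
    refine comb2 (by positivity) (by positivity) hK0 hτ0 ?_ ?_
    · intro hd _
      obtain ⟨-, -, -, ⟨p, hp, -, hφ⟩, hsupp⟩ := hDom ω hω hd
      refine (hcrude T R hfit xS τ ω hω κ s φ p K hK0 hs8 n1 hp hφ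
        (fun y hy => (hsupp y hy).1)).trans ?_
      have q3 : 0 ≤ 128 * C0 * (2 * C') * (K + tauN (box (0, 0) R) K ω) := by positivity
      calc M * (128 * C0 * (K + tauN (box (0, 0) R) K ω)) ≤
          M * (128 * C0 * (K + tauN (box (0, 0) R) K ω)) +
            128 * C0 * (2 * C') * (K + tauN (box (0, 0) R) K ω) := le_add_of_nonneg_right q3
        _ = _ := by ring
    · intro hd hbad
      obtain ⟨hNw, hx1', hx2', ⟨p, hp, hxp, hφ⟩, hsupp⟩ := hDom ω hω hd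
      have hxR := mem_box_of_dF hfit (by positivity) hx1'
      have q1 := hpt T R hfit xS τ ω hω hNw (xc ω) p N κ s ρ0 ρ A γ Cd K φ hK0
        (fun z hz => line_of hz m1 hx2') (fun z hz => zone_of hz m2 hx1')
        (fun h => hbad (by rw [hNB]; exact ⟨_, hxR, h⟩)) hs8 n1 n4 n3 hsC hA m4 m5 hp hxp hφ
        (fun y hy => (hsupp y hy).1) (fun y hy => (hsupp y hy).2)
      rw [← hfar, ← her'] at q1
      refine q1.trans ?_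
      have q2 : tauN (box (0, 0) R) K ω * (C' * far) ≤ tauN (box (0, 0) R) K ω * (C' * 2) :=
        mul_le_mul_of_nonneg_left (mul_le_mul_of_nonneg_left hfar1 hC'.le) hτ0
      have q3 : 0 ≤ 128 * C0 * M * tauN (box (0, 0) R) K ω := by positivity
      have q4 := mul_le_mul_of_nonneg_left q2 (by positivity : (0 : ℝ) ≤ 128 * C0)
      linarith
  refine (H12.Ex_mono key).trans ((Ex_chain2 _ _ (by positivity)).trans ?_)
  have hE : Ex T.V (fun ω => if NB ω then (1 : ℝ) else 0) = Pr T.V NB := by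
    rw [Vale.Agent.P155.E.Pr_eq_avg, Ex_eq_avg]
  rw [hE]
  have e1 : K * Pr T.V NB ≤ 9 * Cd * (R : ℝ) ^ (-c) := by
    rw [hK]; exact pow_NB hRr hCd.le hδ2 (hc1.trans hδ2) hPN
  have e2 : Ex T.V (tauN (box (0, 0) R) K) ≤ Cτ * (R : ℝ) ^ (-c) :=
    hEt.trans (mul_le_mul_of_nonneg_left
      (Real.rpow_le_rpow_of_exponent_le hRr (by linarith)) hCτ)
  have e3 := mul_le_mul_of_nonneg_left (add_le_add e1 e2)
    (by positivity : (0 : ℝ) ≤ 128 * C0 * (M + 2 * C'))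
  have e4 : K * (C' * far) ≤ C' * (16 * A * (R : ℝ) ^ (-c)) := by
    calc K * (C' * far) = C' * (K * far) := by ring
      _ ≤ _ := mul_le_mul_of_nonneg_left hfar2 hC'.le
  have e5 := mul_le_mul_of_nonneg_left (add_le_add e4 her1) (by positivity : (0 : ℝ) ≤ 128 * C0)
  calc _ ≤ 128 * C0 * (C' * (16 * A * (R : ℝ) ^ (-c)) + (16 * M' + 8 * Cd) * (R : ℝ) ^ (-c)) +
        128 * C0 * (M + 2 * C') * (9 * Cd * (R : ℝ) ^ (-c) + Cτ * (R : ℝ) ^ (-c)) :=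
        add_le_add e5 e3
    _ = _ := by ring

end Vale.Agent.P155.NT613
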