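import Vale.Agent.P155.NT613.UnxE

/-!
# P155, NT, visit bound (4): macroscopic scales
-/

namespace Vale.Agent.P155.NT613

open Vale.Agent.P155 Finset SW HT T905 T802 T862 G45 J H904 H12 NT E4 S862 NT905 NT743 S743

/-- the error of the two-strand estimate -/
theorem err_num {R g γ β e am a1 M C κ ρ0 s : ℝ} (hR : 1 ≤ R) (hM : 0 ≤ M) (hC : 0 ≤ C)
    (hβ : 0 < β) (hγ : 0 < γ) (hκ : R ^ (1 - e) ≤ κ) (hρ : ρ0 ≤ 2 * R ^ (1 - g)) (hρ0 : 0 ≤ ρ0)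
    (hs : s ≤ R ^ am) (h1 : am + a1 ≤ (g - e) * β)
    (h2 : am + a1 + e * γ ≤ γ ^ 2 / 128) :
    4 * s * (M * (ρ0 / κ) ^ β + C * ((R / κ) ^ γ * R ^ (-(γ ^ 2 / 128)))) ≤
      (4 * M * 2 ^ β + 4 * C) * R ^ (-a1) := by
  have hR0 : 0 < R := by linarith
  have hκ0 : 0 < κ := lt_of_lt_of_le (by positivity) hκ
  have q1 : ρ0 / κ ≤ 2 * R ^ (e - g) := by
    rw [div_le_iff₀ hκ0]
    calc ρ0 ≤ 2 * R ^ (1 - g) := hρ
      _ = 2 * R ^ (e - g) * R ^ (1 - e) := by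
          rw [mul_assoc, ← Real.rpow_add hR0]
          congr 2
          ring
      _ ≤ _ := mul_le_mul_of_nonneg_left hκ (by positivity)
  have q2 : (ρ0 / κ) ^ β ≤ 2 ^ β * R ^ (-((g - e) * β)) := by
    calc (ρ0 / κ) ^ β ≤ (2 * R ^ (e - g)) ^ β :=
          Real.rpow_le_rpow (by positivity) q1 hβ.le
      _ = _ := by
          rw [Real.mul_rpow (by norm_num) (by positivity), ← Real.rpow_mul hR0.le]
          congr 2
          ring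
  have q3 : (R / κ) ^ γ ≤ R ^ (e * γ) := by
    have : R / κ ≤ R ^ e := by
      rw [div_le_iff₀ hκ0]
      calc R = R ^ e * R ^ (1 - e) := by
            rw [← Real.rpow_add hR0]
            conv_lhs => rw [← Real.rpow_one R]
            congr 1
            ring
        _ ≤ _ := mul_le_mul_of_nonneg_left hκ (by positivity)
    calc (R / κ) ^ γ ≤ (R ^ e) ^ γ := Real.rpow_le_rpow (by positivity) this hγ.le
      _ = _ := by rw [← Real.rpow_mul hR0.le]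
  have q4 : s * (ρ0 / κ) ^ β ≤ 2 ^ β * R ^ (-a1) := by
    calc s * (ρ0 / κ) ^ β ≤ R ^ am * (2 ^ β * R ^ (-((g - e) * β))) :=
          mul_le_mul hs q2 (by positivity) (by positivity)
      _ = 2 ^ β * (R ^ am * R ^ (-((g - e) * β))) := by ring
      _ = 2 ^ β * R ^ (am + -((g - e) * β)) := by rw [← Real.rpow_add hR0]
      _ ≤ _ := by
          apply mul_le_mul_of_nonneg_left _ (by positivity)
          exact Real.rpow_le_rpow_of_exponent_le hR (by linarith)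
  have q5 : s * ((R / κ) ^ γ * R ^ (-(γ ^ 2 / 128))) ≤ R ^ (-a1) := by
    calc s * ((R / κ) ^ γ * R ^ (-(γ ^ 2 / 128))) ≤
        R ^ am * (R ^ (e * γ) * R ^ (-(γ ^ 2 / 128))) := by
          refine mul_le_mul hs (mul_le_mul_of_nonneg_right q3 (by positivity)) (by positivity)
            (by positivity)
      _ = R ^ (am + (e * γ + -(γ ^ 2 / 128))) := by rw [← Real.rpow_add hR0, ← Real.rpow_add hR0]
      _ ≤ _ := Real.rpow_le_rpow_of_exponent_le hR (by linarith)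
  calc 4 * s * (M * (ρ0 / κ) ^ β + C * ((R / κ) ^ γ * R ^ (-(γ ^ 2 / 128))))
      = 4 * M * (s * (ρ0 / κ) ^ β) + 4 * C * (s * ((R / κ) ^ γ * R ^ (-(γ ^ 2 / 128)))) := by ring
    _ ≤ 4 * M * (2 ^ β * R ^ (-a1)) + 4 * C * R ^ (-a1) := by
        apply add_le_add
        · exact mul_le_mul_of_nonneg_left q4 (by positivity)
        · exact mul_le_mul_of_nonneg_left q5 (by positivity)
    _ = _ := by ring

/-- expectation of a chain of sums -/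
theorem Ex_chain {V : Finset Pt} (X F i t : Conf → ℝ) {k a b K : ℝ} (ha : 0 ≤ a) :
    Ex V (fun ω => k * X ω + (a + (F ω + b * (K * i ω + t ω)))) ≤
      k * Ex V X + (a + (Ex V F + b * (K * Ex V i + Ex V t))) := by
  rw [H12.Ex_add, H12.Ex_mul]
  refine add_le_add le_rfl ((Ex_const_add ha _).trans ?_)
  rw [H12.Ex_add, H12.Ex_mul, H12.Ex_add, H12.Ex_mul]

/-- all the integer inequalities at macroscopic scales -/
theorem macro_num {g e am cz γ Cd : ℝ} (hg0 : 0 < g) (hg1 : g ≤ 1 / 1024) (hCd : 0 < Cd)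
    (he1 : e ≤ g / 4) (ham0 : 0 < am) (ha1 : am ≤ cz / 2)
    (ha2 : am ≤ γ / 1024) (ha4 : am ≤ g) :
    ∃ R0 : ℕ, 1 ≤ R0 ∧ ∀ R κ s : ℕ, R0 ≤ R → (R : ℝ) ^ (1 - e) ≤ κ → κ ≤ R → 8 ≤ s →
      (s : ℝ) ≤ (R : ℝ) ^ am →
      8 * s ≤ κ ∧ ⌈(R : ℝ) ^ (1 - g)⌉₊ + 1 ≤ κ ∧ 4 * s + 1 ≤ ⌈(R : ℝ) ^ (1 - g)⌉₊ ∧
      Cd * ⌈(R : ℝ) ^ (1 - g)⌉₊ ≤ ⌊(R : ℝ) ^ (1 - g / 2)⌋₊ ∧
      4 * s ≤ ⌊(R : ℝ) ^ (1 - g / 2)⌋₊ ∧ ⌊(R : ℝ) ^ (1 - g / 2)⌋₊ ≤ R ∧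
      3 * ⌊(R : ℝ) ^ (1 - g / 2)⌋₊ < κ ∧ ⌈(R : ℝ) ^ (1 - g)⌉₊ + 2 * s < κ ∧
      (s : ℝ) ≤ (R : ℝ) ^ (γ / 512) ∧ 4 * (s : ℝ) + 1 ≤ (R : ℝ) ^ (γ / 512) ∧
      2 * (s : ℝ) ≤ (R : ℝ) ^ cz ∧ (⌈(R : ℝ) ^ (1 - g)⌉₊ : ℝ) ≤ 2 * (R : ℝ) ^ (1 - g) := by
  obtain ⟨R1, hR1⟩ := pow_lt_ev (a := 1 - g) (b := 1 - g / 2) (by linarith) (4 * Cd + 100)
  obtain ⟨R2, hR2⟩ := pow_lt_ev (a := 1 - g / 2) (b := 1 - e) (by linarith) 16
  obtain ⟨R3, hR3⟩ := pow_lt_ev (a := am) (b := γ / 512) (by linarith) 16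
  obtain ⟨R4, hR4⟩ := pow_lt_ev (a := am) (b := 1 - g) (by linarith) 100
  obtain ⟨R5, hR5⟩ := pow_lt_ev (a := am) (b := cz) (by linarith) 2
  refine ⟨max 1 (max (max R1 R2) (max R3 (max R4 R5))), le_max_left _ _, ?_⟩
  intro R κ s hRR hκ hκR hs8 hs
  have hR1' : 1 ≤ R := (le_max_left _ _).trans hRR
  have hm := (le_max_right _ _).trans hRR
  have t1 := hR1 R (((le_max_left _ _).trans (le_max_left _ _)).trans hm)
  have t2 := hR2 R (((le_max_right _ _).trans (le_max_left _ _)).trans hm)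
  have t3 := hR3 R (((le_max_left _ _).trans (le_max_right _ _)).trans hm)
  have t4 := hR4 R (((le_max_left _ _).trans ((le_max_right _ _).trans
    (le_max_right _ _))).trans hm)
  have t5 := hR5 R (((le_max_right _ _).trans ((le_max_right _ _).trans
    (le_max_right _ _))).trans hm)
  clear hR1 hR2 hR3 hR4 hR5 hm hRR
  have hRr : (1 : ℝ) ≤ R := by exact_mod_cast hR1'
  have hR0 : (0 : ℝ) < R := by linarith
  have p1 : (1 : ℝ) ≤ (R : ℝ) ^ (1 - g) := Real.one_le_rpow hRr (by linarith)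
  have p2 : (1 : ℝ) ≤ (R : ℝ) ^ (1 - g / 2) := Real.one_le_rpow hRr (by linarith)
  have p3 : (1 : ℝ) ≤ (R : ℝ) ^ am := Real.one_le_rpow hRr ham0.le
  have p4 : (R : ℝ) ^ (1 - g / 2) ≤ R := by
    conv_rhs => rw [← Real.rpow_one (R : ℝ)]
    exact Real.rpow_le_rpow_of_exponent_le hRr (by linarith)
  have p5 : 0 ≤ Cd * (R : ℝ) ^ (1 - g) := by positivity
  have p6 : Cd ≤ Cd * (R : ℝ) ^ (1 - g) := le_mul_of_one_le_right hCd.le p1
  have hhn : (⌊(R : ℝ) ^ (1 - g / 2)⌋₊ : ℝ) ≤ (R : ℝ) ^ (1 - g / 2) :=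
    Nat.floor_le (by positivity)
  have hhl : (R : ℝ) ^ (1 - g / 2) < (⌊(R : ℝ) ^ (1 - g / 2)⌋₊ : ℝ) + 1 := Nat.lt_floor_add_one _
  have hρl : (R : ℝ) ^ (1 - g) ≤ (⌈(R : ℝ) ^ (1 - g)⌉₊ : ℝ) := Nat.le_ceil _
  have hρu : (⌈(R : ℝ) ^ (1 - g)⌉₊ : ℝ) ≤ 2 * (R : ℝ) ^ (1 - g) := by
    have := Nat.ceil_lt_add_one (a := (R : ℝ) ^ (1 - g)) (by positivity)
    linarith
  have t1' : 4 * (Cd * (R : ℝ) ^ (1 - g)) + 100 * (R : ℝ) ^ (1 - g) ≤ (R : ℝ) ^ (1 - g / 2) := by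
    linarith
  have hCρ : Cd * (⌈(R : ℝ) ^ (1 - g)⌉₊ : ℝ) ≤ 2 * (Cd * (R : ℝ) ^ (1 - g)) := by
    calc Cd * (⌈(R : ℝ) ^ (1 - g)⌉₊ : ℝ) ≤ Cd * (2 * (R : ℝ) ^ (1 - g)) :=
          mul_le_mul_of_nonneg_left hρu hCd.le
      _ = _ := by ring
  have hsr : (8 : ℝ) ≤ s := by exact_mod_cast hs8
  generalize (R : ℝ) ^ (1 - g) = X at *
  generalize (R : ℝ) ^ (1 - g / 2) = Y at *
  generalize (R : ℝ) ^ (1 - e) = Z at *
  generalize (R : ℝ) ^ am = W at *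
  generalize (R : ℝ) ^ cz = U at *
  generalize (R : ℝ) ^ (γ / 512) = G at *
  generalize ⌈X⌉₊ = ρ at *
  generalize ⌊Y⌋₊ = h at *
  generalize Cd * X = CX at *
  refine ⟨?_, ?_, ?_, ?_, ?_, ?_, ?_, ?_, ?_, ?_, ?_, ?_⟩
  · have : (8 * s : ℝ) ≤ κ := by linarith
    exact_mod_cast this
  · have : (ρ : ℝ) + 1 ≤ κ := by linarith
    exact_mod_cast this
  · have : (4 * s : ℝ) + 1 ≤ ρ := by linarith
    exact_mod_cast this
  · linarith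
  · have : (4 * s : ℝ) ≤ h := by linarith
    exact_mod_cast this
  · have : (h : ℝ) ≤ R := by linarith
    exact_mod_cast this
  · have : (3 * h : ℝ) < κ := by linarith
    exact_mod_cast this
  · have : (ρ : ℝ) + 2 * s < κ := by linarith
    exact_mod_cast this
  · linarith
  · linarith
  · linarith
  · linarith

/-- the density at scale `κ ≥ R^(1-e)` -/
theorem dens_scaled {R e cz C0 κ : ℝ} (hR : 1 ≤ R) (hC0 : 0 ≤ C0) (hκ : R ^ (1 - e) ≤ κ)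
    (he : e ≤ cz / 8) : 8 * C0 / κ ^ 2 ≤ 8 * C0 * R ^ (cz / 4) / R ^ 2 := by
  have hR0 : 0 < R := by linarith
  have hκ0 : 0 < κ := lt_of_lt_of_le (by positivity) hκ
  rw [div_le_div_iff₀ (by positivity) (by positivity)]
  have h4 : R ^ 2 ≤ R ^ (cz / 4) * κ ^ 2 := by
    have h5 : (R ^ (1 - e)) ^ 2 ≤ κ ^ 2 := pow_le_pow_left₀ (by positivity) hκ 2
    have h6 : R ^ 2 = R ^ (2 * e) * (R ^ (1 - e)) ^ 2 := by
      rw [← Real.rpow_natCast, ← Real.rpow_natCast, ← Real.rpow_mul hR0.le, ← Real.rpow_add hR0]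
      congr 1
      push_cast
      ring
    rw [h6]
    refine mul_le_mul ?_ h5 (by positivity) (by positivity)
    exact Real.rpow_le_rpow_of_exponent_le hR (by linarith)
  calc 8 * C0 * R ^ 2 ≤ 8 * C0 * (R ^ (cz / 4) * κ ^ 2) :=
        mul_le_mul_of_nonneg_left h4 (by positivity)
    _ = _ := by ring

theorem dF_oe_le (T : Temp) (E : Set Pt) (y : Pt) : dF (OE T E) y ≤ dF T.faceSet y := by
  obtain ⟨z, hz, hzy⟩ := H904.exists_dF (BDK.exists_notMem T) y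
  rw [← hzy]
  exact H904.dF_le (fun h => hz h.1)

open Classical in
/-- the good event, pointwise -/
theorem good_pt {T : Temp} {xS : ℤ} (τ : Stop T.V xS) {φ : Conf → Pt → ℝ} {s κ ρ0 : ℕ}
    {ω : Conf} {C0 err er Z F : ℝ} (hC0 : 0 ≤ C0) (hρκ : ρ0 + 1 ≤ κ)
    (h1 : UnS τ φ s ω ≤ (∑ y ∈ (S743.oe_finite T (τ.E ω)).toFinset, |φ ω y|) *
      (∑ x ∈ (S743.oe_finite T (τ.E ω)).toFinset.filter (fun x => |x.1 - xS| ≤ (ρ0 : ℤ) + 1),
        |gL T τ.E φ s ω x| + er) + Z) (h2 : Z ≤ F) (her0 : 0 ≤ er) (her : er ≤ err)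
    (hΦ : ∑ y ∈ (S743.oe_finite T (τ.E ω)).toFinset, |φ ω y| ≤ 128 * C0) :
    UnS τ φ s ω ≤ 128 * C0 * ((∑ x ∈ (S743.oe_finite T (τ.E ω)).toFinset.filter
      (fun x => |x.1 - xS| ≤ (κ : ℤ)), |gL T τ.E φ s ω x|) + err) + F := by
  have hstrip : ∑ x ∈ (S743.oe_finite T (τ.E ω)).toFinset.filter
        (fun x => |x.1 - xS| ≤ (ρ0 : ℤ) + 1), |gL T τ.E φ s ω x| ≤
      ∑ x ∈ (S743.oe_finite T (τ.E ω)).toFinset.filter
        (fun x => |x.1 - xS| ≤ (κ : ℤ)), |gL T τ.E φ s ω x| := by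
    refine sum_le_sum_of_subset_of_nonneg ?_ fun _ _ _ => abs_nonneg _
    intro x hx
    rw [mem_filter] at hx ⊢
    exact ⟨hx.1, by omega⟩
  refine h1.trans (add_le_add ?_ h2)
  refine mul_le_mul hΦ (add_le_add hstrip her) ?_ (by positivity)
  exact add_nonneg (sum_nonneg fun _ _ => abs_nonneg _) her0

open Classical in
/-- combination of the good and the bad event, pointwise -/
theorem comb_pt {T : Temp} {xS : ℤ} (τ : Stop T.V xS) {φ : Conf → Pt → ℝ} {s κ : ℕ}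
    {ω : Conf} {C0 err F M K t : ℝ} {Dom NB : Prop} (hC0 : 0 ≤ C0) (herr : 0 ≤ err)
    (hF : 0 ≤ F) (hM : 0 ≤ M) (hK : 0 ≤ K) (ht : 0 ≤ t)
    (h1 : Dom → NB → UnS τ φ s ω ≤ M * (128 * C0 * (K + t)))
    (h2 : Dom → ¬ NB → UnS τ φ s ω ≤ 128 * C0 *
      ((∑ x ∈ (S743.oe_finite T (τ.E ω)).toFinset.filter
      (fun x => |x.1 - xS| ≤ (κ : ℤ)), |gL T τ.E φ s ω x|) + err) + F) :
    (if Dom then UnS τ φ s ω else 0) ≤
      128 * C0 * (if Dom then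
        ∑ x ∈ (S743.oe_finite T (τ.E ω)).toFinset.filter (fun x => |x.1 - xS| ≤ (κ : ℤ)),
          |gL T τ.E φ s ω x| else 0) + (128 * C0 * err + (F + M * (128 * C0) *
        (K * (if NB then 1 else 0) + t))) := by
  have hi0 : (0 : ℝ) ≤ (if NB then 1 else 0) := by split_ifs <;> norm_num
  by_cases hd : Dom
  swap
  · rw [if_neg hd, if_neg hd, mul_zero]
    positivity
  rw [if_pos hd, if_pos hd]
  have h0 : (0 : ℝ) ≤ ∑ x ∈ (S743.oe_finite T (τ.E ω)).toFinset.filter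
      (fun x => |x.1 - xS| ≤ (κ : ℤ)), |gL T τ.E φ s ω x| :=
    sum_nonneg fun _ _ => abs_nonneg _
  by_cases hbad : NB
  · rw [if_pos hbad, mul_one]
    refine (h1 hd hbad).trans ?_
    have : 0 ≤ 128 * C0 * (∑ x ∈ (S743.oe_finite T (τ.E ω)).toFinset.filter
      (fun x => |x.1 - xS| ≤ (κ : ℤ)), |gL T τ.E φ s ω x|) := by positivity
    have h3 : 0 ≤ 128 * C0 * err := by positivity
    linarith
  · refine (h2 hd hbad).trans ?_
    rw [if_neg hbad, mul_zero, zero_add]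
    have h3 : 0 ≤ M * (128 * C0) * t := by positivity
    linarith

open Classical in
/-- **the unexplored loops at macroscopic scales** -/
theorem unx_macro : ∃ am > (0 : ℝ), ∃ e > (0 : ℝ), ∃ c > (0 : ℝ), ∀ C0 : ℝ, 0 ≤ C0 →
    ∃ C : ℝ, 0 ≤ C ∧ ∃ R0 : ℕ, 1 ≤ R0 ∧ ∀ (R : ℕ) (T : Temp), R0 ≤ R → Skel.Fits T R →
    ∀ κ s : ℕ, (R : ℝ) ^ (1 - e) ≤ κ → κ ≤ R → 8 ≤ s → (s : ℝ) ≤ (R : ℝ) ^ am →
    ∀ (xS : ℤ) (τ : Stop T.V xS) (Dom : Conf → Prop) (φ : Conf → Pt → ℝ),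
    (∀ ω ∈ DD T.V, Dom ω → τ.New ω ∧
      (∃ p, p ∉ OE T (τ.E ω) ∧ ∀ y, |φ ω y| ≤ dens C0 p κ y) ∧
      ∀ y, φ ω y ≠ 0 → κ ≤ dF (OE T (τ.E ω)) y) →
    Ex T.V (fun ω => if Dom ω then UnS τ φ s ω else 0) ≤ C * (R : ℝ) ^ (-c) +
      128 * C0 * Ex T.V (fun ω => if Dom ω then
        ∑ x ∈ (S743.oe_finite T (τ.E ω)).toFinset.filter (fun x => |x.1 - xS| ≤ (κ : ℤ)),
          |gL T τ.E φ s ω x| else 0) := by
  obtain ⟨γ, β0, hγ, hγ1, hβ0, hdet⟩ := det_nt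
  obtain ⟨β, hβ, hβ1, hglob⟩ := unx_global
  obtain ⟨γ', hγ', hγ1', hmass⟩ := mass_meso
  obtain ⟨g, hg⟩ : ∃ g : ℝ, g = γ ^ 2 / 1024 := ⟨_, rfl⟩
  have hg0 : 0 < g := by rw [hg]; positivity
  have hγ2 : γ ^ 2 ≤ 1 := pow_le_one₀ hγ.le hγ1
  have hg1 : g ≤ 1 / 1024 := by rw [hg]; linarith
  obtain ⟨cz, hcz, hzone⟩ := zone_scaled (e0 := g / 2) (by positivity)
  -- exponents
  obtain ⟨e, he⟩ : ∃ e : ℝ, e = min (g / 4) (cz / 8) := ⟨_, rfl⟩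
  have he0 : 0 < e := by rw [he]; exact lt_min (by positivity) (by positivity)
  have he1 : e ≤ g / 4 := by rw [he]; exact min_le_left _ _
  have he2 : e ≤ cz / 8 := by rw [he]; exact min_le_right _ _
  obtain ⟨am, ham⟩ : ∃ am : ℝ, am = min (min (cz / 2) (γ / 1024)) (min (g * β / 4) g) := ⟨_, rfl⟩
  have ham0 : 0 < am := by
    rw [ham]
    exact lt_min (lt_min (by positivity) (by positivity)) (lt_min (by positivity) hg0)
  have ha1 : am ≤ cz / 2 := by rw [ham]; exact (min_le_left _ _).trans (min_le_left _ _)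
  have ha2 : am ≤ γ / 1024 := by rw [ham]; exact (min_le_left _ _).trans (min_le_right _ _)
  have ha3 : am ≤ g * β / 4 := by rw [ham]; exact (min_le_right _ _).trans (min_le_left _ _)
  have ha4 : am ≤ g := by rw [ham]; exact (min_le_right _ _).trans (min_le_right _ _)
  obtain ⟨c, hc⟩ : ∃ c : ℝ, c = min (min (cz / 2) (1 / 4)) (min (g * β / 4) g) := ⟨_, rfl⟩
  have hc0 : 0 < c := by
    rw [hc]
    exact lt_min (lt_min (by positivity) (by norm_num)) (lt_min (by positivity) hg0)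
  have hc1 : c ≤ cz / 2 := by rw [hc]; exact (min_le_left _ _).trans (min_le_left _ _)
  have hc2 : c ≤ 1 / 4 := by rw [hc]; exact (min_le_left _ _).trans (min_le_right _ _)
  have hc3 : c ≤ g * β / 4 := by rw [hc]; exact (min_le_right _ _).trans (min_le_left _ _)
  have hc4 : c ≤ g := by rw [hc]; exact (min_le_right _ _).trans (min_le_right _ _)
  have hx1 : am + c ≤ (g - e) * β := by
    have h1 : 3 / 4 * g * β ≤ (g - e) * β := mul_le_mul_of_nonneg_right (by linarith) hβ.le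
    have h2 : 0 < g * β := by positivity
    linarith
  have hx2 : am + c + e * γ ≤ γ ^ 2 / 128 := by
    have : e * γ ≤ e := mul_le_of_le_one_right he0.le hγ1
    have h128 : γ ^ 2 / 128 = 8 * g := by rw [hg]; ring
    rw [h128]
    linarith
  clear he ham hc hc3 hc4 ha3 hγ2 hβ0 hγ' hγ1'
  refine ⟨am, ham0, e, he0, c, hc0, ?_⟩
  intro C0 hC0
  obtain ⟨Cd, hCd, hdet⟩ := hdet (1 / 2) 1 C0 (32 ^ 4) (by norm_num) one_pos hC0
  obtain ⟨Mg, hMg, hglob⟩ := hglob C0 (32 ^ 4) hC0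
  obtain ⟨M, hM, hmass⟩ := hmass C0 (32 ^ 4) hC0
  obtain ⟨Cz, hCz, hzone⟩ := hzone (8 * C0) (32 ^ 4) (by positivity) (by norm_num)
  obtain ⟨Cτ, hCτ, htau⟩ := tau_small HT.l_cosh K.c_height' (ε := 1 / 2) (by norm_num) 1
  obtain ⟨R0, hR01, hnum⟩ := macro_num hg0 hg1 hCd he1 ham0 ha1 ha2 ha4
  refine ⟨128 * C0 * (4 * Mg * 2 ^ β + 4 * Cd) + Cz + M * (128 * C0) * (Cd + Cτ), by positivity,
    R0, hR01, ?_⟩
  intro R T hRR hfit κ s hκ hκR hs8 hs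
  have hR1' : 1 ≤ R := hR01.trans hRR
  obtain ⟨n1, n2, n3, n4, n5, n6, n7, n8, n9, n10, n11, n12⟩ := hnum R κ s hRR hκ hκR hs8 hs
  clear hnum
  have hRr : (1 : ℝ) ≤ R := by exact_mod_cast hR1'
  have hR0 : (0 : ℝ) < R := by linarith
  obtain ⟨ρ0, hρ0⟩ : ∃ ρ0 : ℕ, ρ0 = ⌈(R : ℝ) ^ (1 - g)⌉₊ := ⟨_, rfl⟩
  obtain ⟨h, hh⟩ : ∃ h : ℕ, h = ⌊(R : ℝ) ^ (1 - g / 2)⌋₊ := ⟨_, rfl⟩
  rw [← hρ0] at n2 n3 n4 n8 n12
  rw [← hh] at n4 n5 n6 n7
  have hhu : (h : ℝ) ≤ (R : ℝ) ^ (1 - g / 2) := by rw [hh]; exact Nat.floor_le (by positivity)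
  have hρl : (R : ℝ) ^ (1 - g) ≤ ρ0 := by rw [hρ0]; exact Nat.le_ceil _
  clear hh hρ0
  have hs1 : 1 ≤ s := by omega
  have hκ1 : 1 ≤ κ := by omega
  have hPr := (hdet R T hR1' hfit ((0 : ℤ), (0 : ℤ)) R κ s ρ0 (4 * s)
    (by
      conv_rhs => rw [← Real.rpow_one (R : ℝ)]
      exact Real.rpow_le_rpow_of_exponent_le hRr (by norm_num))
    le_rfl hκR hs1 n1 n9 (by push_cast; linarith) (by rw [← hg]; exact hρl)
    (by omega) (by omega) le_rfl).1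
  clear hdet
  obtain ⟨F, hF0, hEF, hF⟩ := hzone R T hR1' hfit s h hs1 (n1.trans hκR) (by push_cast; linarith)
    hhu n6
  clear hzone
  have hEt := htau R T hR1' hfit
  clear htau
  intro xS τ Dom φ hDom
  obtain ⟨S0, hS0⟩ : ∃ S0 : Finset Pt, S0 = box ((0 : ℤ), (0 : ℤ)) R := ⟨_, rfl⟩
  obtain ⟨K, hK⟩ : ∃ K : ℝ, K = (R : ℝ) ^ (1 / 2 : ℝ) := ⟨_, rfl⟩
  have hK0 : 0 ≤ K := by rw [hK]; positivity
  obtain ⟨err, herr⟩ : ∃ err : ℝ, err = (4 * Mg * 2 ^ β + 4 * Cd) * (R : ℝ) ^ (-c) := ⟨_, rfl⟩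
  have herr0 : 0 ≤ err := by rw [herr]; positivity
  have her := err_num (R := (R : ℝ)) (g := g) (e := e) (am := am) (a1 := c) (M := Mg)
        (C := Cd) (κ := (κ : ℝ)) (ρ0 := (ρ0 : ℝ)) (s := (s : ℝ)) (γ := γ) (β := β) hRr hMg.le
        hCd.le hβ hγ hκ n12 (by positivity) hs hx1 hx2
  rw [← herr] at her
  rw [← hS0, ← hK] at hEt
  have key : ∀ ω ∈ DD T.V, (if Dom ω then UnS τ φ s ω else 0) ≤
      128 * C0 * (if Dom ω then
        ∑ x ∈ (S743.oe_finite T (τ.E ω)).toFinset.filter (fun x => |x.1 - xS| ≤ (κ : ℤ)),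
          |gL T τ.E φ s ω x| else 0) + (128 * C0 * err + (F ω + M * (128 * C0) *
        (K * (if NBad T ((0 : ℤ), (0 : ℤ)) R κ s ρ0 (4 * s) C0 (32 ^ 4) γ Cd ω then 1 else 0) +
          tauN S0 K ω))) := by
    intro ω hω
    have hO := S743.oe_finite T (τ.E ω)
    have hcut : IsCut (OE T (τ.E ω)) s (32 ^ 4) (cutf (OE T (τ.E ω)) s) :=
      cutf_isCut (exists_notMem hO) hs8 le_rfl
    have hu := pot_spec hO (φ ω)
    refine comb_pt τ hC0 herr0 (hF0 ω) hM hK0 (tauN_nonneg S0 K ω) ?_ ?_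
    · intro hd _
      obtain ⟨hN, ⟨p, hp, hφ⟩, hsupp⟩ := hDom ω hω hd
      have m1 := (hmass _ p κ s _ (φ ω) _ hO (Stop.cpr (τ := τ) hω) hp hκ1 hs1 n1 hcut hφ hu).1
      rw [hS0]
      refine unx_crude (R := R) (K := K) hω (τ.E ω) (g := gL T τ.E φ s ω) (φ := φ ω)
        (S := hO.toFinset) hM hK0 (fL_zero_off hO hs1 hcut hu) (m1 _) ?_
        ((sum_le_sum fun y _ => hφ y).trans (dens_mass hC0 p hκ1 _))
      intro y hy
      by_contra hne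
      have h1 := hsupp y hne
      have h2 : y ∈ OE T (τ.E ω) := BD.mem_of_lt_dF (z := y) (by rw [H904.dn_self]; omega)
      exact hy (hfit h2.1)
    · intro hd hbad
      obtain ⟨hN, ⟨p, hp, hφ⟩, hsupp⟩ := hDom ω hω hd
      refine good_pt τ hC0 n2 (hglob T xS τ ω hω hN R κ s ρ0 (4 * s) h γ Cd hfit hbad hs1 n1
        (by omega) (by omega) le_rfl n4 n5 p (φ ω) (pot (OE T (τ.E ω)) (φ ω)) _ hp hφ hcut hu
        (fun y hy => lt_of_lt_of_le n8 (hsupp y hy)) hO)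
        (hF xS τ ω hω hN (φ ω) (pot (OE T (τ.E ω)) (φ ω)) _ (fun y => ?_) (fun y hy => ?_)
          hcut hu) (by positivity) her
        ((sum_le_sum fun y _ => hφ y).trans (dens_mass hC0 p hκ1 _))
      · exact (hφ y).trans ((dens_le hC0 p hκ1 y).trans (dens_scaled hRr hC0 hκ he2))
      · exact lt_of_lt_of_le n7 ((hsupp y hy).trans (dF_oe_le T _ y))
  refine (H12.Ex_mono key).trans ((Ex_chain _ F _ _ (by positivity)).trans ?_)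
  have hE : Ex T.V (fun ω => if NBad T ((0 : ℤ), (0 : ℤ)) R κ s ρ0 (4 * s) C0 (32 ^ 4) γ Cd ω
      then (1 : ℝ) else 0) =
      Pr T.V (NBad T ((0 : ℤ), (0 : ℤ)) R κ s ρ0 (4 * s) C0 (32 ^ 4) γ Cd) := by
    rw [Vale.Agent.P155.E.Pr_eq_avg, Ex_eq_avg]
  rw [hE]
  have e1 : (R : ℝ) ^ (-(cz / 2)) ≤ (R : ℝ) ^ (-c) :=
    Real.rpow_le_rpow_of_exponent_le hRr (by linarith)
  have e2 : (R : ℝ) ^ (-1 : ℝ) ≤ (R : ℝ) ^ (-c) :=
    Real.rpow_le_rpow_of_exponent_le hRr (by linarith)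
  have e3 : K * (Cd * (R : ℝ) ^ (-1 : ℝ)) ≤ Cd * (R : ℝ) ^ (-c) := by
    calc K * (Cd * (R : ℝ) ^ (-1 : ℝ)) = Cd * (K * (R : ℝ) ^ (-1 : ℝ)) := by ring
      _ = Cd * (R : ℝ) ^ (-(1 / 2) : ℝ) := by
          rw [hK, ← Real.rpow_add hR0]
          congr 2
          norm_num
      _ ≤ _ := mul_le_mul_of_nonneg_left
          (Real.rpow_le_rpow_of_exponent_le hRr (by linarith)) hCd.le
  have f1 : Ex T.V F ≤ Cz * (R : ℝ) ^ (-c) := hEF.trans (mul_le_mul_of_nonneg_left e1 hCz)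
  have f2 : Ex T.V (tauN S0 K) ≤ Cτ * (R : ℝ) ^ (-c) :=
    hEt.trans (mul_le_mul_of_nonneg_left e2 hCτ)
  have f3 := (mul_le_mul_of_nonneg_left hPr hK0).trans e3
  have f4 := mul_le_mul_of_nonneg_left (add_le_add f3 f2)
    (mul_nonneg hM (by positivity : (0 : ℝ) ≤ 128 * C0))
  rw [herr]
  calc _ ≤ 128 * C0 * Ex T.V (fun ω => if Dom ω then
        ∑ x ∈ (S743.oe_finite T (τ.E ω)).toFinset.filter (fun x => |x.1 - xS| ≤ (κ : ℤ)),
          |gL T τ.E φ s ω x| else 0) +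
        (128 * C0 * ((4 * Mg * 2 ^ β + 4 * Cd) * (R : ℝ) ^ (-c)) + (Cz * (R : ℝ) ^ (-c) +
          M * (128 * C0) * (Cd * (R : ℝ) ^ (-c) + Cτ * (R : ℝ) ^ (-c)))) :=
        add_le_add le_rfl (add_le_add le_rfl (add_le_add f1 f4))
    _ = _ := by ring

end Vale.Agent.P155.NT613
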