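import Vale.Agent.P155.NT613.VBM
import Vale.Agent.P155.NT34.VBf

/-!
# P155, NT, visit bound: the mesoscopic regime, end, and the visit bound at all scales
-/

namespace Vale.Agent.P155.NT613

open Vale.Agent.P155 Finset SW HT T905 T802 T862 G45 J H904 H12 NT E4 S862 NT905 NT743 S743 NT34

/-- **the visit bound at mesoscopic scales** -/
theorem vb_mes {K : ℕ} {cv : ℝ} (hK : 17 ≤ K) (hcv : 0 < cv) (hV : NT34.VisLe K cv) :
    NT34.VBMes K := by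
  classical
  obtain ⟨AH, hAH, hhit⟩ := NT34.hit_le
  obtain ⟨γ, hγ, hγ1, hrand⟩ := v1_rand
  obtain ⟨γf, hγf, Cf, hCf, hfar⟩ := mes_far
  intro e he0 he1 c a0 θ hc ha0 hθ
  obtain ⟨L, hL⟩ : ∃ L : ℕ, L = 5 * (K + 1) + 1 := ⟨_, rfl⟩
  have hL1 : 1 ≤ L := by omega
  have hL0 : (0 : ℝ) < L := by exact_mod_cast hL1
  obtain ⟨t, ht⟩ : ∃ t : ℝ, t = min θ (14 * c) := ⟨_, rfl⟩
  have ht0 : 0 < t := by rw [ht]; exact lt_min hθ (by positivity)
  have ht1 : t ≤ θ := by rw [ht]; exact min_le_left _ _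
  have ht2 : t ≤ 14 * c := by rw [ht]; exact min_le_right _ _
  obtain ⟨am, ham, huns⟩ := mes_uns ha0
  obtain ⟨cu, hcu, huns⟩ := huns e he0 he1
  obtain ⟨Cu, hCu, R1, hR1, huns⟩ := huns K t hK ht0
  obtain ⟨a, ha, haam, CT, hCT, c1, hc1, hc11, C1, hC1, R2, hR2, hrand⟩ :=
    hrand a0 (16000000 * (L : ℝ) ^ 6) (am / 4) ha0 (by positivity) (by positivity)
  obtain ⟨x', hx'⟩ : ∃ x' : ℝ, x' = min (e / 4) (γ ^ 2 / 4096) := ⟨_, rfl⟩
  have hx0 : 0 < x' := by rw [hx']; exact lt_min (by positivity) (by positivity)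
  obtain ⟨R3, hR3, hnum⟩ := mes_num (g4 := γ ^ 2 / 4096) (CT := CT) (L := L) ha0 he1 hx0
    (by rw [hx']; exact min_le_left _ _) (by rw [hx']; exact min_le_right _ _) ht0 hCT hL1
  obtain ⟨R4, hR4, hsn⟩ := s_num ha (by linarith : 4 * a ≤ am)
  obtain ⟨y, hy⟩ : ∃ y : ℝ, y = a0 * x' := ⟨_, rfl⟩
  have hy0 : 0 < y := by rw [hy]; positivity
  rw [← hy] at hnum
  obtain ⟨β, hβdef⟩ : ∃ β : ℝ, β = min (min c1 cu) (y * min γf 1) := ⟨_, rfl⟩
  have hβ : 0 < β := by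
    rw [hβdef]
    exact lt_min (lt_min hc1 hcu) (mul_pos hy0 (lt_min hγf one_pos))
  have hβ1 : β ≤ c1 := by rw [hβdef]; exact (min_le_left _ _).trans (min_le_left _ _)
  have hβ2 : β ≤ cu := by rw [hβdef]; exact (min_le_left _ _).trans (min_le_right _ _)
  have hβ3 : β ≤ y * min γf 1 := by rw [hβdef]; exact min_le_right _ _
  refine ⟨cv⁻¹ * (C1 * AH), by positivity, β, hβ,
    cv⁻¹ * (C1 * (10 + Cf * (L : ℝ) ^ 2 * 8 + Cu)), by positivity,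
    max (max R1 R2) (max R3 R4), ?_⟩
  intro R hR T hfit xS q r k n hcr hrR hq hn hnR b S x hS hx hdom
  have hRR1 : R1 ≤ R := ((le_max_left _ _).trans (le_max_left _ _)).trans hR
  have hRR2 : R2 ≤ R := ((le_max_right _ _).trans (le_max_left _ _)).trans hR
  have hRR3 : R3 ≤ R := ((le_max_left _ _).trans (le_max_right _ _)).trans hR
  have hRR4 : R4 ≤ R := ((le_max_right _ _).trans (le_max_right _ _)).trans hR
  have hRn : 1 ≤ R := hR1.trans hRR1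
  have hRr : (1 : ℝ) ≤ R := by exact_mod_cast hRn
  have hRp : (0 : ℝ) < R := by linarith
  have hr : 1 ≤ r := by
    have : (0 : ℝ) < r := lt_of_lt_of_le (by positivity) hcr
    exact_mod_cast this
  obtain ⟨N, ρ, n1, n2, n3, n4, n5, n6, n7, n8⟩ := hnum R n hRR3 hn hnR
  clear hnum
  have hnL : n ≤ L * n := Nat.le_mul_of_pos_left n hL1
  obtain ⟨s, hs⟩ : ∃ s : ℕ, s = ⌈(R : ℝ) ^ a⌉₊ := ⟨_, rfl⟩
  obtain ⟨ρ0, hρ⟩ : ∃ ρ0 : ℕ, ρ0 = ⌈(N : ℝ) ^ (1 - γ ^ 2 / 1024)⌉₊ := ⟨_, rfl⟩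
  obtain ⟨⟨s1, s2, s3⟩, hdrop⟩ := hrand R (L * n) N T hRR2 hfit
    (hn.trans (by exact_mod_cast hnL)) n2 n3 n4 s ρ0 hs hρ
  clear hrand
  obtain ⟨m1, m2⟩ := n8 ρ0 (by omega)
  have hsam : (s : ℝ) ≤ (R : ℝ) ^ am := by rw [hs]; exact (hsn R hRR4).1
  have hss : s ≤ s ^ 2 := by
    rw [sq]
    exact Nat.le_mul_of_pos_left s (by omega)
  have hKn : (K + 1) * n = K * n + n := by ring
  have hK17 : 17 * n ≤ K * n := Nat.mul_le_mul_right _ hK
  have hL5 : L * n = 5 * (K + 1) * n + n := by rw [hL]; ring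
  choose p hp1 hp2 using fun ω : Conf => G45.exists_dF
    (exists_notMem (oe_finite T ((tE T.V xS q r k).toStop.E ω))) (x ω)
  have hpx : ∀ ω ∈ DD T.V, S ω → dn (p ω) (x ω) + n ≤ L * n := by
    intro ω hω hSω
    obtain ⟨-, -, -, -, h4⟩ := hdom ω hω hSω
    rw [H904.dn_comm, hp2]
    omega
  have hline : ∀ ω ∈ DD T.V, S ω → t * R ≤ ((|(x ω).1 - xS| : ℤ) : ℝ) := by
    intro ω hω hSω
    have h1 := line_far hcr hq (hdom ω hω hSω).2.1
    have h2 : t * R ≤ 14 * c * R := mul_le_mul_of_nonneg_right ht2 hRp.le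
    linarith
  have hpoly : ∀ ω ∈ DD T.V, S ω → t * R ≤ dF T.faceSet (x ω) := by
    intro ω hω hSω
    have h2 : t * R ≤ θ * R := mul_le_mul_of_nonneg_right ht1 hRp.le
    exact h2.trans (hdom ω hω hSω).2.2.1
  -- the drop
  have hd := hdrop xS q r k n b S x p hx hS hr hq (by omega) (fun ω hω hSω => by
    obtain ⟨g1, g2, g3, g4, g5⟩ := hdom ω hω hSω
    refine ⟨g1, mem_box_of_dF hfit (by positivity) g3, hp1 ω, ?_, by omega⟩
    have h1 := bump_off (κ := n) (L := L) (x := x ω) (p := p ω) (by omega) hL1 (hpx ω hω hSω)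
    exact h1)
  clear hdrop
  -- far and zone
  have hF : Ex T.V (fun ω => if S ω then
      farL (tE T.V xS q r k).toStop (fun ω => S743.bump n (x ω)) s N (x ω) ρ0 ω +
      zoneS (tE T.V xS q r k).toStop (fun ω => S743.bump n (x ω)) s N (x ω) (CT * ρ0) ω else 0) ≤
      Cf * (L : ℝ) ^ 2 * (8 * (R : ℝ) ^ (-(y * min γf 1))) := by
    refine Ex_dom_const (by positivity) fun ω hω hSω => ?_
    exact hfar T xS (tE T.V xS q r k).toStop ω hω x (p ω) n L s ρ N ρ0 (t * R) y CT R hRr (hp1 ω)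
      (by omega) hL1 (hpx ω hω hSω) n5 n6 s1 (by omega) m1 m2 (hpoly ω hω hSω) (hline ω hω hSω) n7
  -- unexplored loops
  have hUn := huns R T hRR1 hfit n s hn hnR (by omega) s1 hsam xS q r k S x hx hr hq
    (fun ω hω hSω => ⟨(hdom ω hω hSω).1, hpoly ω hω hSω, hline ω hω hSω,
      (hdom ω hω hSω).2.2.2.1, (hdom ω hω hSω).2.2.2.2⟩)
  clear huns
  -- Harnack
  have hO : ∀ ω, OE T ((tE T.V xS q r k).toStop.E ω) = NT276.ON T xS ω q r k := by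
    intro ω
    rw [Tm.GTime.toStop_E, tE_N]
    rfl
  have hH : Ex T.V (fun ω => if S ω then
      ∑ y ∈ (oe_finite T ((tE T.V xS q r k).toStop.E ω)).toFinset, S743.bump n (x ω) y *
      (if b then (tE T.V xS q r k).toStop.Hf ω y else 1 - (tE T.V xS q r k).toStop.Hf ω y)
      else 0) ≤ AH * Ex T.V (fun ω => if S ω then NT733.Gb T xS q r k b ω (x ω) else 0) := by
    rw [← Ex_dom_mul]
    refine Ex_dom_mono fun ω hω hSω => ?_
    refine hhit T xS q r k b ω x n (by omega) ?_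
    have := (hdom ω hω hSω).2.2.2.1
    rw [hO] at this
    omega
  have hvis := hV T xS q r k x hx n S hr hq n1 (fun ω hω hSω => ⟨(hdom ω hω hSω).1, by
    have := (hdom ω hω hSω).2.2.2.1
    omega⟩)
  obtain ⟨G, hG⟩ : ∃ G : ℝ, G = Ex T.V (fun ω => if S ω then
    NT733.Gb T xS q r k b ω (x ω) else 0) := ⟨_, rfl⟩
  rw [← hG] at hH ⊢
  obtain ⟨X, hX⟩ : ∃ X : ℝ, X = (R : ℝ) ^ (-β) := ⟨_, rfl⟩
  have hX0 : 0 ≤ X := by rw [hX]; positivity
  have x1 : (R : ℝ) ^ (-c1) ≤ X := by rw [hX]; exact NT34.rpow_le_of_le hRr hβ1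
  have x2 : (R : ℝ) ^ (-cu) ≤ X := by rw [hX]; exact NT34.rpow_le_of_le hRr hβ2
  have x3 : (R : ℝ) ^ (-(y * min γf 1)) ≤ X := by
    rw [hX]; exact NT34.rpow_le_of_le hRr hβ3
  have y2 := hUn.trans (mul_le_mul_of_nonneg_left x2 hCu)
  have y3 : Cf * (L : ℝ) ^ 2 * (8 * (R : ℝ) ^ (-(y * min γf 1))) ≤
      Cf * (L : ℝ) ^ 2 * 8 * X := by
    rw [mul_assoc (Cf * (L : ℝ) ^ 2) 8 X]
    exact mul_le_mul_of_nonneg_left (mul_le_mul_of_nonneg_left x3 (by norm_num)) (by positivity)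
  have hnβ : 0 ≤ ((n : ℝ) / R) ^ β := by positivity
  have h7 := hvis.trans hd
  have h8 : cv * Ex T.V (fun ω => if S ω then
      (if Visited T xS q r k x (3 * n) ω then (1 : ℝ) else 0) else 0) ≤
      C1 * (AH * G + (10 + Cf * (L : ℝ) ^ 2 * 8 + Cu) * X) := by
    refine h7.trans (mul_le_mul_of_nonneg_left ?_ hC1)
    have e1 : (10 + Cf * (L : ℝ) ^ 2 * 8 + Cu) * X = 10 * X + Cf * (L : ℝ) ^ 2 * 8 * X + Cu * X := by
      ring
    rw [e1]
    linarith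
  have h9 : Ex T.V (fun ω => if S ω then
      (if Visited T xS q r k x (3 * n) ω then (1 : ℝ) else 0) else 0) ≤
      cv⁻¹ * (C1 * (AH * G + (10 + Cf * (L : ℝ) ^ 2 * 8 + Cu) * X)) := by
    rw [inv_mul_eq_div, le_div_iff₀ hcv, mul_comm]
    exact h8
  refine h9.trans ?_
  rw [← hX]
  have h10 : 0 ≤ cv⁻¹ * (C1 * (10 + Cf * (L : ℝ) ^ 2 * 8 + Cu)) * ((n : ℝ) / R) ^ β := by
    positivity
  have e8 : cv⁻¹ * (C1 * (AH * G + (10 + Cf * (L : ℝ) ^ 2 * 8 + Cu) * X)) =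
      cv⁻¹ * (C1 * AH) * G + cv⁻¹ * (C1 * (10 + Cf * (L : ℝ) ^ 2 * 8 + Cu)) * X := by ring
  rw [e8, mul_add]
  linarith

/-- **the visit bound at all scales** -/
theorem vbp2 : NT34.VBP2 := NT34.vbp2_of_mes fun _ _ hK hcv hV => vb_mes hK hcv hV

end Vale.Agent.P155.NT613
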