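import Vale.Agent.P155.NT613.XC
import Vale.Agent.P155.NO801.Def

/-!
# P155, necessity of the outer condition, (C): the block `CP`
-/

namespace Vale.Agent.P155.NT613

open Topology Filter MeasureTheory TopologicalSpace Vale.Agent.P155 Vale.Agent.P155.Q1
  Vale.Agent.P155.NO801

variable {V : Finset Pt} {ω : Conf} {δ : ℝ} {a : ℂ}

theorem LL_mult (hω : ω ∈ DD V) (hδ : 0 < δ) (a : ℂ) (γ : Loop) :
    (LL δ a ω).mult γ = Set.ncard {L | L ∈ Loops ω ∧ loopOf δ a ω L = γ} := by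
  have hfin := P155.L.loops_finite hω
  unfold LL
  rw [dif_pos hfin]
  show (if 0 < γ.diam then Set.ncard {i | i ∈ Loops ω ∧ loopOf δ a ω i = γ} else 0) = _
  split_ifs with h0
  · rfl
  · symm
    rw [Set.ncard_eq_zero (hfin.subset fun L hL => hL.1), Set.eq_empty_iff_forall_notMem]
    rintro L ⟨hL, hLγ⟩
    apply h0
    obtain ⟨v, hv, hvL, he⟩ := loopOf_eq hω hL δ a
    rw [← hLγ, he]
    exact lcurve_diam_pos hω hδ a (mem_V_of_loop hω hv)

open Classical in
/-- the sum over the collection is the sum over the loops -/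
theorem Sf_LL (hω : ω ∈ DD V) (hδ : 0 < δ) (a : ℂ) (f : Loop → ℝ) :
    Sf f (LL δ a ω) = ∑ L ∈ HT.LF ω, f (loopOf δ a ω L) := by
  have hLF : ∀ L, L ∈ HT.LF ω ↔ L ∈ Loops ω := fun L => HT.mem_LF hω
  have hm : ∀ γ, (LL δ a ω).mult γ = ((HT.LF ω).filter (fun L => loopOf δ a ω L = γ)).card := by
    intro γ
    rw [LL_mult hω hδ, ← Set.ncard_coe_finset]
    congr 1
    ext L
    rw [Finset.mem_coe, Finset.mem_filter, hLF]
    rfl
  unfold Sf
  rw [finsum_eq_sum_of_support_subset (s := (HT.LF ω).image (loopOf δ a ω)) _ (by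
    intro γ hγ
    rw [Function.mem_support, hm] at hγ
    rw [Finset.mem_coe, Finset.mem_image]
    have h1 : ((HT.LF ω).filter (fun L => loopOf δ a ω L = γ)).card ≠ 0 := by
      intro h0
      rw [h0] at hγ
      simp at hγ
    obtain ⟨L, hL⟩ := Finset.card_ne_zero.1 h1
    exact ⟨L, (Finset.mem_filter.1 hL).1, (Finset.mem_filter.1 hL).2⟩)]
  rw [← Finset.sum_fiberwise_of_maps_to (s := HT.LF ω) (t := (HT.LF ω).image (loopOf δ a ω))
    (g := loopOf δ a ω) (fun L hL => Finset.mem_image_of_mem _ hL)]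
  refine Finset.sum_congr rfl fun γ _ => ?_
  rw [hm, Finset.sum_congr rfl (g := fun _ => f γ) (fun L hL => by
    rw [(Finset.mem_filter.1 hL).2]), Finset.sum_const, nsmul_eq_mul]

/-- **block (C)** -/
theorem cp : CP := by
  classical
  intro V δ a hδ ω hω
  refine ⟨fun L hL v hv w hw => diam_ge hω hδ.le a hL hv hw, fun z0 L hL v hv => ?_,
    fun z m L hL h => ?_, fun z m L hL h => surr_wide hω hL h, fun f hf s hs => ?_⟩
  · rw [dist_comm]
    obtain ⟨v0, h0, h1, h2⟩ := loopOf_eq hω hL δ a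
    rw [h2, nr_mk]
    rw [← h1] at hv
    exact Metric.infDist_le_dist_of_mem (pt_mem_range hω δ a h0 hv)
  · obtain ⟨v, hv, hvb⟩ := cuts_near hω hL h.1 h.2
    refine ⟨v, hv, ?_⟩
    rw [H12.mem_box] at hvb
    rw [G45.dn_eq]
    push_cast at hvb
    omega
  · rw [Sf_LL hω hδ]
    refine Finset.sum_le_sum_of_subset_of_nonneg (fun L hL => ?_) fun _ _ _ => hf _
    exact (HT.mem_LF hω).2 (hs L hL)

theorem near_eq_nr (z : ℂ) (γ : Loop) : near z γ = nr z γ := by
  obtain ⟨γ, rfl⟩ := SeparationQuotient.surjective_mk γ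
  rfl

/-- the members of a limit collection are in `Ω` -/
theorem nr_of_holes {Ω : Set ℂ} {G : ℕ → NonemptyCompacts ℂ} {Γ : LoopColl}
    (h : HoleLoops Ω G Γ) {z : ℂ} {r : ℝ} (hr : ∀ w ∈ Ω, r ≤ dist w z) {γ : Loop}
    (hγ : Γ.mult γ ≠ 0) : r ≤ nr z γ := by
  rw [← near_eq_nr]
  exact near_of_holes h hr hγ

/-- sums over the limit collection of a function which vanishes far from `Ω` -/
theorem Sf_of_holes {Ω : Set ℂ} {G : ℕ → NonemptyCompacts ℂ} {Γ : LoopColl}
    (h : HoleLoops Ω G Γ) {z : ℂ} {r : ℝ} (hr : ∀ w ∈ Ω, r ≤ dist w z) {f : Loop → ℝ}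
    (hf : ∀ γ, r ≤ nr z γ → f γ = 0) : Sf f Γ = 0 := by
  unfold Sf
  rw [← finsum_zero (α := Loop) (M := ℝ)]
  refine finsum_congr fun γ => ?_
  by_cases h0 : Γ.mult γ = 0
  · rw [h0]; simp
  · rw [hf γ (nr_of_holes h hr h0), mul_zero]

end Vale.Agent.P155.NT613
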