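import Vale.Agent.P155.NT613.Zn

/-!
# P155, block NT-B4: `NearPoly` from `SecP` and FAT
-/

namespace Vale.Agent.P155.NT613

open Vale.Agent.P155 Finset Skel BD J H12 E4

/-- majorant of one zone -/
noncomputable def zF (T : Temp) (U : Pt → ℝ) (h r : ℕ) (κ lam : ℝ) (ω : Conf) : ℝ :=
  if 128 * r ≤ h then thF T U r κ ω +
    κ⁻¹ * (lam / 2 + (2 * lam)⁻¹ * SQ (Sw T (265 * r)) (Dz T U r) ω) else 0

/-- majorant of the bottom zone -/
noncomputable def bF (T : Temp) (W : Pt → ℝ) (ρ D : ℕ) (lam : ℝ) (ω : Conf) : ℝ :=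
  lam / 2 + (2 * lam)⁻¹ * SQ (Sw T (3 * ρ)) (Db T W ρ D) ω

theorem zF_nonneg {T : Temp} {U : Pt → ℝ} (hU : ∀ x, 0 ≤ U x) (h r : ℕ) {κ lam : ℝ} (hκ : 0 < κ)
    (hl : 0 < lam) (ω : Conf) : 0 ≤ zF T U h r κ lam ω := by
  unfold zF
  split_ifs
  · have h1 := thF_nonneg (T := T) hU r κ ω
    have h2 := SQ_nonneg (Sw T (265 * r)) (Dz T U r) ω
    positivity
  · exact le_rfl

theorem bF_nonneg (T : Temp) (W : Pt → ℝ) (ρ D : ℕ) {lam : ℝ}
    (hl : 0 < lam) (ω : Conf) : 0 ≤ bF T W ρ D lam ω := by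
  unfold bF
  have h2 := SQ_nonneg (Sw T (3 * ρ)) (Db T W ρ D) ω
  positivity

theorem Ex_half {V : Finset Pt} {g : Conf → ℝ} {a b : ℝ} (ha : 0 ≤ a) :
    Ex V (fun ω => a + b * g ω) ≤ a + b * Ex V g := by
  rw [H12.Ex_add, H12.Ex_mul]
  have := H12.Ex_const_le (V := V) (g := fun _ => a) ha (fun _ _ => le_rfl)
  linarith

theorem Ex_bF {T : Temp} {W : Pt → ℝ} {ρ D : ℕ} {R c C : ℝ} (hR : 1 ≤ R) (hC : 0 ≤ C)
    (h : Ex T.V (SQ (Sw T (3 * ρ)) (Db T W ρ D)) ≤ C * R ^ (-c)) :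
    Ex T.V (bF T W ρ D (R ^ (-(c / 2)))) ≤ (1 + C) * R ^ (-(c / 2)) := by
  have hR0 : 0 < R := by linarith
  unfold bF
  refine (Ex_half (by positivity)).trans ?_
  exact lam_num hR hC h

theorem Ex_zF {T : Temp} {U : Pt → ℝ} (hU0 : ∀ x, 0 ≤ U x) {h r : ℕ} {R c C K2 q : ℝ}
    (hR : 1 ≤ R) (hC : 0 ≤ C) (hr : 1 ≤ r) (hq : 0 ≤ q) (hK2 : 0 ≤ K2)
    (hp : ∀ z ∈ Zn T r, Pr T.V (fun ω => ∃ L ∈ Loops ω, Thin ω L z (2 * r) (R ^ (-(c / 4)))) ≤ q)
    (hz : ∑ x ∈ Zn T r, U x ≤ K2 * ((129 * r : ℕ) : ℝ) ^ 2)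
    (hS : 128 * r ≤ h → Ex T.V (SQ (Sw T (265 * r)) (Dz T U r)) ≤ C * R ^ (-c)) :
    Ex T.V (zF T U h r (R ^ (-(c / 4))) (R ^ (-(c / 2)))) ≤
      4161 * K2 * q + (1 + C) * R ^ (-(c / 4)) := by
  have hR0 : 0 < R := by linarith
  by_cases hh : 128 * r ≤ h
  · have e : Ex T.V (zF T U h r (R ^ (-(c / 4))) (R ^ (-(c / 2)))) =
        Ex T.V (fun ω => thF T U r (R ^ (-(c / 4))) ω + (R ^ (-(c / 4)))⁻¹ *
          (R ^ (-(c / 2)) / 2 + (2 * R ^ (-(c / 2)))⁻¹ *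
            SQ (Sw T (265 * r)) (Dz T U r) ω)) := by
      apply H12.Ex_congr
      intro ω _
      unfold zF
      rw [if_pos hh]
    rw [e, H12.Ex_add, H12.Ex_mul]
    have h1 := Ex_thF hU0 hr hq hp hz
    have h2 : Ex T.V (fun ω => R ^ (-(c / 2)) / 2 + (2 * R ^ (-(c / 2)))⁻¹ *
        SQ (Sw T (265 * r)) (Dz T U r) ω) ≤ (1 + C) * R ^ (-(c / 2)) :=
      (Ex_half (by positivity)).trans (lam_num hR hC (hS hh))
    have h3 : (R ^ (-(c / 4)))⁻¹ * ((1 + C) * R ^ (-(c / 2))) = (1 + C) * R ^ (-(c / 4)) := by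
      have e1 : R ^ (-(c / 2)) = R ^ (-(c / 4)) * R ^ (-(c / 4)) := by
        rw [rpow_add' hR]
        congr 1
        ring
      have : R ^ (-(c / 4)) ≠ 0 := (Real.rpow_pos_of_pos hR0 _).ne'
      rw [e1]
      field_simp
    have h4 := mul_le_mul_of_nonneg_left h2
      (by positivity : 0 ≤ (R ^ (-(c / 4)))⁻¹)
    rw [h3] at h4
    exact add_le_add h1 h4
  · have e : Ex T.V (zF T U h r (R ^ (-(c / 4))) (R ^ (-(c / 2)))) =
        Ex T.V (fun _ => (0 : ℝ) * 0) := by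
      apply H12.Ex_congr
      intro ω _
      unfold zF
      rw [if_neg hh, zero_mul]
    rw [e, H12.Ex_mul, zero_mul]
    positivity

/-- **`NearPoly`** -/
theorem nearPoly_of (hsec : SecP) (hfat : FATn) : NearPoly := by
  intro e0' he0'
  obtain ⟨e0, he0⟩ : ∃ e0 : ℝ, e0 = min e0' 1 := ⟨_, rfl⟩
  have he00 : 0 < e0 := by rw [he0]; exact lt_min he0' one_pos
  have he01 : e0 ≤ 1 := by rw [he0]; exact min_le_right _ _
  have he02 : e0 ≤ e0' := by rw [he0]; exact min_le_left _ _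
  obtain ⟨c, γ, hc, hγ, hγ1, hz⟩ := zone_sq hsec
  obtain ⟨c1, hc1, hz⟩ := hz e0 he00 he01
  obtain ⟨ab, hab⟩ : ∃ ab : ℝ, ab = min (c * (e0 * γ / 42) / 16) (γ / 72) := ⟨_, rfl⟩
  have hab0 : 0 < ab := by rw [hab]; positivity
  obtain ⟨b, cf, Cf, hb, hcf, hCf, hfat⟩ := hfat ab hab0
  obtain ⟨c4, hc4⟩ : ∃ c4 : ℝ, c4 = min (min (c1 / 4 * b) cf) (c1 / 4) := ⟨_, rfl⟩
  have hc40 : 0 < c4 := by rw [hc4]; positivity
  have k1 : c4 ≤ c1 / 4 * b := by
    rw [hc4]; exact (min_le_left _ _).trans (min_le_left _ _)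
  have k2 : c4 ≤ cf := by rw [hc4]; exact (min_le_left _ _).trans (min_le_right _ _)
  have k3 : c4 ≤ c1 / 4 := by rw [hc4]; exact min_le_right _ _
  obtain ⟨c5, hc5⟩ : ∃ c5 : ℝ, c5 = min (c4 / 2) ab := ⟨_, rfl⟩
  have hc50 : 0 < c5 := by rw [hc5]; positivity
  have k4 : c5 ≤ c4 / 2 := by rw [hc5]; exact min_le_left _ _
  have k5 : c5 ≤ ab := by rw [hc5]; exact min_le_right _ _
  refine ⟨c5, hc50, ?_⟩
  intro c0 C0 Cc hc0 hC0 hCc
  obtain ⟨Cz, hCz, hz⟩ := hz c0 C0 hc0 hC0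
  obtain ⟨Kw, hKw0, hKw⟩ := whit_mass
  obtain ⟨Kp, hKp0, hKp⟩ := pt_mass
  obtain ⟨K2, hK20, hK2⟩ := zone_sum
  obtain ⟨Cn, hCn⟩ : ∃ Cn : ℝ, Cn = 2 * (1 + 8 / (4 * c4)) := ⟨_, rfl⟩
  have hCn0 : 0 ≤ Cn := by rw [hCn]; positivity
  obtain ⟨Q, hQ⟩ : ∃ Q : ℝ, Q = 4161 * (K2 * C0) * (2 * Cf) + (1 + Cz) := ⟨_, rfl⟩
  have hQ0 : 0 ≤ Q := by rw [hQ]; positivity
  refine ⟨Kp * (Cc + 1) * (1 + Cz) + Kw * (Cc + 1) * (Cn * Q), by positivity, ?_⟩
  intro R T hR hfit p n0 s D h hcn hs hsD h8 hhn hD hh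
  have hR1 : (1 : ℝ) ≤ R := by exact_mod_cast hR
  have hRp : (0 : ℝ) < R := by linarith
  have hn0 : 1 ≤ n0 := by omega
  have hfin := A1.faceSet_finite T
  have hCPf : G45.CPr T.faceSet := Vale.Agent.P155.L.cp_faceSet T
  have hh' : (h : ℝ) ≤ (R : ℝ) ^ (1 - e0) := hh.trans
    (Real.rpow_le_rpow_of_exponent_le hR1 (by linarith))
  obtain ⟨U, hU⟩ := G45.exists_green hfin (E4.dens C0 p n0)
  have hU0 := G45.green_nonneg hfin hU (fun y _ => dens_nonneg hC0 p n0 y)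
  obtain ⟨hz1, hz2⟩ := hz R T hR hfit p n0 h U hn0 hcn hh' hU
  obtain ⟨N, hN⟩ : ∃ N : ℕ, N = ⌈(R : ℝ) ^ ab⌉₊ := ⟨_, rfl⟩
  have hN1 : (R : ℝ) ^ ab ≤ N := by rw [hN]; exact Nat.le_ceil _
  have hN2 : (N : ℝ) < (R : ℝ) ^ ab + 1 := by rw [hN]; exact Nat.ceil_lt_add_one (by positivity)
  have hRab : 1 ≤ (R : ℝ) ^ ab := Real.one_le_rpow hR1 hab0.le
  obtain ⟨r0, hr0⟩ : ∃ r0, r0 = D + 2 + N := ⟨_, rfl⟩
  have hD' : (D : ℝ) ≤ (R : ℝ) ^ ab := hD.trans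
    (Real.rpow_le_rpow_of_exponent_le hR1 k5)
  have hρ : ((64 * r0 : ℕ) : ℝ) ≤ 320 * (R : ℝ) ^ ab := by
    rw [hr0]
    push_cast
    linarith
  obtain ⟨lam, hlam⟩ : ∃ lam : ℝ, lam = (R : ℝ) ^ (-(c1 / 2)) := ⟨_, rfl⟩
  obtain ⟨κ, hκ⟩ : ∃ κ : ℝ, κ = (R : ℝ) ^ (-(c1 / 4)) := ⟨_, rfl⟩
  have hlam0 : 0 < lam := by rw [hlam]; positivity
  have hκ0 : 0 < κ := by rw [hκ]; positivity
  have hκ1 : κ ≤ 1 := by
    rw [hκ]
    apply Real.rpow_le_one_of_one_le_of_nonpos hR1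
    have : 0 ≤ c1 / 4 := by positivity
    linarith
  refine ⟨fun ω => Kp * (Cc + 1) * bF T (fun x => U x + E4.dens C0 p n0 x) (64 * r0) D lam ω +
    Kw * (Cc + 1) * ∑ i ∈ range (nJ R), zF T U h (2 ^ i * r0) κ lam ω, fun ω => ?_, ?_, ?_⟩
  · have h1 := bF_nonneg T (fun x => U x + E4.dens C0 p n0 x) (64 * r0) D hlam0 ω
    have h2 : 0 ≤ ∑ i ∈ range (nJ R), zF T U h (2 ^ i * r0) κ lam ω :=
      Finset.sum_nonneg (fun i _ => zF_nonneg hU0 _ _ hκ0 hlam0 ω)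
    positivity
  · rw [H12.Ex_add, H12.Ex_mul, H12.Ex_mul, H12.Ex_sum]
    have hb1 : Ex T.V (bF T (fun x => U x + E4.dens C0 p n0 x) (64 * r0) D lam) ≤
        (1 + Cz) * (R : ℝ) ^ (-c5) := by
      rw [hlam]
      refine (Ex_bF hR1 hCz (hz2 (64 * r0) D (by omega) (by rw [← hab]; exact hρ))).trans ?_
      apply mul_le_mul_of_nonneg_left _ (by positivity)
      apply Real.rpow_le_rpow_of_exponent_le hR1
      linarith
    have hzi : ∀ i ∈ range (nJ R), Ex T.V (zF T U h (2 ^ i * r0) κ lam) ≤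
        Q * (R : ℝ) ^ (-c4) := by
      intro i _
      have hpw : 1 ≤ 2 ^ i := Nat.one_le_two_pow
      have hri : r0 ≤ 2 ^ i * r0 := Nat.le_mul_of_pos_left _ hpw
      have h1 := Ex_zF (T := T) (U := U) hU0 (h := h) (r := 2 ^ i * r0) (R := (R : ℝ)) (c := c1)
        (C := Cz) (K2 := K2 * C0) (q := Cf * κ ^ b + Cf * (R : ℝ) ^ (-cf)) hR1 hCz (by omega)
        (by positivity) (by positivity)
        (fun z hzz => by
          rw [← hκ]
          refine hfat R T hR hfit z (2 * (2 ^ i * r0)) ?_ ?_ κ hκ0 hκ1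
          · refine hN1.trans ?_
            have : N ≤ 2 * (2 ^ i * r0) := by omega
            exact_mod_cast this
          · have := (mem_Zn.1 hzz).2.1
            omega)
        (hK2 T.faceSet p n0 (129 * (2 ^ i * r0)) C0 U hfin hCPf hn0 hC0 hU (by omega) _
          (fun x hx => by
            have := (mem_Zn.1 hx).2.2
            omega))
        (fun h128 => hz1 (2 ^ i * r0) (by omega) h128)
      rw [← hκ, ← hlam] at h1
      refine h1.trans ?_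
      have e1 : κ ^ b ≤ (R : ℝ) ^ (-c4) := by
        rw [hκ, ← Real.rpow_mul hRp.le]
        apply Real.rpow_le_rpow_of_exponent_le hR1
        linarith
      have e2 : (R : ℝ) ^ (-cf) ≤ (R : ℝ) ^ (-c4) :=
        Real.rpow_le_rpow_of_exponent_le hR1 (by linarith)
      have e3 : κ ≤ (R : ℝ) ^ (-c4) := by
        rw [hκ]
        exact Real.rpow_le_rpow_of_exponent_le hR1 (by linarith)
      rw [hQ, add_mul (4161 * (K2 * C0) * (2 * Cf)) (1 + Cz)]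
      apply add_le_add
      · calc 4161 * (K2 * C0) * (Cf * κ ^ b + Cf * (R : ℝ) ^ (-cf))
            ≤ 4161 * (K2 * C0) * (Cf * (R : ℝ) ^ (-c4) + Cf * (R : ℝ) ^ (-c4)) := by gcongr
          _ = _ := by ring
      · exact mul_le_mul_of_nonneg_left e3 (by positivity)
    have hsum : ∑ i ∈ range (nJ R), Ex T.V (zF T U h (2 ^ i * r0) κ lam) ≤
        Cn * Q * (R : ℝ) ^ (-c5) := by
      calc ∑ i ∈ range (nJ R), Ex T.V (zF T U h (2 ^ i * r0) κ lam)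
          ≤ ∑ _i ∈ range (nJ R), Q * (R : ℝ) ^ (-c4) := Finset.sum_le_sum hzi
        _ = (nJ R : ℝ) * (Q * (R : ℝ) ^ (-c4)) := by
            rw [Finset.sum_const, card_range, nsmul_eq_mul]
        _ ≤ (Cn * (R : ℝ) ^ (4 * c4 / 8)) * (Q * (R : ℝ) ^ (-c4)) := by
            apply mul_le_mul_of_nonneg_right _ (by positivity)
            rw [hCn]
            exact nJ_pow_le hR (by positivity)
        _ = Cn * Q * ((R : ℝ) ^ (4 * c4 / 8) * (R : ℝ) ^ (-c4)) := by ring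
        _ ≤ Cn * Q * (R : ℝ) ^ (-c5) := by
            apply mul_le_mul_of_nonneg_left _ (by positivity)
            rw [rpow_add' hR1]
            apply Real.rpow_le_rpow_of_exponent_le hR1
            linarith
    calc Kp * (Cc + 1) * Ex T.V (bF T (fun x => U x + E4.dens C0 p n0 x) (64 * r0) D lam) +
          Kw * (Cc + 1) * ∑ i ∈ range (nJ R), Ex T.V (zF T U h (2 ^ i * r0) κ lam)
        ≤ Kp * (Cc + 1) * ((1 + Cz) * (R : ℝ) ^ (-c5)) +
          Kw * (Cc + 1) * (Cn * Q * (R : ℝ) ^ (-c5)) :=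
          add_le_add (mul_le_mul_of_nonneg_left hb1 (by positivity))
            (mul_le_mul_of_nonneg_left hsum (by positivity))
      _ = _ := by ring
  · intro ω hω L hL hmac O χ φ u hCP hOP hχ hφ hu S hS
    have hzo := T905.fL_zero_off (hfin.subset hOP) hs hχ hu
    have h1 := sum_zones (T := T) (r0 := r0) (r1 := h) hfit (by omega) (S := S)
      (a := fun x => |fL O φ χ u x|) (fun x => abs_nonneg _) (fun x hx => by
        show |fL O φ χ u x| = 0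
        rw [hzo x, abs_zero]
        intro hxO
        rw [Set.Finite.mem_toFinset] at hxO
        exact hx (hOP hxO)) (fun x hx => (hS x hx).1)
    refine h1.trans (add_le_add ?_ ?_)
    · refine (botT_le hKp hKp0 hω hL hOP hn0 hC0 hU hs h8 hχ hφ hu
        (by omega : D + 2 ≤ 64 * r0) (fun x hx => by
          rw [mem_filter] at hx
          exact ⟨hx.2, (hS x hx.1).2⟩)).trans ?_
      apply mul_le_mul_of_nonneg_left _ (by positivity)
      exact mD_le hω hL _ _ hlam0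
    · rw [Finset.mul_sum]
      apply Finset.sum_le_sum
      intro i _
      have hpw : 1 ≤ 2 ^ i := Nat.one_le_two_pow
      have hri : r0 ≤ 2 ^ i * r0 := Nat.le_mul_of_pos_left _ hpw
      unfold zF
      split_ifs with h128
      · refine (zoneT_le (r := 2 ^ i * r0) (D := D) (κ := κ) hKw0 hKw hω hL hκ0 hCP hOP hn0 hC0 hU hs h8 hχ hφ hu
          (by omega) (by omega) (by omega) (fun z => ?_) (fun x hx => by
            rw [mem_filter] at hx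
            exact ⟨hx.2.1, hx.2.2, (hS x hx.1).2⟩)).trans ?_
        · obtain ⟨v, hv, hvz⟩ := hmac z
          refine ⟨v, hv, fun hin => hvz ?_⟩
          rw [G45.mem_box] at hin ⊢
          omega
        · apply mul_le_mul_of_nonneg_left _ (by positivity)
          have h3 := mD_le hω hL (Sw T (265 * (2 ^ i * r0))) (Dz T U (2 ^ i * r0)) hlam0
          have h4 := mul_le_mul_of_nonneg_left h3 (by positivity : 0 ≤ κ⁻¹)
          linarith
      · rw [mul_zero]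

end Vale.Agent.P155.NT613
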