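import Vale.Agent.P155.NT613.Sec
import Vale.Agent.P155.NT613.Fin

/-!
# P155, block NT-B4: `NearPoly` unconditionally
-/

namespace Vale.Agent.P155.NT613

/-- **NearPoly** -/
theorem nearPoly : NearPoly := nearPoly_of secP QQ.fatN

end Vale.Agent.P155.NT613
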