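import Vale.Agent.P155.NT613.Fat

/-!
# P155, block NT-B4: bounds of the deterministic weights
-/

namespace Vale.Agent.P155.NT613

open Vale.Agent.P155 Finset Skel BD J H12 E4

/-- moving the centre of the density -/
theorem dens_shift {C0 A : ℝ} (hC0 : 0 ≤ C0) (hA : 0 ≤ A) {p q : Pt} {n0 : ℕ} (hn : 1 ≤ n0)
    (h : (dn p q : ℝ) ≤ A * n0) (y : Pt) :
    dens C0 p n0 y ≤ dens (C0 * (1 + A) ^ 3) q n0 y := by
  have hn0 : (0 : ℝ) < n0 := by exact_mod_cast hn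
  have t1 : (dn q y : ℝ) ≤ dn p q + dn p y := by
    have := G45.dn_tri q p y
    rw [G45.dn_comm q p] at this
    exact_mod_cast this
  set X : ℝ := (n0 : ℝ) + dn p y with hX
  set Y : ℝ := (n0 : ℝ) + dn q y with hY
  have hX0 : 0 < X := by positivity
  have hY0 : 0 < Y := by positivity
  have h1 : Y ≤ (1 + A) * X := by
    have : 0 ≤ A * (dn p y : ℝ) := by positivity
    rw [hY, hX]
    nlinarith
  have h2 : Y ^ 3 ≤ (1 + A) ^ 3 * X ^ 3 := by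
    rw [← mul_pow]
    exact pow_le_pow_left₀ hY0.le h1 3
  unfold E4.dens
  rw [← hX, ← hY, div_le_div_iff₀ (by positivity) (by positivity)]
  calc 8 * C0 * n0 * Y ^ 3 ≤ 8 * C0 * n0 * ((1 + A) ^ 3 * X ^ 3) :=
        mul_le_mul_of_nonneg_left h2 (by positivity)
    _ = _ := by ring

/-- the potential near the polygon -/
theorem pot_poly : ∃ γ : ℝ, 0 < γ ∧ γ ≤ 1 ∧ ∀ c0 C0 : ℝ, 0 < c0 → 0 ≤ C0 → ∃ Cd : ℝ, 0 ≤ Cd ∧
    ∀ (R : ℕ) (T : Temp), 1 ≤ R → Fits T R → ∀ (p : Pt) (n0 : ℕ) (U : Pt → ℝ), 1 ≤ n0 →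
      c0 * R ≤ n0 → IsGreen T.faceSet (dens C0 p n0) U →
      ∀ y, U y ≤ Cd * ((dF T.faceSet y : ℝ) / n0) ^ γ := by
  obtain ⟨γ, hγ, hγ1, h⟩ := pot_meso
  refine ⟨γ, hγ, hγ1, ?_⟩
  intro c0 C0 hc0 hC0
  obtain ⟨Cd, hCd, h⟩ := h (C0 * (1 + 3 / c0) ^ 3) (by positivity)
  refine ⟨Cd, hCd, ?_⟩
  intro R T hR hfit p n0 U hn0 hcn hU y
  have hfin := A1.faceSet_finite T
  have hne := G45.exists_notMem hfin
  obtain ⟨q, hq, hd⟩ := G45.exists_dF hne p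
  have hpq : (dn p q : ℝ) ≤ 3 / c0 * n0 := by
    have h1 : dn p q ≤ 3 * R := by
      rw [hd]
      by_cases hp : p ∈ T.faceSet
      · have := BD.dF_le_of_fits hfit hp
        omega
      · rw [G45.dF_of_notMem hp]
        omega
    have h2 : (dn p q : ℝ) ≤ 3 * R := by exact_mod_cast h1
    refine h2.trans ?_
    rw [div_mul_eq_mul_div, le_div_iff₀ hc0]
    nlinarith
  have hd0 : ∀ y, 0 ≤ dens (C0 * (1 + 3 / c0) ^ 3) q n0 y :=
    fun y => dens_nonneg (by positivity) q n0 y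
  obtain ⟨U', hU'⟩ := G45.exists_green hfin (dens (C0 * (1 + 3 / c0) ^ 3) q n0)
  obtain ⟨ub, hub, hub0, hdom, hsup, hdec⟩ := h T.faceSet q n0 _ U' hfin (L.cp_faceSet T) hq hn0
    (fun y => by rw [abs_of_nonneg (hd0 y)]) hU'
  have hle : ∀ x, U x ≤ ub x := G45.green_le_super hfin hU
    (fun x hx => by
      rw [hub.eq x hx]
      exact dens_shift hC0 (by positivity) hn0 hpq x) (fun x _ => hub0 x)
  exact (hle y).trans (hdec y)

theorem Dz_le {T : Temp} {U : Pt → ℝ} {r : ℕ} (hr : 1 ≤ r) {b : ℝ} (hb : 0 ≤ b)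
    (hU : ∀ z ∈ Zn T r, U z ≤ b) (y : Pt) : Dz T U r y ≤ 19 * b / (r : ℝ) ^ 2 := by
  have hr1 : (1 : ℝ) ≤ r := by exact_mod_cast hr
  unfold Dz
  rw [div_le_div_iff₀ (by positivity) (by positivity)]
  have h1 := sum_near_le hb hU (8 * r) y
  push_cast at h1
  have h2 : (2 * (8 * (r : ℝ)) + 1) ^ 2 ≤ (17 * (r : ℝ)) ^ 2 := by
    apply pow_le_pow_left₀ (by positivity)
    linarith
  have h3 : (2 * (r : ℝ)) ^ 2 ≤ (2 * (r : ℝ) + 1) ^ 2 := by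
    apply pow_le_pow_left₀ (by positivity)
    linarith
  calc (∑ z ∈ (Zn T r).filter (fun z => dn z y ≤ 8 * r), U z) * (r : ℝ) ^ 2
      ≤ ((17 * (r : ℝ)) ^ 2 * b) * (r : ℝ) ^ 2 := by
        apply mul_le_mul_of_nonneg_right _ (by positivity)
        exact h1.trans (mul_le_mul_of_nonneg_right h2 hb)
    _ = 18.0625 * b * ((2 * (r : ℝ)) ^ 2 * (2 * (r : ℝ)) ^ 2) := by ring
    _ ≤ 19 * b * ((2 * (r : ℝ) + 1) ^ 2 * (2 * (r : ℝ)) ^ 2) := by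
        apply mul_le_mul _ _ (by positivity) (by positivity)
        · linarith
        · exact mul_le_mul_of_nonneg_right h3 (by positivity)

theorem sum_Dz_le {T : Temp} {U : Pt → ℝ} (hU0 : ∀ x, 0 ≤ U x) {r : ℕ} (hr : 1 ≤ r) {M : ℝ}
    (hM : ∑ z ∈ Zn T r, U z ≤ M * ((129 * r : ℕ) : ℝ) ^ 2) (S : Finset Pt) :
    ∑ y ∈ S, Dz T U r y ≤ 316200 * M := by
  have hr1 : (1 : ℝ) ≤ r := by exact_mod_cast hr
  unfold Dz
  rw [← Finset.sum_div, div_le_iff₀ (by positivity)]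
  have h1 := sum_pairs_le (A := Zn T r) (B := S) (W := U) (fun x _ => hU0 x) (8 * r)
  push_cast at h1
  have hS0 : 0 ≤ ∑ z ∈ Zn T r, U z := Finset.sum_nonneg (fun z _ => hU0 z)
  have hM0 : 0 ≤ M := by
    have h4 : (0 : ℝ) < ((129 * r : ℕ) : ℝ) ^ 2 := by
      have : 0 < 129 * r := by omega
      positivity
    by_contra hneg
    push Not at hneg
    nlinarith
  have h2 : (2 * (8 * (r : ℝ)) + 1) ^ 2 ≤ (17 * (r : ℝ)) ^ 2 := by
    apply pow_le_pow_left₀ (by positivity)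
    linarith
  have h3 : (2 * (r : ℝ)) ^ 2 ≤ (2 * (r : ℝ) + 1) ^ 2 := by
    apply pow_le_pow_left₀ (by positivity)
    linarith
  refine h1.trans ?_
  calc (2 * (8 * (r : ℝ)) + 1) ^ 2 * ∑ z ∈ Zn T r, U z
      ≤ (17 * (r : ℝ)) ^ 2 * (M * ((129 * r : ℕ) : ℝ) ^ 2) :=
        mul_le_mul h2 hM hS0 (by positivity)
    _ = 300578.0625 * M * ((2 * (r : ℝ)) ^ 2 * (2 * (r : ℝ)) ^ 2) := by
        push_cast
        ring
    _ ≤ 316200 * M * ((2 * (r : ℝ) + 1) ^ 2 * (2 * (r : ℝ)) ^ 2) := by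
        apply mul_le_mul _ _ (by positivity) (by positivity)
        · linarith
        · exact mul_le_mul_of_nonneg_right h3 (by positivity)

theorem Db_le {T : Temp} {W : Pt → ℝ} {ρ D : ℕ} (hD : D + 2 ≤ ρ) {b : ℝ} (hb : 0 ≤ b)
    (hW : ∀ z ∈ Zb T ρ, W z ≤ b) (y : Pt) : Db T W ρ D y ≤ 9 * b * (ρ : ℝ) ^ 2 := by
  have hD' : (D : ℝ) + 2 ≤ ρ := by exact_mod_cast hD
  have hD0 : (0 : ℝ) ≤ D := by positivity
  unfold Db
  have h1 := sum_near_le hb hW (D + 2) y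
  push_cast at h1
  have h2 : (2 * ((D : ℝ) + 2) + 1) ^ 2 ≤ (3 * (ρ : ℝ)) ^ 2 := by
    apply pow_le_pow_left₀ (by positivity)
    linarith
  calc _ ≤ (3 * (ρ : ℝ)) ^ 2 * b := by
        refine le_trans ?_ (mul_le_mul_of_nonneg_right h2 hb)
        convert h1 using 2
    _ = _ := by ring

theorem sum_Db_le {T : Temp} {W : Pt → ℝ} (hW0 : ∀ x, 0 ≤ W x) {ρ D : ℕ} (hD : D + 2 ≤ ρ) {M : ℝ}
    (hM : ∑ z ∈ Zb T ρ, W z ≤ M) (S : Finset Pt) :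
    ∑ y ∈ S, Db T W ρ D y ≤ 9 * M * (ρ : ℝ) ^ 2 := by
  have hD' : (D : ℝ) + 2 ≤ ρ := by exact_mod_cast hD
  have hD0 : (0 : ℝ) ≤ D := by positivity
  unfold Db
  have h1 := sum_pairs_le (A := Zb T ρ) (B := S) (W := W) (fun x _ => hW0 x) (D + 2)
  push_cast at h1
  have hS0 : 0 ≤ ∑ z ∈ Zb T ρ, W z := Finset.sum_nonneg (fun z _ => hW0 z)
  have h2 : (2 * ((D : ℝ) + 2) + 1) ^ 2 ≤ (3 * (ρ : ℝ)) ^ 2 := by
    apply pow_le_pow_left₀ (by positivity)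
    linarith
  have h3 : ∑ y ∈ S, ∑ x ∈ (Zb T ρ).filter (fun x => dn x y ≤ D + 2), W x ≤
      (3 * (ρ : ℝ)) ^ 2 * M := by
    refine le_trans ?_ (mul_le_mul h2 hM hS0 (by positivity))
    convert h1 using 3
  refine h3.trans (le_of_eq (by ring))

theorem Ex_th {T : Temp} (z : Pt) (n : ℕ) (κ : ℝ) :
    Ex T.V (th z n κ) = Pr T.V (fun ω => ∃ L ∈ Loops ω, Thin ω L z n κ) := by
  classical
  rw [E.Pr_eq_avg, J.Ex_eq_avg]
  apply J.avg_congr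
  intro ω _
  unfold th
  split_ifs <;> rfl

theorem Ex_thF {T : Temp} {U : Pt → ℝ} (hU0 : ∀ x, 0 ≤ U x) {κ q K2 : ℝ} {r : ℕ}
    (hr : 1 ≤ r) (hq : 0 ≤ q)
    (hp : ∀ z ∈ Zn T r, Pr T.V (fun ω => ∃ L ∈ Loops ω, Thin ω L z (2 * r) κ) ≤ q)
    (hz : ∑ x ∈ Zn T r, U x ≤ K2 * ((129 * r : ℕ) : ℝ) ^ 2) :
    Ex T.V (thF T U r κ) ≤ 4161 * K2 * q := by
  have hr1 : (1 : ℝ) ≤ r := by exact_mod_cast hr
  have e : Ex T.V (thF T U r κ) = (∑ z ∈ Zn T r, U z *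
      Pr T.V (fun ω => ∃ L ∈ Loops ω, Thin ω L z (2 * r) κ)) / (2 * (r : ℝ) + 1) ^ 2 := by
    have h1 : Ex T.V (thF T U r κ) =
        Ex T.V (fun ω => ((2 * (r : ℝ) + 1) ^ 2)⁻¹ * ∑ z ∈ Zn T r, U z * th z (2 * r) κ ω) := by
      apply H12.Ex_congr
      intro ω _
      unfold thF
      rw [div_eq_inv_mul]
    rw [h1, H12.Ex_mul, H12.Ex_sum, div_eq_inv_mul]
    congr 1
    apply Finset.sum_congr rfl
    intro z _
    rw [H12.Ex_mul, ← Ex_th]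
  rw [e, div_le_iff₀ (by positivity)]
  have hK2 : 0 ≤ K2 := by
    have h3 : 0 ≤ ∑ x ∈ Zn T r, U x := Finset.sum_nonneg (fun x _ => hU0 x)
    have h4 : (0 : ℝ) < ((129 * r : ℕ) : ℝ) ^ 2 := by
      have : 0 < 129 * r := by omega
      positivity
    by_contra hneg
    push Not at hneg
    nlinarith
  calc ∑ z ∈ Zn T r, U z * Pr T.V (fun ω => ∃ L ∈ Loops ω, Thin ω L z (2 * r) κ)
      ≤ ∑ z ∈ Zn T r, U z * q :=
        Finset.sum_le_sum (fun z hz => mul_le_mul_of_nonneg_left (hp z hz) (hU0 z))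
    _ = (∑ z ∈ Zn T r, U z) * q := by rw [Finset.sum_mul]
    _ ≤ (K2 * ((129 * r : ℕ) : ℝ) ^ 2) * q := mul_le_mul_of_nonneg_right hz hq
    _ = 4160.25 * (K2 * q) * (2 * (r : ℝ)) ^ 2 := by
        push_cast
        ring
    _ ≤ 4161 * (K2 * q) * (2 * (r : ℝ) + 1) ^ 2 := by
        have h5 : 0 ≤ K2 * q := mul_nonneg hK2 hq
        have h6 : (2 * (r : ℝ)) ^ 2 ≤ (2 * (r : ℝ) + 1) ^ 2 := by
          apply pow_le_pow_left₀ (by positivity)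
          linarith
        apply mul_le_mul _ h6 (by positivity) (by positivity)
        linarith
    _ = _ := by ring

/-- the mass inside a loop and the sum of the squares -/
theorem mD_le {V : Finset Pt} {ω : Conf} (hω : ω ∈ DD V) {L : Set Pt} (hL : L ∈ Loops ω)
    (S : Finset Pt) (D : Pt → ℝ) {lam : ℝ} (hl : 0 < lam) :
    mD ω L S D ≤ lam / 2 + (2 * lam)⁻¹ * SQ S D ω := by
  have hfin := Vale.Agent.P155.L.loops_finite hω
  have h1 : (mD ω L S D) ^ 2 ≤ SQ S D ω := by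
    unfold SQ
    rw [dif_pos hfin]
    exact Finset.single_le_sum (f := fun L => (mD ω L S D) ^ 2) (fun _ _ => sq_nonneg _)
      (by simpa using hL)
  have h2 : mD ω L S D ≤ lam / 2 + (2 * lam)⁻¹ * (mD ω L S D) ^ 2 := by
    have e : lam / 2 + (2 * lam)⁻¹ * (mD ω L S D) ^ 2 - mD ω L S D =
        (2 * lam)⁻¹ * (lam - mD ω L S D) ^ 2 := by
      field_simp
      ring
    have : 0 ≤ (2 * lam)⁻¹ * (lam - mD ω L S D) ^ 2 := by positivity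
    linarith
  refine h2.trans ?_
  have := mul_le_mul_of_nonneg_left h1 (by positivity : 0 ≤ (2 * lam)⁻¹)
  linarith

theorem SQ_nonneg (S : Finset Pt) (D : Pt → ℝ) (ω : Conf) : 0 ≤ SQ S D ω := by
  unfold SQ
  split_ifs
  · exact Finset.sum_nonneg (fun _ _ => sq_nonneg _)
  · exact le_rfl

end Vale.Agent.P155.NT613
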