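import Vale.Agent.P155.NT613.NB2

/-!
# P155, block NT-B4: positive masses inside loops near the polygon, definitions
-/

namespace Vale.Agent.P155.NT613

open Vale.Agent.P155 Finset Skel BD J H12 E4

open Classical in
/-- mass of the weight `D` (on `S`) inside the loop `L` -/
noncomputable def mD (ω : Conf) (L : Set Pt) (S : Finset Pt) (D : Pt → ℝ) : ℝ :=
  ∑ x ∈ S, D x * (if surr ω L x then 1 else 0)

open Classical in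
/-- sum of the squares of the masses inside all loops -/
noncomputable def SQ (S : Finset Pt) (D : Pt → ℝ) (ω : Conf) : ℝ :=
  if h : (Loops ω).Finite then ∑ L ∈ h.toFinset, (mD ω L S D) ^ 2 else 0

/-- second moment of the positive masses near the polygon -/
def SecP : Prop := ∃ c > (0 : ℝ), ∀ a : ℝ, 0 < a → ∃ C : ℝ, 0 ≤ C ∧ ∀ (R : ℕ) (T : Temp), 1 ≤ R →
  Fits T R → ∀ (S : Finset Pt) (D : Pt → ℝ) (B M w : ℝ), 0 ≤ B → (∀ x ∈ S, x ∈ T.faceSet) →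
    (∀ x ∈ S, (dF T.faceSet x : ℝ) ≤ w) → (∀ x ∈ S, 0 ≤ D x) → (∀ x ∈ S, D x ≤ B) →
    ∑ x ∈ S, D x ≤ M →
    Ex T.V (SQ S D) ≤ C * (M ^ 2 * (R : ℝ) ^ (-(c * a)) +
      M * B * w ^ 2 * (R : ℝ) ^ (20 * a) * Real.log (R + 2) ^ 2)

/-- **the layer function near the polygon, close to a big loop** -/
def NearPoly : Prop := ∀ e0 : ℝ, 0 < e0 → ∃ c > (0 : ℝ), ∀ c0 C0 Cc : ℝ, 0 < c0 → 0 ≤ C0 →
  0 ≤ Cc → ∃ C : ℝ, 0 ≤ C ∧ ∀ (R : ℕ) (T : Temp), 1 ≤ R → Fits T R →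
    ∀ (p : Pt) (n0 s D h : ℕ), c0 * R ≤ n0 → 1 ≤ s → s ≤ D → 8 * s ≤ n0 → h ≤ n0 →
    (D : ℝ) ≤ (R : ℝ) ^ c → (h : ℝ) ≤ (R : ℝ) ^ (1 - e0) →
    ∃ F : Conf → ℝ, (∀ ω, 0 ≤ F ω) ∧ Ex T.V F ≤ C * (R : ℝ) ^ (-c) ∧
      ∀ ω ∈ DD T.V, ∀ L ∈ Loops ω, (∀ z, ∃ v ∈ L, v ∉ box z h) →
        ∀ (O : Set Pt) (χ φ u : Pt → ℝ), G45.CPr O → O ⊆ T.faceSet → IsCut O s Cc χ →
        (∀ y, |φ y| ≤ dens C0 p n0 y) → IsGreen O φ u → ∀ S : Finset Pt,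
        (∀ x ∈ S, dF T.faceSet x ≤ h ∧ ∃ v ∈ L, dn x v ≤ D + 1) →
        ∑ x ∈ S, |fL O φ χ u x| ≤ F ω

end Vale.Agent.P155.NT613
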