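import Vale.Agent.P155.NT613.Zone4

/-!
# P155, NT, visit bound (4): unexplored loops, global form

No factor for the number of big loops: at a layer point near the line of the exploration there is
at most one unexplored big loop, or two strands.
-/

namespace Vale.Agent.P155.NT613

open Vale.Agent.P155 Finset SW HT T905 T802 T862 G45 J H904 H12 NT E4 S862 NT905 NT743

variable {V : Finset Pt} {ω : Conf} {xS : ℤ}

theorem loop_wall {A : Set Pt} (hA : A ∈ Loops ω) : Wall ω A = ∅ := by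
  apply Set.eq_empty_of_forall_notMem
  rintro b ⟨hb, a, ha, h⟩
  rcases h with rfl | rfl
  · exact hb (L.loop_m1 hA ha)
  · exact hb (L.loop_m2 hA ha)

/-- two loops which pass near `x` and leave the box are two strands -/
theorem two_loops (hω : ω ∈ DD V) {A A' : Set Pt} (hA : A ∈ Loops ω) (hA' : A' ∈ Loops ω)
    (hne : A ≠ A') {x : Pt} {ρ0 : ℕ} {A0 : Finset Pt} {u u' p p' : Pt} (hu : u ∈ A)
    (hu' : u' ∈ A') (huA : u ∈ A0) (huA' : u' ∈ A0) (hp : p ∈ A) (hp' : p' ∈ A')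
    (hpB : p ∉ box x ρ0) (hpB' : p' ∉ box x ρ0) :
    TwoVisit (fun _ : Fin 1 => A0) (res V (box x ρ0) ω) := by
  have hinv : Inv2 ω := by
    have hω' := Finset.mem_product.1 hω
    exact ⟨(mem_PM.1 hω'.1).invol, (mem_PM.1 hω'.2).invol⟩
  have hnot : u ∉ A' := fun h => hne (by
    rw [L.loop_eq_comp hω hA hu, L.loop_eq_comp hω hA' h])
  have s1 : Same ω u p := by
    rw [L.loop_eq_comp hω hA hu] at hp
    exact hp
  have s2 : Same ω u' p' := by
    rw [L.loop_eq_comp hω hA' hu'] at hp'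
    exact hp'
  refine two_strands hω (W := Wall ω A') (E := A') (fun z _ => ?_) (wall_closed ω A') hnot hu'
    s1 hpB s2 hpB' huA huA'
  rw [loop_wall hA']
  exact Set.notMem_empty z

open Classical in
/-- at most one unexplored loop, or two strands -/
theorem nU_one {T : Temp} {τ : Stop T.V xS} (hω : ω ∈ DD T.V) (hN : τ.New ω) {φ : Pt → ℝ}
    {x : Pt} {s D ρ0 : ℕ} (hO : (OE T (τ.E ω)).Finite)
    (hdF : dF (OE T (τ.E ω)) x ≤ 2 * s) (hsD : 4 * s ≤ D)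
    (hφ : ∀ y, φ y ≠ 0 → ρ0 < dn x y) (hn : 1 < nU ω (τ.E ω) φ x) :
    TwoVisit (fun _ : Fin 1 => box x (D + 1)) (res T.V (box x ρ0) ω) := by
  unfold nU at hn
  obtain ⟨A, hA, A', hA', hne⟩ := Finset.one_lt_card.1 hn
  obtain ⟨a1, a2, a3, y, a4, a5⟩ := mem_filter.1 hA
  obtain ⟨b1, b2, b3, y', b4, b5⟩ := mem_filter.1 hA'
  have a1' := (mem_LF hω).1 a1
  have b1' := (mem_LF hω).1 b1
  obtain ⟨u, hu, hub⟩ := unx_near hω hN hO hdF a1' a2 a3
  obtain ⟨u', hu', hub'⟩ := unx_near hω hN hO hdF b1' b2 b3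
  obtain ⟨p, hp, hpB⟩ := leaves_box (x := x) (r := ρ0) hω a1'
    (by rw [mem_box_dn905]; have := hφ y a4; omega) a5
  obtain ⟨p', hp', hpB'⟩ := leaves_box (x := x) (r := ρ0) hω b1'
    (by rw [mem_box_dn905]; have := hφ y' b4; omega) b5
  have hD : ∀ v ∈ box x (2 * s + 1), v ∈ box x (D + 1) := by
    intro v hv
    rw [mem_box_dn905] at hv ⊢
    omega
  exact two_loops hω a1' b1' hne hu hu' (hD u hub) (hD u' hub') hp hp' hpB hpB'

theorem mass_split {g : Pt → ℝ} {S : Finset Pt} (hg : ∀ x, x ∉ S → g x = 0) (T : Temp) (h : ℕ)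
    (A : Set Pt) : mass ω g A = mass ω (gz T h g) A +
      mass ω (fun x => if dF T.faceSet x ≤ h then 0 else g x) A := by
  classical
  rw [mass_eq_sum hg, mass_eq_sum (s := S) (f := gz T h g) (fun x hx => by
      unfold gz; rw [hg x hx, ite_self]),
    mass_eq_sum (s := S) (f := fun x => if dF T.faceSet x ≤ h then 0 else g x) (fun x hx => by
      rw [hg x hx, ite_self]), ← sum_add_distrib]
  refine sum_congr rfl fun x _ => ?_
  unfold gz
  split_ifs <;> simp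

open Classical in
/-- **the unexplored loops, global form**: strip of the line + tip + two strands + polygon zone -/
theorem unx_global : ∃ β : ℝ, 0 < β ∧ β ≤ 1 ∧ ∀ C0 Cc : ℝ, 0 ≤ C0 → ∃ M : ℝ, 0 < M ∧
    ∀ (T : Temp) (xS : ℤ) (τ : Stop T.V xS), ∀ ω ∈ DD T.V, τ.New ω →
    ∀ (R κ s ρ0 D h : ℕ) (γ C : ℝ), Skel.Fits T R →
      ¬ NBad T (0, 0) R κ s ρ0 D C0 Cc γ C ω → 1 ≤ s → 8 * s ≤ κ → ρ0 ≤ κ → D + 1 ≤ ρ0 →
      4 * s ≤ D → C * ρ0 ≤ h → D ≤ h →
      ∀ (q : Pt) (φ u χ : Pt → ℝ), q ∉ OE T (τ.E ω) → (∀ y, |φ y| ≤ dens C0 q κ y) →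
      IsCut (OE T (τ.E ω)) s Cc χ → IsGreen (OE T (τ.E ω)) φ u →
      (∀ y, φ y ≠ 0 → ρ0 + 2 * s < dF (OE T (τ.E ω)) y) →
      ∀ hO : (OE T (τ.E ω)).Finite,
      ∑ A ∈ (LF ω).filter (fun A => Unx (τ.E ω) A),
        |mass ω (fL (OE T (τ.E ω)) φ χ u) A * mass ω φ A| ≤
      (∑ y ∈ hO.toFinset, |φ y|) *
        (∑ x ∈ hO.toFinset.filter (fun x => |x.1 - xS| ≤ (ρ0 : ℤ) + 1),
            |fL (OE T (τ.E ω)) φ χ u x| +
          4 * s * (M * ((ρ0 : ℝ) / κ) ^ β +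
            C * (((R : ℝ) / κ) ^ γ * (R : ℝ) ^ (-(γ ^ 2 / 128))))) +
      ∑ A ∈ (LF ω).filter (fun A => Unx (τ.E ω) A),
        |mass ω (gz T h (fL (OE T (τ.E ω)) φ χ u)) A * mass ω φ A| := by
  obtain ⟨γ', hγ', hγ1', hmass⟩ := mass_meso
  refine ⟨γ', hγ', hγ1', ?_⟩
  intro C0 Cc hC0
  obtain ⟨M, hM, hmass⟩ := hmass C0 Cc hC0
  refine ⟨M + 1, by positivity, ?_⟩
  intro T xS τ ω hω hN R κ s ρ0 D h γ C hfit hbad hs h8 hρκ hDρ hsD hCh hDh q φ u χ hq hφ hχ hu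
    hsupp hO
  have hCP := Stop.cpr (τ := τ) hω
  have hκ1 : 1 ≤ κ := by omega
  obtain ⟨-, m2, -⟩ := hmass _ q κ s χ φ u hO hCP hq hκ1 hs h8 hχ hφ hu
  set g : Pt → ℝ := fL (OE T (τ.E ω)) φ χ u with hg
  have hg0 : ∀ x, 0 ≤ |g x| := fun x => abs_nonneg _
  have hgS : ∀ x, x ∉ hO.toFinset → g x = 0 := fL_zero_off hO hs hχ hu
  have hφS : ∀ x, x ∉ hO.toFinset → φ x = 0 := by
    intro x hx
    by_contra h
    have h1 := hsupp x h
    rw [Set.Finite.mem_toFinset] at hx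
    rw [H904.dF_eq_zero hx] at h1
    omega
  set g1 : Pt → ℝ := fun x => if dF T.faceSet x ≤ h then 0 else g x with hg1
  have hg1S : ∀ x, x ∉ hO.toFinset → g1 x = 0 := by
    intro x hx
    rw [hg1]
    simp only
    rw [hgS x hx, ite_self]
  have hg1a : ∀ x, |g1 x| ≤ |g x| := by
    intro x
    rw [hg1]
    simp only
    split_ifs <;> simp
  have hsplit : ∑ A ∈ (LF ω).filter (fun A => Unx (τ.E ω) A), |mass ω g A * mass ω φ A| ≤
      ∑ A ∈ (LF ω).filter (fun A => Unx (τ.E ω) A), |mass ω g1 A * mass ω φ A| +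
      ∑ A ∈ (LF ω).filter (fun A => Unx (τ.E ω) A), |mass ω (gz T h g) A * mass ω φ A| := by
    rw [← sum_add_distrib]
    refine sum_le_sum fun A _ => ?_
    rw [mass_split hgS T h A, add_mul, add_comm]
    exact abs_add_le _ _
  refine hsplit.trans (add_le_add_left ((sum_unx (E := τ.E ω) hg1S hφS).trans ?_) _)
  refine mul_le_mul_of_nonneg_left ?_ (sum_nonneg fun _ _ => abs_nonneg _)
  have hex := exists_notMem hO
  have hpt : ∀ x ∈ hO.toFinset, |g1 x| * (nU ω (τ.E ω) φ x : ℝ) ≤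
      (if |x.1 - xS| ≤ (ρ0 : ℤ) + 1 then |g x| else 0) +
      (4 * s * (if x ∈ box (go ω (xS, τ.t ω) (τ.i ω + 1)) ρ0 then |g x| else 0) +
      4 * s * (if x ∈ box ((0 : ℤ), (0 : ℤ)) R ∧ C * ρ0 ≤ (dF T.faceSet x : ℝ) ∧
          TwoVisit (fun _ : Fin 1 => box x (D + 1)) (res T.V (box x ρ0) ω) then |g x| else 0)) := by
    intro x hx
    rw [Set.Finite.mem_toFinset] at hx
    have t0 : (0 : ℝ) ≤ (if |x.1 - xS| ≤ (ρ0 : ℤ) + 1 then |g x| else 0) := by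
      split_ifs <;> [exact hg0 x; exact le_rfl]
    have t1 : (0 : ℝ) ≤ 4 * s * (if x ∈ box (go ω (xS, τ.t ω) (τ.i ω + 1)) ρ0 then |g x| else 0) := by
      refine mul_nonneg (by positivity) ?_
      split_ifs <;> [exact hg0 x; exact le_rfl]
    have t2 : (0 : ℝ) ≤ 4 * s * (if x ∈ box ((0 : ℤ), (0 : ℤ)) R ∧ C * ρ0 ≤ (dF T.faceSet x : ℝ) ∧
          TwoVisit (fun _ : Fin 1 => box x (D + 1)) (res T.V (box x ρ0) ω) then |g x| else 0) := by
      refine mul_nonneg (by positivity) ?_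
      split_ifs <;> [exact hg0 x; exact le_rfl]
    by_cases hz : dF T.faceSet x ≤ h
    · have e : g1 x = 0 := by
        rw [hg1]
        simp only
        rw [if_pos hz]
      rw [e, abs_zero, zero_mul]
      linarith
    by_cases hgx : g1 x = 0
    · rw [hgx, abs_zero, zero_mul]
      linarith
    have hgx' : g x ≠ 0 := by
      intro h0
      exact hgx (by rw [hg1]; simp only; rw [h0, ite_self])
    have hface : D < dF T.faceSet x := by omega
    have hz' : C * ρ0 ≤ (dF T.faceSet x : ℝ) := by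
      refine hCh.trans ?_
      have : h ≤ dF T.faceSet x := by omega
      exact_mod_cast this
    have hxb : x ∈ box ((0 : ℤ), (0 : ℤ)) R := by
      have h1 : x ∈ (box ((0 : ℤ), (0 : ℤ)) R : Set Pt) := hfit hx.1
      exact_mod_cast h1
    have hdF : dF (OE T (τ.E ω)) x ≤ 2 * s := (fL_supp hex hs hχ hu (hg ▸ hgx')).2
    have hcount : (nU ω (τ.E ω) φ x : ℝ) ≤ 4 * s := by
      exact_mod_cast (nU_le (φ := φ) hω hN hO hx hdF (by omega)).1
    have hmain : |g1 x| * (nU ω (τ.E ω) φ x : ℝ) ≤ 4 * s * |g x| := by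
      rw [mul_comm]
      exact mul_le_mul hcount (hg1a x) (abs_nonneg _) (by positivity)
    have hfar : ∀ y, φ y ≠ 0 → ρ0 < dn x y := by
      intro y hy
      have h3 := hsupp y hy
      have h4 := H904.dF_lip hex y x
      rw [H904.dn_comm] at h4
      omega
    by_cases htwo : TwoVisit (fun _ : Fin 1 => box x (D + 1)) (res T.V (box x ρ0) ω)
    · rw [if_pos (⟨hxb, hz', htwo⟩ : x ∈ box ((0 : ℤ), (0 : ℤ)) R ∧ C * ρ0 ≤ (dF T.faceSet x : ℝ) ∧
          TwoVisit (fun _ : Fin 1 => box x (D + 1)) (res T.V (box x ρ0) ω))]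
      linarith
    by_cases htip : x ∈ box (go ω (xS, τ.t ω) (τ.i ω + 1)) ρ0
    · rw [if_pos htip]
      linarith
    have h2 : ρ0 < dn x (go ω (xS, τ.t ω) (τ.i ω + 1)) := by
      rw [H904.dn_comm]
      by_contra hc
      exact htip (mem_box_dn905.2 (not_lt.1 hc))
    by_cases hstrip : |x.1 - xS| ≤ (ρ0 : ℤ) + 1
    · rw [if_pos hstrip]
      have hle1 : nU ω (τ.E ω) φ x ≤ 1 := by
        by_contra hc
        exact htwo (nU_one hω hN hO hdF hsD hfar (not_le.1 hc))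
      have hle1' : (nU ω (τ.E ω) φ x : ℝ) ≤ 1 := by exact_mod_cast hle1
      have : |g1 x| * (nU ω (τ.E ω) φ x : ℝ) ≤ |g x| := by
        calc |g1 x| * (nU ω (τ.E ω) φ x : ℝ) ≤ |g x| * 1 :=
              mul_le_mul (hg1a x) hle1' (Nat.cast_nonneg _) (hg0 x)
          _ = |g x| := mul_one _
      linarith
    · have h0 : nU ω (τ.E ω) φ x = 0 := by
        by_contra hc
        exact htwo (nU_two hω hN hO hx hdF hface hsD hs hDρ (not_le.1 hstrip) h2 hfar hc)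
      rw [h0, Nat.cast_zero, mul_zero]
      linarith
  refine (sum_le_sum hpt).trans ?_
  rw [sum_add_distrib, sum_add_distrib, ← mul_sum, ← mul_sum]
  have e1 : ∑ x ∈ hO.toFinset, (if |x.1 - xS| ≤ (ρ0 : ℤ) + 1 then |g x| else 0) =
      ∑ x ∈ hO.toFinset.filter (fun x => |x.1 - xS| ≤ (ρ0 : ℤ) + 1), |g x| := by
    rw [Finset.sum_filter]
  have e3 : ∑ x ∈ hO.toFinset, (if x ∈ box (go ω (xS, τ.t ω) (τ.i ω + 1)) ρ0 then |g x| else 0) ≤
      M * ((ρ0 : ℝ) / κ) ^ γ' := by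
    rw [← Finset.sum_filter]
    refine le_trans (sum_le_sum_of_subset_of_nonneg ?_ fun x _ _ => hg0 x)
      (m2 (go ω (xS, τ.t ω) (τ.i ω + 1)) ρ0 (by omega) hρκ)
    intro x hx
    exact (mem_filter.1 hx).2
  have e4 : ∑ x ∈ hO.toFinset, (if x ∈ box ((0 : ℤ), (0 : ℤ)) R ∧ C * ρ0 ≤ (dF T.faceSet x : ℝ) ∧
      TwoVisit (fun _ : Fin 1 => box x (D + 1)) (res T.V (box x ρ0) ω) then |g x| else 0) ≤
      C * (((R : ℝ) / κ) ^ γ * (R : ℝ) ^ (-(γ ^ 2 / 128))) := by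
    have h1 : ∑ x ∈ hO.toFinset, (if x ∈ box ((0 : ℤ), (0 : ℤ)) R ∧ C * ρ0 ≤ (dF T.faceSet x : ℝ) ∧
        TwoVisit (fun _ : Fin 1 => box x (D + 1)) (res T.V (box x ρ0) ω) then |g x| else 0) ≤
        ∑ x ∈ (box ((0 : ℤ), (0 : ℤ)) R).filter (fun x => C * ρ0 ≤ (dF T.faceSet x : ℝ) ∧
          TwoVisit (fun _ : Fin 1 => box x (D + 1)) (res T.V (box x ρ0) ω)), |g x| :=
      sum_ite_le905 hg0 fun x _ h => ⟨h.1, h.2⟩
    by_contra hc
    exact hbad ⟨OE T (τ.E ω), q, φ, u, χ, hO, hCP, hq, hχ, hφ, hu,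
      lt_of_lt_of_le (not_le.1 hc) h1⟩
  have e3' : M * ((ρ0 : ℝ) / κ) ^ γ' ≤ (M + 1) * ((ρ0 : ℝ) / κ) ^ γ' :=
    mul_le_mul_of_nonneg_right (by linarith) (by positivity)
  have hs4 : (0 : ℝ) ≤ 4 * s := by positivity
  have e5 := mul_le_mul_of_nonneg_left (e3.trans e3') hs4
  have e6 := mul_le_mul_of_nonneg_left e4 hs4
  rw [e1]
  linarith

end Vale.Agent.P155.NT613
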