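import Vale.Agent.P155.NT613.Def2

/-!
# P155, block NT-B4: the zones near the polygon, with the thickness of the loop
-/

namespace Vale.Agent.P155.NT613

open Vale.Agent.P155 Finset Skel BD J H12 E4

open Classical in
/-- some loop is thin at `z` -/
noncomputable def th (z : Pt) (n : ℕ) (κ : ℝ) (ω : Conf) : ℝ :=
  if ∃ L ∈ Loops ω, Thin ω L z n κ then 1 else 0

theorem th_nonneg (z : Pt) (n : ℕ) (κ : ℝ) (ω : Conf) : 0 ≤ th z n κ ω := by
  unfold th
  split_ifs <;> norm_num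

/-- the thin part in a zone -/
noncomputable def thF (T : Temp) (U : Pt → ℝ) (r : ℕ) (κ : ℝ) (ω : Conf) : ℝ :=
  (∑ z ∈ Zn T r, U z * th z (2 * r) κ ω) / (2 * (r : ℝ) + 1) ^ 2

theorem thF_nonneg {T : Temp} {U : Pt → ℝ} (hU : ∀ x, 0 ≤ U x) (r : ℕ) (κ : ℝ) (ω : Conf) :
    0 ≤ thF T U r κ ω := by
  unfold thF
  apply div_nonneg _ (by positivity)
  exact Finset.sum_nonneg (fun z _ => mul_nonneg (hU z) (th_nonneg _ _ _ _))

open Classical in
/-- the deterministic weight of a zone -/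
noncomputable def Dz (T : Temp) (U : Pt → ℝ) (r : ℕ) (y : Pt) : ℝ :=
  (∑ z ∈ (Zn T r).filter (fun z => dn z y ≤ 8 * r), U z) /
    ((2 * (r : ℝ) + 1) ^ 2 * (2 * (r : ℝ)) ^ 2)

/-- the bottom weight -/
noncomputable def Db (T : Temp) (W : Pt → ℝ) (ρ D : ℕ) (y : Pt) : ℝ :=
  ∑ x ∈ (Zb T ρ).filter (fun x => dn x y ≤ D + 2), W x

theorem Dz_nonneg {T : Temp} {U : Pt → ℝ} (hU : ∀ x, 0 ≤ U x) (r : ℕ) (y : Pt) :
    0 ≤ Dz T U r y := by
  unfold Dz
  apply div_nonneg _ (by positivity)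
  exact Finset.sum_nonneg (fun z _ => hU z)

theorem Db_nonneg {T : Temp} {W : Pt → ℝ} (hW : ∀ x, 0 ≤ W x) (ρ D : ℕ) (y : Pt) :
    0 ≤ Db T W ρ D y := by
  unfold Db
  exact Finset.sum_nonneg (fun z _ => hW z)

open Classical in
/-- sum over pairs at distance at most `k` -/
theorem sum_pairs_le {A B : Finset Pt} {W : Pt → ℝ} (hW : ∀ x ∈ A, 0 ≤ W x) (k : ℕ) :
    ∑ y ∈ B, ∑ z ∈ A.filter (fun z => dn z y ≤ k), W z ≤
      (2 * (k : ℝ) + 1) ^ 2 * ∑ z ∈ A, W z := by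
  have h1 : ∑ y ∈ B, ∑ z ∈ A.filter (fun z => dn z y ≤ k), W z =
      ∑ z ∈ A, ((B.filter (fun y => dn z y ≤ k)).card : ℝ) * W z := by
    simp_rw [Finset.sum_filter]
    rw [Finset.sum_comm]
    apply Finset.sum_congr rfl
    intro z _
    rw [← Finset.sum_filter, Finset.sum_const, nsmul_eq_mul]
  rw [h1, Finset.mul_sum]
  apply Finset.sum_le_sum
  intro z hz
  apply mul_le_mul_of_nonneg_right _ (hW z hz)
  have h2 : (B.filter (fun y => dn z y ≤ k)).card ≤ (box z k).card := by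
    apply Finset.card_le_card
    intro y hy
    exact G45.mem_box.2 (mem_filter.1 hy).2
  rw [G45.card_box] at h2
  exact_mod_cast h2

open Classical in
/-- at most `(2k+1)²` terms -/
theorem sum_near_le {A : Finset Pt} {W : Pt → ℝ} {b : ℝ} (hb : 0 ≤ b) (hW : ∀ x ∈ A, W x ≤ b)
    (k : ℕ) (y : Pt) :
    ∑ z ∈ A.filter (fun z => dn z y ≤ k), W z ≤ (2 * (k : ℝ) + 1) ^ 2 * b := by
  calc ∑ z ∈ A.filter (fun z => dn z y ≤ k), W z
      ≤ ∑ _z ∈ A.filter (fun z => dn z y ≤ k), b :=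
        Finset.sum_le_sum (fun z hz => hW z (mem_filter.1 hz).1)
    _ = ((A.filter (fun z => dn z y ≤ k)).card : ℝ) * b := by
        rw [Finset.sum_const, nsmul_eq_mul]
    _ ≤ _ := by
        apply mul_le_mul_of_nonneg_right _ hb
        have h2 : (A.filter (fun z => dn z y ≤ k)).card ≤ (box y k).card := by
          apply Finset.card_le_card
          intro z hz
          rw [G45.mem_box, G45.dn_comm]
          exact (mem_filter.1 hz).2
        rw [G45.card_box] at h2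
        exact_mod_cast h2

/-- faces at distance at most `w` from the outside -/
noncomputable def Sw (T : Temp) (w : ℕ) : Finset Pt :=
  (A1.faceSet_finite T).toFinset.filter (fun z => dF T.faceSet z ≤ w)

theorem mem_Sw {T : Temp} {w : ℕ} {z : Pt} : z ∈ Sw T w ↔ z ∈ T.faceSet ∧
    dF T.faceSet z ≤ w := by
  unfold Sw
  rw [mem_filter, Set.Finite.mem_toFinset]

open Classical in
/-- swapping the sums: number of surrounded faces near `z` -/
theorem cnt_swap {T : Temp} {U : Pt → ℝ} {r : ℕ} (hr : 1 ≤ r) (ω : Conf) (L : Set Pt) :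
    (∑ z ∈ Zn T r, U z * (cnt ω L (box z (8 * r)) : ℝ)) /
      ((2 * (r : ℝ) + 1) ^ 2 * (2 * (r : ℝ)) ^ 2) = mD ω L (Sw T (265 * r)) (Dz T U r) := by
  have hne := G45.exists_notMem (A1.faceSet_finite T)
  have h1 : ∀ z ∈ Zn T r, (cnt ω L (box z (8 * r)) : ℝ) =
      ∑ y ∈ Sw T (265 * r), if dn z y ≤ 8 * r then (if surr ω L y then (1 : ℝ) else 0) else 0 := by
    intro z hz
    unfold cnt
    rw [← Finset.sum_filter, ← Finset.sum_filter, Finset.sum_const, nsmul_eq_mul, mul_one]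
    congr 2
    ext y
    rw [mem_filter, mem_filter, mem_filter, G45.mem_box, mem_Sw]
    constructor
    · rintro ⟨h2, h3⟩
      obtain ⟨g1, g2, g3⟩ := mem_Zn.1 hz
      have h4 := G45.dF_lip hne z y
      have h5 := G45.dF_lip hne y z
      rw [G45.dn_comm y z] at h5
      exact ⟨⟨⟨G45.mem_of_dF_pos (by omega), by omega⟩, h2⟩, h3⟩
    · rintro ⟨⟨_, h2⟩, h3⟩
      exact ⟨h2, h3⟩
  have h2 : ∑ z ∈ Zn T r, U z * (cnt ω L (box z (8 * r)) : ℝ) =
      ∑ y ∈ Sw T (265 * r), (∑ z ∈ (Zn T r).filter (fun z => dn z y ≤ 8 * r), U z) *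
        (if surr ω L y then (1 : ℝ) else 0) := by
    rw [Finset.sum_congr rfl (fun z hz => by rw [h1 z hz])]
    simp_rw [Finset.mul_sum, Finset.sum_mul]
    rw [Finset.sum_comm]
    apply Finset.sum_congr rfl
    intro y _
    rw [Finset.sum_filter]
    apply Finset.sum_congr rfl
    intro z _
    split_ifs <;> simp
  rw [h2, Finset.sum_div]
  unfold mD Dz
  apply Finset.sum_congr rfl
  intro y _
  rw [div_mul_eq_mul_div]

/-- **one zone**, for a loop which leaves all boxes of radius `4 r` -/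
theorem zoneT_le {K : ℝ} (hK0 : 0 ≤ K)
    (hK : ∀ (P O : Set Pt) (p z : Pt) (n0 s r : ℕ) (C0 Cc : ℝ)
      (χ φ u U : Pt → ℝ), P.Finite → G45.CPr O → O ⊆ P → 1 ≤ n0 → 0 ≤ C0 →
      IsGreen P (dens C0 p n0) U → 1 ≤ s → 8 * s ≤ n0 → IsCut O s Cc χ →
      (∀ y, |φ y| ≤ dens C0 p n0 y) → IsGreen O φ u → s ≤ r → 7 * r ≤ dF P z →
      64 * r ≤ n0 + dn p z → ∑ x ∈ box z r, |fL O φ χ u x| ≤ K * (Cc + 1) * U z)
    {T : Temp} {ω : Conf} (hω : ω ∈ DD T.V) {L : Set Pt} (hL : L ∈ Loops ω)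
    {O : Set Pt} {p : Pt} {n0 s r D : ℕ} {C0 Cc κ : ℝ} (hκ : 0 < κ)
    {χ φ u U : Pt → ℝ} (hCP : G45.CPr O) (hOP : O ⊆ T.faceSet) (hn0 : 1 ≤ n0) (hC0 : 0 ≤ C0)
    (hU : IsGreen T.faceSet (dens C0 p n0) U) (hs : 1 ≤ s) (h8 : 8 * s ≤ n0)
    (hχ : IsCut O s Cc χ) (hφ : ∀ y, |φ y| ≤ dens C0 p n0 y) (hu : IsGreen O φ u) (hsr : s ≤ r)
    (hr : 64 * r ≤ n0) (hD : D + 2 ≤ r) (hmac : ∀ z, ∃ v ∈ L, v ∉ box z (4 * r)) {S : Finset Pt}
    (hS : ∀ x ∈ S, 128 * r ≤ dF T.faceSet x ∧ dF T.faceSet x ≤ 256 * r ∧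
      ∃ v ∈ L, dn x v ≤ D + 1) :
    ∑ x ∈ S, |fL O φ χ u x| ≤
      K * (Cc + 1) * (thF T U r κ ω + κ⁻¹ * mD ω L (Sw T (265 * r)) (Dz T U r)) := by
  classical
  have hfin := A1.faceSet_finite T
  have hne := G45.exists_notMem hfin
  have hCc := cut_C0_nonneg hχ
  have hU0 := G45.green_nonneg hfin hU (fun y _ => dens_nonneg hC0 p n0 y)
  have hr1 : 1 ≤ r := by omega
  have hrr : (1 : ℝ) ≤ r := by exact_mod_cast hr1
  have hr0 : (0 : ℝ) < 2 * (r : ℝ) + 1 := by positivity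
  have h1 := avg_box (S := S) (Z := Zn T r) (r := r) (a := fun x => |fL O φ χ u x|)
    (B := fun z => K * (Cc + 1) * (U z * th z (2 * r) κ ω +
      κ⁻¹ * (U z * (cnt ω L (box z (8 * r)) : ℝ)) / (2 * (r : ℝ)) ^ 2)) ?_ ?_
  · have e : K * (Cc + 1) * (thF T U r κ ω + κ⁻¹ * mD ω L (Sw T (265 * r)) (Dz T U r)) =
        (∑ z ∈ Zn T r, K * (Cc + 1) * (U z * th z (2 * r) κ ω +
          κ⁻¹ * (U z * (cnt ω L (box z (8 * r)) : ℝ)) / (2 * (r : ℝ)) ^ 2)) /
            (2 * (r : ℝ) + 1) ^ 2 := by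
      rw [← cnt_swap hr1 ω L, ← Finset.mul_sum, Finset.sum_add_distrib, ← Finset.sum_div,
        ← Finset.mul_sum]
      unfold thF
      field_simp
    rw [e, le_div_iff₀ (by positivity)]
    exact h1
  · intro x hx z hz
    rw [G45.mem_box] at hz
    obtain ⟨a1, a2, _⟩ := hS x hx
    have a3 := G45.dF_lip hne x z
    have a4 := G45.dF_lip hne z x
    rw [G45.dn_comm z x] at a4
    rw [mem_Zn]
    exact ⟨G45.mem_of_dF_pos (by omega), by omega, by omega⟩
  · intro z hz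
    rw [mem_Zn] at hz
    have hU1 := hU0 z
    have hth := th_nonneg z (2 * r) κ ω
    rcases (S.filter (fun x => dn z x ≤ r)).eq_empty_or_nonempty with he | ⟨x, hx⟩
    · rw [he, Finset.sum_empty]
      positivity
    · rw [mem_filter] at hx
      obtain ⟨_, _, v, hv, hxv⟩ := hS x hx.1
      have hvis : Vis ω L z (2 * r) := vis_near hω hL hv hxv (by have := hx.2; omega)
      obtain ⟨v', hv', hout⟩ := hmac z
      have hle : ∑ x ∈ S.filter (fun x => dn z x ≤ r), |fL O φ χ u x| ≤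
          K * (Cc + 1) * U z := by
        refine le_trans ?_ (hK T.faceSet O p z n0 s r C0 Cc χ φ u U hfin hCP hOP hn0 hC0 hU hs
          h8 hχ hφ hu hsr (by have := hz.2.1; omega) (by omega))
        apply Finset.sum_le_sum_of_subset_of_nonneg
        · intro y hy
          exact G45.mem_box.2 (mem_filter.1 hy).2
        · intro y _ _
          positivity
      refine hle.trans ?_
      apply mul_le_mul_of_nonneg_left _ (by positivity)
      by_cases hthin : ∃ L' ∈ Loops ω, Thin ω L' z (2 * r) κ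
      · have e1 : th z (2 * r) κ ω = 1 := by unfold th; rw [if_pos hthin]
        rw [e1, mul_one]
        have : 0 ≤ κ⁻¹ * (U z * (cnt ω L (box z (8 * r)) : ℝ)) / (2 * (r : ℝ)) ^ 2 := by
          positivity
        linarith
      · have h2 : κ * ((2 * r : ℕ) : ℝ) ^ 2 < (cnt ω L (box z (4 * (2 * r))) : ℝ) := by
          by_contra hcon
          push Not at hcon
          refine hthin ⟨L, hL, hvis, ⟨v', hv', ?_⟩, hcon⟩
          rw [show 2 * (2 * r) = 4 * r by ring]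
          exact hout
        rw [show 4 * (2 * r) = 8 * r by ring] at h2
        push_cast at h2
        have h3 : U z ≤ κ⁻¹ * (U z * (cnt ω L (box z (8 * r)) : ℝ)) / (2 * (r : ℝ)) ^ 2 := by
          rw [le_div_iff₀ (by positivity), ← div_eq_inv_mul, le_div_iff₀ hκ]
          calc U z * (2 * (r : ℝ)) ^ 2 * κ = U z * (κ * (2 * (r : ℝ)) ^ 2) := by ring
            _ ≤ _ := mul_le_mul_of_nonneg_left h2.le hU1
        have : 0 ≤ U z * th z (2 * r) κ ω := by positivity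
        linarith

open Classical in
/-- **the bottom zone** -/
theorem botT_le {K : ℝ}
    (hK : ∀ (P O : Set Pt) (p : Pt) (n0 s : ℕ) (C0 Cc : ℝ)
      (χ φ u U : Pt → ℝ), P.Finite → O ⊆ P → 1 ≤ n0 → 0 ≤ C0 →
      IsGreen P (dens C0 p n0) U → 1 ≤ s → 8 * s ≤ n0 → IsCut O s Cc χ →
      (∀ y, |φ y| ≤ dens C0 p n0 y) → IsGreen O φ u →
      ∀ x, |fL O φ χ u x| ≤ K * (Cc + 1) * (U x + dens C0 p n0 x)) (hK0 : 0 ≤ K)
    {T : Temp} {ω : Conf} (hω : ω ∈ DD T.V) {L : Set Pt} (hL : L ∈ Loops ω)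
    {O : Set Pt} {p : Pt} {n0 s ρ D : ℕ} {C0 Cc : ℝ}
    {χ φ u U : Pt → ℝ} (hOP : O ⊆ T.faceSet) (hn0 : 1 ≤ n0) (hC0 : 0 ≤ C0)
    (hU : IsGreen T.faceSet (dens C0 p n0) U) (hs : 1 ≤ s) (h8 : 8 * s ≤ n0)
    (hχ : IsCut O s Cc χ) (hφ : ∀ y, |φ y| ≤ dens C0 p n0 y) (hu : IsGreen O φ u)
    (hDρ : D + 2 ≤ ρ) {S : Finset Pt}
    (hS : ∀ x ∈ S, dF T.faceSet x ≤ 2 * ρ ∧ ∃ v ∈ L, dn x v ≤ D + 1) :
    ∑ x ∈ S, |fL O φ χ u x| ≤
      K * (Cc + 1) * mD ω L (Sw T (3 * ρ)) (Db T (fun x => U x + dens C0 p n0 x) ρ D) := by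
  have hfin := A1.faceSet_finite T
  have hne := G45.exists_notMem hfin
  have hCc := cut_C0_nonneg hχ
  have hU0 := G45.green_nonneg hfin hU (fun y _ => dens_nonneg hC0 p n0 y)
  have hW0 : ∀ x, 0 ≤ U x + dens C0 p n0 x := fun x => by
    have := hU0 x
    have := dens_nonneg hC0 p n0 x
    linarith
  have hz := T905.fL_zero_off (hfin.subset hOP) hs hχ hu
  have h1 : ∑ x ∈ S, |fL O φ χ u x| = ∑ x ∈ S.filter (fun x => x ∈ T.faceSet),
      |fL O φ χ u x| := by
    symm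
    apply Finset.sum_subset (Finset.filter_subset _ _)
    intro x hxS hx
    rw [hz x, abs_zero]
    intro hxO
    rw [Set.Finite.mem_toFinset] at hxO
    exact hx (mem_filter.2 ⟨hxS, hOP hxO⟩)
  have hswap : mD ω L (Sw T (3 * ρ)) (Db T (fun x => U x + dens C0 p n0 x) ρ D) =
      ∑ x ∈ Zb T ρ, (U x + dens C0 p n0 x) *
        ∑ f ∈ (Sw T (3 * ρ)).filter (fun f => dn x f ≤ D + 2),
          (if surr ω L f then (1 : ℝ) else 0) := by
    unfold mD Db
    simp_rw [Finset.sum_mul, Finset.mul_sum, Finset.sum_filter]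
    rw [Finset.sum_comm]
  rw [h1, hswap, Finset.mul_sum]
  have hin0 : ∀ x : Pt, (0 : ℝ) ≤ ∑ f ∈ (Sw T (3 * ρ)).filter (fun f => dn x f ≤ D + 2),
      (if surr ω L f then (1 : ℝ) else 0) := by
    intro x
    apply Finset.sum_nonneg
    intro f _
    split_ifs <;> norm_num
  calc ∑ x ∈ S.filter (fun x => x ∈ T.faceSet), |fL O φ χ u x|
      ≤ ∑ x ∈ S.filter (fun x => x ∈ T.faceSet), K * (Cc + 1) * ((U x + dens C0 p n0 x) *
          ∑ f ∈ (Sw T (3 * ρ)).filter (fun f => dn x f ≤ D + 2),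
            (if surr ω L f then (1 : ℝ) else 0)) := by
        apply Finset.sum_le_sum
        intro x hx
        rw [mem_filter] at hx
        obtain ⟨hx2, v, hv, hxv⟩ := hS x hx.1
        obtain ⟨f, g1, g2, g3⟩ := inn_near hω hL hv
        have hxf : dn x f ≤ D + 2 := by
          have := G45.dn_tri x v f
          omega
        have h3 : (1 : ℝ) ≤ ∑ f ∈ (Sw T (3 * ρ)).filter (fun f => dn x f ≤ D + 2),
            (if surr ω L f then (1 : ℝ) else 0) := by
          have hmem : f ∈ (Sw T (3 * ρ)).filter (fun f => dn x f ≤ D + 2) := by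
            rw [mem_filter, mem_Sw]
            have h4 := G45.dF_lip hne f x
            rw [G45.dn_comm f x] at h4
            exact ⟨⟨g2, by omega⟩, hxf⟩
          have h5 := Finset.single_le_sum (f := fun f => if surr ω L f then (1 : ℝ) else 0)
            (fun f _ => by
              show (0 : ℝ) ≤ if surr ω L f then (1 : ℝ) else 0
              split_ifs <;> norm_num) hmem
          simp only [if_pos g1.1] at h5
          exact h5
        refine (hK T.faceSet O p n0 s C0 Cc χ φ u U hfin hOP hn0 hC0 hU hs h8 hχ hφ hu x).trans ?_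
        apply mul_le_mul_of_nonneg_left _ (by positivity)
        have := hW0 x
        nlinarith
    _ ≤ _ := by
        apply Finset.sum_le_sum_of_subset_of_nonneg
        · intro x hx
          rw [mem_filter] at hx
          exact mem_Zb.2 ⟨hx.2, (hS x hx.1).1⟩
        · intro x _ _
          have h2 := hW0 x
          have h3 := hin0 x
          positivity

end Vale.Agent.P155.NT613
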