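import Vale.Agent.P155.NT613.Whit
import Vale.Agent.P155.H354.Trace
import Vale.Agent.P155.T905.Eval

/-!
# P155, block NT-B4: the layer function near the polygon at the places visited by a big loop

`Two T z z' ω`: one loop visits the Whitney boxes of `z` and of `z'`.
`zoneF`, `botF`: majorants of the mass of the layer function at the points of a zone close to the
loop.
-/

namespace Vale.Agent.P155.NT613

open Vale.Agent.P155 Finset Skel BD J H12 E4

/-- one loop visits both Whitney boxes -/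
def Two (T : Temp) (z z' : Pt) (ω : Conf) : Prop :=
  ∃ L ∈ Loops ω, Vis ω L z (sz T z) ∧ Vis ω L z' (sz T z')

open Classical in
/-- its indicator -/
noncomputable def tw (T : Temp) (z z' : Pt) (ω : Conf) : ℝ := if Two T z z' ω then 1 else 0

theorem tw_nonneg (T : Temp) (z z' : Pt) (ω : Conf) : 0 ≤ tw T z z' ω := by
  unfold tw
  split_ifs <;> norm_num

theorem tw_le_one (T : Temp) (z z' : Pt) (ω : Conf) : tw T z z' ω ≤ 1 := by
  unfold tw
  split_ifs <;> norm_num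

theorem tw_one {T : Temp} {z z' : Pt} {ω : Conf} (h : Two T z z' ω) : tw T z z' ω = 1 := by
  unfold tw
  rw [if_pos h]

/-- an inner face next to a vertex of a loop -/
theorem inn_near {T : Temp} {ω : Conf} (hω : ω ∈ DD T.V) {L : Set Pt} (hL : L ∈ Loops ω) {v : Pt}
    (hv : v ∈ L) : ∃ f, Inn ω L f ∧ f ∈ T.faceSet ∧ dn v f ≤ 1 := by
  obtain ⟨f, h1, h2⟩ := H550.exists_at hω hL hv
  have h3 := T802.mem_facesAt.1 h1
  refine ⟨f, ⟨h2, v, h3, hv⟩, A1.L_in hω hL h2, ?_⟩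
  simp only [T802.corners, mem_insert, mem_singleton] at h3
  rw [G45.dn_eq]
  rcases h3 with rfl | rfl | rfl | rfl <;> simp

theorem vis_near {T : Temp} {ω : Conf} (hω : ω ∈ DD T.V) {L : Set Pt} (hL : L ∈ Loops ω)
    {x v z : Pt} {D n : ℕ} (hv : v ∈ L) (hx : dn x v ≤ D + 1) (hz : dn z x + D + 2 ≤ n) :
    Vis ω L z n := by
  obtain ⟨f, h1, _, h3⟩ := inn_near hω hL hv
  refine ⟨f, ?_, h1⟩
  rw [G45.mem_box]
  have h4 := G45.dn_tri z x f
  have h5 := G45.dn_tri x v f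
  omega

/-- the points `z` for the zone at distance about `128 r` from the outside -/
noncomputable def Zn (T : Temp) (r : ℕ) : Finset Pt :=
  (A1.faceSet_finite T).toFinset.filter (fun z => 127 * r ≤ dF T.faceSet z ∧
    dF T.faceSet z ≤ 257 * r)

theorem mem_Zn {T : Temp} {r : ℕ} {z : Pt} : z ∈ Zn T r ↔ z ∈ T.faceSet ∧
    127 * r ≤ dF T.faceSet z ∧ dF T.faceSet z ≤ 257 * r := by
  unfold Zn
  rw [mem_filter, Set.Finite.mem_toFinset]

/-- majorant in a zone -/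
noncomputable def zoneF (T : Temp) (U : Pt → ℝ) (z' : Pt) (r : ℕ) (ω : Conf) : ℝ :=
  (∑ z ∈ Zn T r, U z * tw T z z' ω) / (2 * (r : ℝ) + 1) ^ 2

theorem zoneF_nonneg {T : Temp} {U : Pt → ℝ} (hU : ∀ x, 0 ≤ U x) (z' : Pt) (r : ℕ) (ω : Conf) :
    0 ≤ zoneF T U z' r ω := by
  unfold zoneF
  apply div_nonneg _ (by positivity)
  exact Finset.sum_nonneg (fun z _ => mul_nonneg (hU z) (tw_nonneg _ _ _ _))

/-- the bottom zone -/
noncomputable def Zb (T : Temp) (ρ : ℕ) : Finset Pt :=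
  (A1.faceSet_finite T).toFinset.filter (fun z => dF T.faceSet z ≤ 2 * ρ)

theorem mem_Zb {T : Temp} {ρ : ℕ} {z : Pt} : z ∈ Zb T ρ ↔ z ∈ T.faceSet ∧
    dF T.faceSet z ≤ 2 * ρ := by
  unfold Zb
  rw [mem_filter, Set.Finite.mem_toFinset]

open Classical in
/-- majorant in the bottom zone -/
noncomputable def botF (T : Temp) (W : Pt → ℝ) (z' : Pt) (ρ D : ℕ) (ω : Conf) : ℝ :=
  ∑ x ∈ Zb T ρ, W x * ∑ f ∈ (box x (D + 2)).filter (fun f => f ∈ T.faceSet), tw T f z' ω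

theorem botF_nonneg {T : Temp} {W : Pt → ℝ} (hW : ∀ x, 0 ≤ W x) (z' : Pt) (ρ D : ℕ) (ω : Conf) :
    0 ≤ botF T W z' ρ D ω := by
  unfold botF
  exact Finset.sum_nonneg (fun x _ => mul_nonneg (hW x)
    (Finset.sum_nonneg (fun f _ => tw_nonneg _ _ _ _)))

/-- **one zone** -/
theorem zone_le {K : ℝ} (hK0 : 0 ≤ K)
    (hK : ∀ (P O : Set Pt) (p z : Pt) (n0 s r : ℕ) (C0 Cc : ℝ)
      (χ φ u U : Pt → ℝ), P.Finite → G45.CPr O → O ⊆ P → 1 ≤ n0 → 0 ≤ C0 →
      IsGreen P (dens C0 p n0) U → 1 ≤ s → 8 * s ≤ n0 → IsCut O s Cc χ →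
      (∀ y, |φ y| ≤ dens C0 p n0 y) → IsGreen O φ u → s ≤ r → 7 * r ≤ dF P z →
      64 * r ≤ n0 + dn p z → ∑ x ∈ box z r, |fL O φ χ u x| ≤ K * (Cc + 1) * U z)
    {T : Temp} {ω : Conf} (hω : ω ∈ DD T.V) {L : Set Pt} (hL : L ∈ Loops ω) {z' : Pt}
    (hz' : Vis ω L z' (sz T z')) {O : Set Pt} {p : Pt} {n0 s r D : ℕ} {C0 Cc : ℝ}
    {χ φ u U : Pt → ℝ} (hCP : G45.CPr O) (hOP : O ⊆ T.faceSet) (hn0 : 1 ≤ n0) (hC0 : 0 ≤ C0)
    (hU : IsGreen T.faceSet (dens C0 p n0) U) (hs : 1 ≤ s) (h8 : 8 * s ≤ n0)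
    (hχ : IsCut O s Cc χ) (hφ : ∀ y, |φ y| ≤ dens C0 p n0 y) (hu : IsGreen O φ u) (hsr : s ≤ r)
    (hr : 64 * r ≤ n0) (hD : D + 2 ≤ r) {S : Finset Pt}
    (hS : ∀ x ∈ S, 128 * r ≤ dF T.faceSet x ∧ dF T.faceSet x ≤ 256 * r ∧
      ∃ v ∈ L, dn x v ≤ D + 1) :
    ∑ x ∈ S, |fL O φ χ u x| ≤ K * (Cc + 1) * zoneF T U z' r ω := by
  classical
  have hfin := A1.faceSet_finite T
  have hne := G45.exists_notMem hfin
  have hCc := cut_C0_nonneg hχ
  have hU0 := G45.green_nonneg hfin hU (fun y _ => dens_nonneg hC0 p n0 y)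
  have hr0 : (0 : ℝ) < 2 * (r : ℝ) + 1 := by positivity
  have h1 := avg_box (S := S) (Z := Zn T r) (r := r) (a := fun x => |fL O φ χ u x|)
    (B := fun z => K * (Cc + 1) * (U z * tw T z z' ω)) ?_ ?_
  · unfold zoneF
    rw [← mul_div_assoc, le_div_iff₀ (by positivity)]
    rw [← Finset.mul_sum] at h1
    exact h1
  · intro x hx z hz
    rw [G45.mem_box] at hz
    obtain ⟨a1, a2, _⟩ := hS x hx
    have a3 := G45.dF_lip hne x z
    have a4 := G45.dF_lip hne z x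
    rw [G45.dn_comm z x] at a4
    rw [mem_Zn]
    refine ⟨G45.mem_of_dF_pos (by omega), by omega, by omega⟩
  · intro z hz
    rw [mem_Zn] at hz
    rcases (S.filter (fun x => dn z x ≤ r)).eq_empty_or_nonempty with he | ⟨x, hx⟩
    · rw [he, Finset.sum_empty]
      have := hU0 z
      have := tw_nonneg T z z' ω
      positivity
    · rw [mem_filter] at hx
      obtain ⟨_, _, v, hv, hxv⟩ := hS x hx.1
      have h2 : Two T z z' ω := ⟨L, hL, vis_near hω hL hv hxv (by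
        have h3 := hz.2.1
        have h4 := hx.2
        unfold sz
        omega), hz'⟩
      rw [tw_one h2, mul_one]
      calc ∑ x ∈ S.filter (fun x => dn z x ≤ r), |fL O φ χ u x|
          ≤ ∑ x ∈ box z r, |fL O φ χ u x| := by
            apply Finset.sum_le_sum_of_subset_of_nonneg
            · intro y hy
              exact G45.mem_box.2 (mem_filter.1 hy).2
            · intro y _ _
              positivity
        _ ≤ _ := hK T.faceSet O p z n0 s r C0 Cc χ φ u U hfin hCP hOP hn0 hC0 hU hs h8 hχ hφ hu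
            hsr (by have := hz.2.1; omega) (by omega)

/-- **the bottom zone** -/
theorem bot_le {K : ℝ}
    (hK : ∀ (P O : Set Pt) (p : Pt) (n0 s : ℕ) (C0 Cc : ℝ)
      (χ φ u U : Pt → ℝ), P.Finite → O ⊆ P → 1 ≤ n0 → 0 ≤ C0 →
      IsGreen P (dens C0 p n0) U → 1 ≤ s → 8 * s ≤ n0 → IsCut O s Cc χ →
      (∀ y, |φ y| ≤ dens C0 p n0 y) → IsGreen O φ u →
      ∀ x, |fL O φ χ u x| ≤ K * (Cc + 1) * (U x + dens C0 p n0 x)) (hK0 : 0 ≤ K)
    {T : Temp} {ω : Conf} (hω : ω ∈ DD T.V) {L : Set Pt} (hL : L ∈ Loops ω) {z' : Pt}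
    (hz' : Vis ω L z' (sz T z')) {O : Set Pt} {p : Pt} {n0 s ρ D : ℕ} {C0 Cc : ℝ}
    {χ φ u U : Pt → ℝ} (hOP : O ⊆ T.faceSet) (hn0 : 1 ≤ n0) (hC0 : 0 ≤ C0)
    (hU : IsGreen T.faceSet (dens C0 p n0) U) (hs : 1 ≤ s) (h8 : 8 * s ≤ n0)
    (hχ : IsCut O s Cc χ) (hφ : ∀ y, |φ y| ≤ dens C0 p n0 y) (hu : IsGreen O φ u)
    {S : Finset Pt}
    (hS : ∀ x ∈ S, dF T.faceSet x ≤ 2 * ρ ∧ ∃ v ∈ L, dn x v ≤ D + 1) :
    ∑ x ∈ S, |fL O φ χ u x| ≤
      K * (Cc + 1) * botF T (fun x => U x + dens C0 p n0 x) z' ρ D ω := by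
  classical
  have hfin := A1.faceSet_finite T
  have hCc := cut_C0_nonneg hχ
  have hU0 := G45.green_nonneg hfin hU (fun y _ => dens_nonneg hC0 p n0 y)
  have hW0 : ∀ x, 0 ≤ U x + dens C0 p n0 x := fun x => by
    have := hU0 x
    have := dens_nonneg hC0 p n0 x
    linarith
  have hz := T905.fL_zero_off (hfin.subset hOP) hs hχ hu
  have h1 : ∑ x ∈ S, |fL O φ χ u x| = ∑ x ∈ S.filter (fun x => x ∈ T.faceSet),
      |fL O φ χ u x| := by
    symm
    apply Finset.sum_subset (Finset.filter_subset _ _)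
    intro x hxS hx
    rw [hz x, abs_zero]
    intro hxO
    rw [Set.Finite.mem_toFinset] at hxO
    exact hx (mem_filter.2 ⟨hxS, hOP hxO⟩)
  rw [h1]
  unfold botF
  rw [Finset.mul_sum]
  calc ∑ x ∈ S.filter (fun x => x ∈ T.faceSet), |fL O φ χ u x|
      ≤ ∑ x ∈ S.filter (fun x => x ∈ T.faceSet), K * (Cc + 1) * ((U x + dens C0 p n0 x) *
          ∑ f ∈ (box x (D + 2)).filter (fun f => f ∈ T.faceSet), tw T f z' ω) := by
        apply Finset.sum_le_sum
        intro x hx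
        rw [mem_filter] at hx
        obtain ⟨_, v, hv, hxv⟩ := hS x hx.1
        obtain ⟨f, g1, g2, g3⟩ := inn_near hω hL hv
        have h2 : Two T f z' ω := ⟨L, hL, ⟨f, G45.mem_box.2 (by rw [G45.dn_self]; omega), g1⟩, hz'⟩
        have h3 : (1 : ℝ) ≤ ∑ f ∈ (box x (D + 2)).filter (fun f => f ∈ T.faceSet),
            tw T f z' ω := by
          rw [← tw_one h2]
          apply Finset.single_le_sum (f := fun f => tw T f z' ω) (fun f _ => tw_nonneg _ _ _ _)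
          rw [mem_filter, G45.mem_box]
          have := G45.dn_tri x v f
          exact ⟨by omega, g2⟩
        refine (hK T.faceSet O p n0 s C0 Cc χ φ u U hfin hOP hn0 hC0 hU hs h8 hχ hφ hu x).trans ?_
        apply mul_le_mul_of_nonneg_left _ (by positivity)
        have := hW0 x
        nlinarith
    _ ≤ _ := by
        apply Finset.sum_le_sum_of_subset_of_nonneg
        · intro x hx
          rw [mem_filter] at hx
          exact mem_Zb.2 ⟨hx.2, (hS x hx.1).1⟩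
        · intro x _ _
          have h2 := hW0 x
          have h3 : 0 ≤ ∑ f ∈ (box x (D + 2)).filter (fun f => f ∈ T.faceSet), tw T f z' ω :=
            Finset.sum_nonneg (fun f _ => tw_nonneg _ _ _ _)
          positivity

end Vale.Agent.P155.NT613
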