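import Vale.Agent.P155.NT613.NB1
import Vale.Agent.P155.E.Prob
import Vale.Agent.P155.L.Face0
import Vale.Agent.P155.E4.Num

/-!
# P155, block NT-B4: expectation of the majorants, and the sum over the zones
-/

namespace Vale.Agent.P155.NT613

open Vale.Agent.P155 Finset Skel BD J H12 E4

theorem Ex_tw (T : Temp) (z z' : Pt) : Ex T.V (tw T z z') = Pr T.V (Two T z z') := by
  classical
  rw [E.Pr_eq_avg, J.Ex_eq_avg]
  apply J.avg_congr
  intro ω _
  unfold tw
  split_ifs <;> rfl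

theorem Ex_zone {T : Temp} {U : Pt → ℝ} (hU0 : ∀ x, 0 ≤ U x) {z' : Pt} {c C m K2 : ℝ} {r : ℕ}
    (hc : 0 < c) (hC : 0 ≤ C) (hm : 0 < m) (hr : 1 ≤ r)
    (hp : ∀ z ∈ T.faceSet, Pr T.V (Two T z z') ≤ C * (((sz T z : ℝ) + 1) / m) ^ c)
    (hz : ∑ x ∈ Zn T r, U x ≤ K2 * ((129 * r : ℕ) : ℝ) ^ 2) :
    Ex T.V (zoneF T U z' r) ≤ 4161 * K2 * C * (18 * r / m) ^ c := by
  have hr1 : (1 : ℝ) ≤ r := by exact_mod_cast hr
  have e : Ex T.V (zoneF T U z' r) =
      (∑ z ∈ Zn T r, U z * Pr T.V (Two T z z')) / (2 * (r : ℝ) + 1) ^ 2 := by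
    have h1 : Ex T.V (zoneF T U z' r) =
        Ex T.V (fun ω => ((2 * (r : ℝ) + 1) ^ 2)⁻¹ * ∑ z ∈ Zn T r, U z * tw T z z' ω) := by
      apply H12.Ex_congr
      intro ω _
      unfold zoneF
      rw [div_eq_inv_mul]
    rw [h1, H12.Ex_mul, H12.Ex_sum, div_eq_inv_mul]
    congr 1
    apply Finset.sum_congr rfl
    intro z _
    rw [H12.Ex_mul, ← Ex_tw]
  rw [e, div_le_iff₀ (by positivity)]
  have hq : 0 ≤ C * (18 * r / m) ^ c := by positivity
  have h2 : ∑ z ∈ Zn T r, U z * Pr T.V (Two T z z') ≤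
      (∑ z ∈ Zn T r, U z) * (C * (18 * r / m) ^ c) := by
    rw [Finset.sum_mul]
    apply Finset.sum_le_sum
    intro z hz
    apply mul_le_mul_of_nonneg_left _ (hU0 z)
    obtain ⟨g1, g2, g3⟩ := mem_Zn.1 hz
    refine (hp z g1).trans ?_
    apply mul_le_mul_of_nonneg_left _ hC
    apply Real.rpow_le_rpow (by positivity) _ hc.le
    apply div_le_div_of_nonneg_right _ hm.le
    have h3 : sz T z + 1 ≤ 18 * r := by
      unfold sz
      omega
    exact_mod_cast h3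
  have hK2 : 0 ≤ K2 := by
    have h3 : 0 ≤ ∑ x ∈ Zn T r, U x := Finset.sum_nonneg (fun x _ => hU0 x)
    have h4 : (0 : ℝ) < ((129 * r : ℕ) : ℝ) ^ 2 := by
      have : 0 < 129 * r := by omega
      positivity
    by_contra hneg
    push Not at hneg
    nlinarith
  calc ∑ z ∈ Zn T r, U z * Pr T.V (Two T z z')
      ≤ (K2 * ((129 * r : ℕ) : ℝ) ^ 2) * (C * (18 * r / m) ^ c) :=
        h2.trans (mul_le_mul_of_nonneg_right hz hq)
    _ = 4160.25 * (K2 * (C * (18 * r / m) ^ c)) * (2 * (r : ℝ)) ^ 2 := by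
        push_cast
        ring
    _ ≤ 4161 * (K2 * (C * (18 * r / m) ^ c)) * (2 * (r : ℝ) + 1) ^ 2 := by
        have h5 : 0 ≤ K2 * (C * (18 * r / m) ^ c) := mul_nonneg hK2 hq
        have h6 : (2 * (r : ℝ)) ^ 2 ≤ (2 * (r : ℝ) + 1) ^ 2 := by
          apply pow_le_pow_left₀ (by positivity)
          linarith
        apply mul_le_mul _ h6 (by positivity) (by positivity)
        linarith
    _ = _ := by ring

theorem Ex_bot {T : Temp} {W : Pt → ℝ} (hW0 : ∀ x, 0 ≤ W x) {z' : Pt} {c C m K2 : ℝ} {ρ D : ℕ}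
    (hc : 0 < c) (hC : 0 ≤ C) (hm : 0 < m) (hD : D + 2 ≤ ρ)
    (hp : ∀ z ∈ T.faceSet, Pr T.V (Two T z z') ≤ C * (((sz T z : ℝ) + 1) / m) ^ c)
    (hz : ∑ x ∈ Zb T ρ, W x ≤ K2 * (ρ : ℝ) ^ 2) :
    Ex T.V (botF T W z' ρ D) ≤ 9 * K2 * C * ((ρ : ℝ) ^ 4 * (2 * ρ / m) ^ c) := by
  classical
  have hρ1 : (1 : ℝ) ≤ ρ := by
    have : 1 ≤ ρ := by omega
    exact_mod_cast this
  have hne := G45.exists_notMem (A1.faceSet_finite T)
  have e : Ex T.V (botF T W z' ρ D) = ∑ x ∈ Zb T ρ, W x *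
      ∑ f ∈ (box x (D + 2)).filter (fun f => f ∈ T.faceSet), Pr T.V (Two T f z') := by
    unfold botF
    rw [H12.Ex_sum]
    apply Finset.sum_congr rfl
    intro x _
    rw [H12.Ex_mul, H12.Ex_sum]
    exact congrArg _ (Finset.sum_congr rfl (fun f _ => Ex_tw T f z'))
  rw [e]
  have hq : 0 ≤ C * (2 * ρ / m) ^ c := by positivity
  have h1 : ∀ x ∈ Zb T ρ, ∑ f ∈ (box x (D + 2)).filter (fun f => f ∈ T.faceSet),
      Pr T.V (Two T f z') ≤ 9 * (ρ : ℝ) ^ 2 * (C * (2 * ρ / m) ^ c) := by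
    intro x hx
    calc ∑ f ∈ (box x (D + 2)).filter (fun f => f ∈ T.faceSet), Pr T.V (Two T f z')
        ≤ ∑ _f ∈ (box x (D + 2)).filter (fun f => f ∈ T.faceSet), C * (2 * ρ / m) ^ c := by
          apply Finset.sum_le_sum
          intro f hf
          rw [mem_filter, G45.mem_box] at hf
          refine (hp f hf.2).trans ?_
          apply mul_le_mul_of_nonneg_left _ hC
          apply Real.rpow_le_rpow (by positivity) _ hc.le
          apply div_le_div_of_nonneg_right _ hm.le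
          have h3 : sz T f + 1 ≤ 2 * ρ := by
            have h4 := G45.dF_lip hne f x
            rw [G45.dn_comm f x] at h4
            have h5 := (mem_Zb.1 hx).2
            unfold sz
            omega
          exact_mod_cast h3
      _ ≤ ∑ _f ∈ box x (D + 2), C * (2 * ρ / m) ^ c :=
          Finset.sum_le_sum_of_subset_of_nonneg (Finset.filter_subset _ _)
            (fun _ _ _ => hq)
      _ = (2 * ((D : ℝ) + 2) + 1) ^ 2 * (C * (2 * ρ / m) ^ c) := by
          rw [Finset.sum_const, nsmul_eq_mul, G45.card_box]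
          push_cast
          ring
      _ ≤ (3 * (ρ : ℝ)) ^ 2 * (C * (2 * ρ / m) ^ c) := by
          apply mul_le_mul_of_nonneg_right _ hq
          apply pow_le_pow_left₀ (by positivity)
          have : (D : ℝ) + 2 ≤ ρ := by exact_mod_cast hD
          linarith
      _ = _ := by ring
  calc ∑ x ∈ Zb T ρ, W x *
      ∑ f ∈ (box x (D + 2)).filter (fun f => f ∈ T.faceSet), Pr T.V (Two T f z')
      ≤ ∑ x ∈ Zb T ρ, W x * (9 * (ρ : ℝ) ^ 2 * (C * (2 * ρ / m) ^ c)) :=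
        Finset.sum_le_sum (fun x hx => mul_le_mul_of_nonneg_left (h1 x hx) (hW0 x))
    _ = (∑ x ∈ Zb T ρ, W x) * (9 * (ρ : ℝ) ^ 2 * (C * (2 * ρ / m) ^ c)) := by
        rw [Finset.sum_mul]
    _ ≤ (K2 * (ρ : ℝ) ^ 2) * (9 * (ρ : ℝ) ^ 2 * (C * (2 * ρ / m) ^ c)) :=
        mul_le_mul_of_nonneg_right hz (by positivity)
    _ = _ := by ring

/-- the dyadic zone of a face -/
theorem exists_zone {d r0 R : ℕ} (hr0 : 1 ≤ r0) (hd : 128 * r0 ≤ d) (hR : d ≤ 2 * R + 1) :
    ∃ i ∈ range (nJ R), 128 * (2 ^ i * r0) ≤ d ∧ d ≤ 256 * (2 ^ i * r0) := by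
  set q := d / (128 * r0) with hq
  have hpos : 0 < 128 * r0 := by omega
  have hq1 : 1 ≤ q := (Nat.one_le_div_iff hpos).2 hd
  have h1 : 2 ^ Nat.log 2 q ≤ q := Nat.pow_log_le_self 2 (by omega)
  have h2 : q < 2 ^ (Nat.log 2 q + 1) := Nat.lt_pow_succ_log_self (by norm_num) q
  have h3 : q * (128 * r0) ≤ d := Nat.div_mul_le_self _ _
  have h4 : d < (q + 1) * (128 * r0) := by
    have := Nat.lt_div_mul_add (a := d) hpos
    calc d < d / (128 * r0) * (128 * r0) + 128 * r0 := this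
      _ = (q + 1) * (128 * r0) := by rw [hq]; ring
  refine ⟨Nat.log 2 q, ?_, ?_, ?_⟩
  · rw [mem_range]
    by_contra hcon
    push Not at hcon
    have h5 : 2 ^ nJ R ≤ 2 ^ Nat.log 2 q := Nat.pow_le_pow_right (by norm_num) hcon
    have h6 := nJ_pow R
    have h7 : R + 1 ≤ q := by omega
    have h8 : (R + 1) * 128 ≤ q * (128 * r0) := by nlinarith
    omega
  · calc 128 * (2 ^ Nat.log 2 q * r0) = 2 ^ Nat.log 2 q * (128 * r0) := by ring
      _ ≤ q * (128 * r0) := Nat.mul_le_mul_right _ h1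
      _ ≤ d := h3
  · have h5 : q + 1 ≤ 2 ^ (Nat.log 2 q + 1) := h2
    calc d ≤ (q + 1) * (128 * r0) := h4.le
      _ ≤ 2 ^ (Nat.log 2 q + 1) * (128 * r0) := Nat.mul_le_mul_right _ h5
      _ = 256 * (2 ^ Nat.log 2 q * r0) := by rw [pow_succ]; ring

open Classical in
/-- splitting a sum over a bottom zone and dyadic zones -/
theorem sum_zones {T : Temp} {R r0 r1 : ℕ} (hfit : Fits T R) (hr0 : 1 ≤ r0) {S : Finset Pt}
    {a : Pt → ℝ} (ha : ∀ x, 0 ≤ a x) (hoff : ∀ x, x ∉ T.faceSet → a x = 0)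
    (hS : ∀ x ∈ S, dF T.faceSet x ≤ r1) :
    ∑ x ∈ S, a x ≤ ∑ x ∈ S.filter (fun x => dF T.faceSet x ≤ 2 * (64 * r0)), a x +
      ∑ i ∈ range (nJ R), if 128 * (2 ^ i * r0) ≤ r1 then
        ∑ x ∈ S.filter (fun x => 128 * (2 ^ i * r0) ≤ dF T.faceSet x ∧
          dF T.faceSet x ≤ 256 * (2 ^ i * r0)), a x else 0 := by
  have h1 : ∀ x ∈ S, a x ≤ (if dF T.faceSet x ≤ 2 * (64 * r0) then a x else 0) +
      ∑ i ∈ range (nJ R), if 128 * (2 ^ i * r0) ≤ r1 then
        (if 128 * (2 ^ i * r0) ≤ dF T.faceSet x ∧ dF T.faceSet x ≤ 256 * (2 ^ i * r0)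
          then a x else 0) else 0 := by
    intro x hx
    have hn : ∀ i ∈ range (nJ R), (0 : ℝ) ≤ if 128 * (2 ^ i * r0) ≤ r1 then
        (if 128 * (2 ^ i * r0) ≤ dF T.faceSet x ∧ dF T.faceSet x ≤ 256 * (2 ^ i * r0)
          then a x else 0) else 0 := by
      intro i _
      have := ha x
      split_ifs <;> first | exact this | exact le_rfl
    by_cases hxf : x ∈ T.faceSet
    · rcases le_total (dF T.faceSet x) (2 * (64 * r0)) with h2 | h2
      · rw [if_pos h2]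
        have := Finset.sum_nonneg hn
        linarith
      · obtain ⟨i, hi, h3, h4⟩ := exists_zone hr0 (by omega : 128 * r0 ≤ dF T.faceSet x)
          (BD.dF_le_of_fits hfit hxf)
        have h5 := Finset.single_le_sum hn hi
        rw [if_pos (h3.trans (hS x hx)), if_pos ⟨h3, h4⟩] at h5
        have h6 : (0 : ℝ) ≤ if dF T.faceSet x ≤ 2 * (64 * r0) then a x else 0 := by
          have := ha x
          split_ifs <;> first | exact this | exact le_rfl
        linarith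
    · rw [hoff x hxf]
      have h6 : (0 : ℝ) ≤ if dF T.faceSet x ≤ 2 * (64 * r0) then (0 : ℝ) else 0 := by
        split_ifs <;> exact le_rfl
      have := Finset.sum_nonneg hn
      rw [hoff x hxf] at this
      linarith
  refine (Finset.sum_le_sum h1).trans (le_of_eq ?_)
  rw [Finset.sum_add_distrib, Finset.sum_filter, Finset.sum_comm]
  congr 1
  apply Finset.sum_congr rfl
  intro i _
  split_ifs with h
  · rw [Finset.sum_filter]
  · simp

end Vale.Agent.P155.NT613
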