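import Vale.Agent.P155.QQ.Asm

/-!
# P155, block NT-B4: one loop visits a small box and a big box (lattice form of PAIR)
-/

namespace Vale.Agent.P155.NT613

open Vale.Agent.P155 Finset Skel BD BDK

/-- the distance of two faces is at least the logarithm of the ratio of the sizes -/
theorem dd_ge {T : Temp} {z z' : Pt} (hz : z ∈ T.faceSet) (hz' : z' ∈ T.faceSet) :
    (sz T z' : ℝ) / (32 * ((sz T z : ℝ) + 1)) ≤ Real.exp (10 * dd T z z') := by
  obtain ⟨f, hf⟩ := T211B.rmap_spec T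
  have m1 := BDK.cf_mem hz
  have m2 := BDK.cf_mem hz'
  have b1 := hf.maps' _ m1
  have b2 := hf.maps' _ m2
  have n1 := mem_ball_zero_iff.1 b1
  have n2 := mem_ball_zero_iff.1 b2
  have h2 := (T211B.kog hf b1 b2).2
  rw [hf.right _ m1, hf.right _ m2] at h2
  have h3 : 0 < 4 * HH (rmap T (cf z)) (rmap T (cf z')) := by
    have := one_le_HH n1 n2
    linarith
  have h4 : Real.exp (10 * dd T z z') = (4 * HH (rmap T (cf z)) (rmap T (cf z'))) ^ 10 := by
    unfold dd
    rw [show (10 : ℝ) * Real.log (4 * HH (rmap T (cf z)) (rmap T (cf z'))) =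
      ((10 : ℕ) : ℝ) * Real.log (4 * HH (rmap T (cf z)) (rmap T (cf z'))) by norm_num,
      ← Real.log_pow, Real.exp_log (by positivity)]
  have h5 := sz_le_dU hz'
  have h6 := dU_le_sz (T := T) (x := z)
  rw [h4, div_le_iff₀ (by positivity)]
  calc (sz T z' : ℝ) ≤ dU T (cf z') := h5
    _ ≤ _ := h2
    _ ≤ _ := mul_le_mul_of_nonneg_left h6 (by positivity)

/-- **PAIR, lattice form.** -/
theorem pairP : ∀ a0 : ℝ, 0 < a0 → ∃ c > (0 : ℝ), ∃ C : ℝ, 0 ≤ C ∧ ∀ (R : ℕ) (T : Temp), 1 ≤ R →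
    Fits T R → ∀ z ∈ T.faceSet, ∀ z' ∈ T.faceSet, (R : ℝ) ^ a0 ≤ sz T z' →
    Pr T.V (fun ω => ∃ L ∈ Loops ω, Vis ω L z (sz T z) ∧ Vis ω L z' (sz T z')) ≤
      C * (((sz T z : ℝ) + 1) / sz T z') ^ c := by
  intro a0 ha0
  obtain ⟨a, c, C, ha, haa, hc, hC, hp⟩ := QQ.pair (a0 / 40) (a0 / 2) (by positivity)
    (by positivity)
  have hdd := met_dd T211B.rmex T211B.sp
  -- threshold
  set K0 : ℝ := 128 with hK0
  set R0 : ℝ := K0 ^ (4 / a0) with hR0
  have hR01 : 1 ≤ R0 := Real.one_le_rpow (by norm_num) (by positivity)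
  refine ⟨c / 10, by positivity, C * 32 ^ (c / 10) + R0 ^ (c / 10), by positivity, ?_⟩
  intro R T hR hfit z hz z' hz' hbig
  have hR1 : (1 : ℝ) ≤ R := by exact_mod_cast hR
  have hRp : (0 : ℝ) < R := by linarith
  have hm1 : (1 : ℝ) ≤ sz T z' := (Real.one_le_rpow hR1 ha0.le).trans hbig
  have hm0 : (0 : ℝ) < sz T z' := by linarith
  have hszR : (sz T z' : ℝ) ≤ R := by
    have h1 : sz T z' ≤ R := by
      have := dF_le_of_fits hfit hz'
      unfold sz
      omega
    exact_mod_cast h1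
  set q : ℝ := ((sz T z : ℝ) + 1) / sz T z' with hq
  have hq0 : 0 < q := by positivity
  have hqc : 0 ≤ q ^ (c / 10) := by positivity
  have hfirst : (((R : ℝ) ^ a ≤ sz T z ∧ (R : ℝ) ^ a ≤ sz T z') ∨
      a0 / 40 * Real.log R ≤ dd T z z') →
      Pr T.V (fun ω => ∃ L ∈ Loops ω, Vis ω L z (sz T z) ∧ Vis ω L z' (sz T z')) ≤
      (C * 32 ^ (c / 10) + R0 ^ (c / 10)) * q ^ (c / 10) := by
    intro hcase
    refine (hp R T hR hfit z hz z' hz' hcase).trans ?_
    have h1 := dd_ge hz hz'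
    have h2 : Real.exp (-c * dd T z z') ≤ (32 * q) ^ (c / 10) := by
      have e1 : Real.exp (-c * dd T z z') = (Real.exp (10 * dd T z z')) ^ (-(c / 10)) := by
        rw [← Real.exp_mul]
        congr 1
        ring
      have e2 : (sz T z' : ℝ) / (32 * ((sz T z : ℝ) + 1)) = (32 * q)⁻¹ := by
        rw [hq]
        field_simp
      rw [e2] at h1
      rw [e1]
      calc (Real.exp (10 * dd T z z')) ^ (-(c / 10)) ≤ ((32 * q)⁻¹) ^ (-(c / 10)) :=
            Real.rpow_le_rpow_of_nonpos (by positivity) h1 (by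
              have : 0 ≤ c / 10 := by positivity
              linarith)
        _ = (32 * q) ^ (c / 10) := by
            rw [Real.inv_rpow (by positivity), Real.rpow_neg (by positivity), inv_inv]
    rw [Real.mul_rpow (by norm_num) hq0.le] at h2
    have h3 : 0 ≤ R0 ^ (c / 10) * q ^ (c / 10) := by positivity
    calc C * Real.exp (-c * dd T z z') ≤ C * (32 ^ (c / 10) * q ^ (c / 10)) :=
          mul_le_mul_of_nonneg_left h2 hC
      _ ≤ _ := by
        rw [add_mul]
        linarith [mul_assoc C ((32 : ℝ) ^ (c / 10)) (q ^ (c / 10))]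
  rcases le_or_gt ((R : ℝ) ^ a) (sz T z) with h1 | h1
  · apply hfirst
    left
    refine ⟨h1, ?_⟩
    refine le_trans ?_ hbig
    apply Real.rpow_le_rpow_of_exponent_le hR1
    linarith
  · rcases le_or_gt R0 R with hRbig | hRsmall
    · apply hfirst
      right
      -- dd is large
      have h2 := dd_ge hz hz'
      have h3 : (R : ℝ) ^ (a0 / 4) ≤ (sz T z' : ℝ) / (32 * ((sz T z : ℝ) + 1)) := by
        rw [le_div_iff₀ (by positivity)]
        have e1 : (sz T z : ℝ) + 1 ≤ 2 * (R : ℝ) ^ (a0 / 2) := by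
          have e2 : (R : ℝ) ^ a ≤ (R : ℝ) ^ (a0 / 2) :=
            Real.rpow_le_rpow_of_exponent_le hR1 haa
          have e3 : 1 ≤ (R : ℝ) ^ (a0 / 2) := Real.one_le_rpow hR1 (by positivity)
          linarith
        have e4 : K0 ≤ (R : ℝ) ^ (a0 / 4) := by
          calc K0 = R0 ^ (a0 / 4) := by
                rw [hR0, ← Real.rpow_mul (by norm_num)]
                field_simp
                rw [Real.rpow_one]
            _ ≤ _ := Real.rpow_le_rpow (by positivity) hRbig (by positivity)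
        have e5 : (R : ℝ) ^ (a0 / 4) * (R : ℝ) ^ (a0 / 4) * (R : ℝ) ^ (a0 / 2) =
            (R : ℝ) ^ a0 := by
          rw [← Real.rpow_add hRp, ← Real.rpow_add hRp]
          congr 1
          ring
        have e6 : 0 < (R : ℝ) ^ (a0 / 4) := by positivity
        have e7 : 0 < (R : ℝ) ^ (a0 / 2) := by positivity
        calc (R : ℝ) ^ (a0 / 4) * (32 * ((sz T z : ℝ) + 1))
            ≤ (R : ℝ) ^ (a0 / 4) * (32 * (2 * (R : ℝ) ^ (a0 / 2))) := by gcongr
          _ = 64 * ((R : ℝ) ^ (a0 / 4) * (R : ℝ) ^ (a0 / 2)) := by ring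
          _ ≤ (R : ℝ) ^ (a0 / 4) * ((R : ℝ) ^ (a0 / 4) * (R : ℝ) ^ (a0 / 2)) := by
              apply mul_le_mul_of_nonneg_right _ (by positivity)
              rw [hK0] at e4
              linarith
          _ = (R : ℝ) ^ a0 := by rw [← e5]; ring
          _ ≤ _ := hbig
      have h4 := h3.trans h2
      have h5 : Real.log ((R : ℝ) ^ (a0 / 4)) ≤ 10 * dd T z z' := by
        rw [Real.log_le_iff_le_exp (by positivity)]
        exact h4
      rw [Real.log_rpow hRp] at h5
      linarith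
    · -- small `R`
      refine (E.Pr_le_one _ _).trans ?_
      have h2 : R0⁻¹ ≤ q := by
        rw [hq, le_div_iff₀ hm0, inv_mul_le_iff₀ (by linarith)]
        have h3 : (0 : ℝ) ≤ sz T z := by positivity
        calc (sz T z' : ℝ) ≤ R := hszR
          _ ≤ R0 := hRsmall.le
          _ ≤ R0 * ((sz T z : ℝ) + 1) := by nlinarith
      have h3 : 1 ≤ R0 ^ (c / 10) * q ^ (c / 10) := by
        rw [← Real.mul_rpow (by linarith) hq0.le]
        apply Real.one_le_rpow _ (by positivity)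
        calc (1 : ℝ) = R0 * R0⁻¹ := by rw [mul_inv_cancel₀ (by linarith)]
          _ ≤ R0 * q := mul_le_mul_of_nonneg_left h2 (by linarith)
      have h4 : 0 ≤ C * 32 ^ (c / 10) * q ^ (c / 10) := by positivity
      rw [add_mul]
      linarith

end Vale.Agent.P155.NT613
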