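import Vale.Agent.P155.NT613.NB2
import Vale.Agent.P155.NT613.PairP

/-!
# P155, block NT-B4: the layer function near the polygon at the places visited by a big loop
-/

namespace Vale.Agent.P155.NT613

open Vale.Agent.P155 Finset Skel BD J H12 E4

/-- **Loops visiting a fixed Whitney box.** -/
theorem near_z : ∃ c > (0 : ℝ), ∃ C : ℝ, 0 ≤ C ∧ ∀ (R : ℕ) (T : Temp), 1 ≤ R → Fits T R →
    ∀ z' ∈ T.faceSet, (R : ℝ) ^ (1 / 2 : ℝ) ≤ sz T z' →
    ∀ (p : Pt) (n0 s D r1 : ℕ) (C0 Cc : ℝ), 1 ≤ s → s ≤ D → 8 * s ≤ n0 → r1 ≤ n0 → 0 ≤ C0 →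
    0 ≤ Cc → ∃ F : Conf → ℝ, (∀ ω, 0 ≤ F ω) ∧
      Ex T.V F ≤ C * ((Cc + 1) * C0) * ((D : ℝ) ^ 4 * ((D : ℝ) / sz T z') ^ c +
        (1 + Real.log R) * ((r1 : ℝ) / sz T z') ^ c) ∧
      ∀ ω ∈ DD T.V, ∀ L ∈ Loops ω, Vis ω L z' (sz T z') → ∀ (O : Set Pt) (χ φ u : Pt → ℝ),
        G45.CPr O → O ⊆ T.faceSet → IsCut O s Cc χ → (∀ y, |φ y| ≤ dens C0 p n0 y) →
        IsGreen O φ u → ∀ S : Finset Pt,
        (∀ x ∈ S, dF T.faceSet x ≤ r1 ∧ ∃ v ∈ L, dn x v ≤ D + 1) →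
        ∑ x ∈ S, |fL O φ χ u x| ≤ F ω := by
  classical
  obtain ⟨Kw, hKw0, hKw⟩ := whit_mass
  obtain ⟨Kp, hKp0, hKp⟩ := pt_mass
  obtain ⟨K2, hK20, hK2⟩ := zone_sum
  obtain ⟨c, hc, Cq, hCq, hpair⟩ := pairP (1 / 2) (by norm_num)
  refine ⟨c, hc, Kp * (9 * (K2 + 128) * Cq * (192 ^ 4 * 384 ^ c)) + Kw * (8322 * K2 * Cq),
    by positivity, ?_⟩
  intro R T hR hfit z' hz' hbig p n0 s D r1 C0 Cc hs hsD h8 hrn hC0 hCc
  have hR1 : (1 : ℝ) ≤ R := by exact_mod_cast hR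
  have hlog : 0 ≤ Real.log R := Real.log_nonneg hR1
  set m : ℝ := (sz T z' : ℝ) with hm
  have hm1 : 1 ≤ m := (Real.one_le_rpow hR1 (by norm_num)).trans hbig
  have hm0 : 0 < m := by linarith
  have hfin := A1.faceSet_finite T
  have hCPf : G45.CPr T.faceSet := L.cp_faceSet T
  have hn0 : 1 ≤ n0 := by omega
  have hD1 : (1 : ℝ) ≤ D := by
    have : 1 ≤ D := by omega
    exact_mod_cast this
  obtain ⟨U, hU⟩ := G45.exists_green hfin (dens C0 p n0)
  have hU0 := G45.green_nonneg hfin hU (fun y _ => dens_nonneg hC0 p n0 y)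
  have hd0 : ∀ y, 0 ≤ dens C0 p n0 y := fun y => dens_nonneg hC0 p n0 y
  have hW0 : ∀ x, 0 ≤ U x + dens C0 p n0 x := fun x => add_nonneg (hU0 x) (hd0 x)
  obtain ⟨r0, hr0⟩ : ∃ r0, r0 = D + 2 := ⟨_, rfl⟩
  set Fz : ℕ → Conf → ℝ := fun i ω =>
    if 128 * (2 ^ i * r0) ≤ r1 then zoneF T U z' (2 ^ i * r0) ω else 0 with hFz
  have hFz0 : ∀ i ω, 0 ≤ Fz i ω := by
    intro i ω
    simp only [hFz]
    split_ifs
    · exact zoneF_nonneg hU0 _ _ _
    · exact le_rfl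
  set Fb : Conf → ℝ := botF T (fun x => U x + dens C0 p n0 x) z' (64 * r0) D with hFb
  have hFb0 : ∀ ω, 0 ≤ Fb ω := fun ω => botF_nonneg hW0 _ _ _ _
  have hp' : ∀ z ∈ T.faceSet, Pr T.V (Two T z z') ≤ Cq * (((sz T z : ℝ) + 1) / m) ^ c :=
    fun z hz => hpair R T hR hfit z hz z' hz' hbig
  refine ⟨fun ω => Kp * (Cc + 1) * Fb ω + Kw * (Cc + 1) * ∑ i ∈ range (nJ R), Fz i ω,
    fun ω => ?_, ?_, ?_⟩
  · have h1 := hFb0 ω
    have h2 : 0 ≤ ∑ i ∈ range (nJ R), Fz i ω := Finset.sum_nonneg (fun i _ => hFz0 i ω)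
    positivity
  · rw [H12.Ex_add, H12.Ex_mul, H12.Ex_mul, H12.Ex_sum]
    -- bottom
    have hb : Ex T.V Fb ≤ 9 * ((K2 + 128) * C0) * Cq *
        (((64 * r0 : ℕ) : ℝ) ^ 4 * (2 * ((64 * r0 : ℕ) : ℝ) / m) ^ c) := by
      apply Ex_bot hW0 hc hCq hm0 (by omega) hp'
      rw [Finset.sum_add_distrib]
      have h1 := hK2 T.faceSet p n0 (64 * r0) C0 U hfin hCPf hn0 hC0 hU (by omega)
        (Zb T (64 * r0)) (fun x hx => (mem_Zb.1 hx).2)
      have h2 := dens_mass hC0 p hn0 (Zb T (64 * r0))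
      have h3 : (1 : ℝ) ≤ ((64 * r0 : ℕ) : ℝ) ^ 2 := by
        apply one_le_pow₀
        have : 1 ≤ 64 * r0 := by omega
        exact_mod_cast this
      have h4 : 128 * C0 ≤ 128 * C0 * ((64 * r0 : ℕ) : ℝ) ^ 2 :=
        le_mul_of_one_le_right (by positivity) h3
      linarith [add_mul K2 128 (C0 * ((64 * r0 : ℕ) : ℝ) ^ 2), mul_assoc (K2 + 128) C0
        (((64 * r0 : ℕ) : ℝ) ^ 2), mul_assoc K2 C0 (((64 * r0 : ℕ) : ℝ) ^ 2),
        mul_assoc 128 C0 (((64 * r0 : ℕ) : ℝ) ^ 2)]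
    have hr0D : ((64 * r0 : ℕ) : ℝ) ≤ 192 * D := by
      have : 64 * r0 ≤ 192 * D := by omega
      exact_mod_cast this
    have hb2 : ((64 * r0 : ℕ) : ℝ) ^ 4 * (2 * ((64 * r0 : ℕ) : ℝ) / m) ^ c ≤
        192 ^ 4 * 384 ^ c * ((D : ℝ) ^ 4 * ((D : ℝ) / m) ^ c) := by
      have e1 : ((64 * r0 : ℕ) : ℝ) ^ 4 ≤ (192 * (D : ℝ)) ^ 4 :=
        pow_le_pow_left₀ (by positivity) hr0D 4
      have e2 : (2 * ((64 * r0 : ℕ) : ℝ) / m) ^ c ≤ (384 * ((D : ℝ) / m)) ^ c := by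
        apply Real.rpow_le_rpow (by positivity) _ hc.le
        rw [← mul_div_assoc]
        apply div_le_div_of_nonneg_right _ hm0.le
        linarith
      calc ((64 * r0 : ℕ) : ℝ) ^ 4 * (2 * ((64 * r0 : ℕ) : ℝ) / m) ^ c
          ≤ (192 * (D : ℝ)) ^ 4 * (384 * ((D : ℝ) / m)) ^ c :=
            mul_le_mul e1 e2 (by positivity) (by positivity)
        _ = _ := by
            rw [Real.mul_rpow (by norm_num) (by positivity), mul_pow]
            ring
    -- zones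
    have hzone : ∀ i ∈ range (nJ R), Ex T.V (Fz i) ≤ 4161 * (K2 * C0) * Cq * ((r1 : ℝ) / m) ^ c := by
      intro i _
      have hpw : 1 ≤ 2 ^ i := Nat.one_le_two_pow
      have hri : 1 ≤ 2 ^ i * r0 := Nat.mul_pos hpw (by omega)
      by_cases h : 128 * (2 ^ i * r0) ≤ r1
      · have e : Ex T.V (Fz i) = Ex T.V (zoneF T U z' (2 ^ i * r0)) := by
          apply H12.Ex_congr
          intro ω _
          simp only [hFz]
          rw [if_pos h]
        rw [e]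
        have h1 : Ex T.V (zoneF T U z' (2 ^ i * r0)) ≤
            4161 * (K2 * C0) * Cq * (18 * ((2 ^ i * r0 : ℕ) : ℝ) / m) ^ c := by
          apply Ex_zone hU0 hc hCq hm0 hri hp'
          exact hK2 T.faceSet p n0 (129 * (2 ^ i * r0)) C0 U hfin hCPf hn0 hC0 hU (by omega)
            _ (fun x hx => by
              have := (mem_Zn.1 hx).2.2
              omega)
        refine h1.trans ?_
        apply mul_le_mul_of_nonneg_left _ (by positivity)
        apply Real.rpow_le_rpow (by positivity) _ hc.le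
        apply div_le_div_of_nonneg_right _ hm0.le
        have : 18 * (2 ^ i * r0) ≤ r1 := by omega
        exact_mod_cast this
      · have e : Ex T.V (Fz i) = 0 := by
          have : Ex T.V (Fz i) = Ex T.V (fun _ => (0 : ℝ) * 0) := by
            apply H12.Ex_congr
            intro ω _
            simp only [hFz]
            rw [if_neg h, zero_mul]
          rw [this, H12.Ex_mul, zero_mul]
        rw [e]
        positivity
    have hz2 : ∑ i ∈ range (nJ R), Ex T.V (Fz i) ≤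
        (2 * (1 + Real.log R)) * (4161 * (K2 * C0) * Cq * ((r1 : ℝ) / m) ^ c) := by
      calc ∑ i ∈ range (nJ R), Ex T.V (Fz i)
          ≤ ∑ _i ∈ range (nJ R), 4161 * (K2 * C0) * Cq * ((r1 : ℝ) / m) ^ c :=
            Finset.sum_le_sum hzone
        _ = (nJ R : ℝ) * (4161 * (K2 * C0) * Cq * ((r1 : ℝ) / m) ^ c) := by
            rw [Finset.sum_const, card_range, nsmul_eq_mul]
        _ ≤ _ := mul_le_mul_of_nonneg_right (nJ_le hR) (by positivity)
    have hX : 0 ≤ (D : ℝ) ^ 4 * ((D : ℝ) / m) ^ c := by positivity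
    have hY : 0 ≤ (1 + Real.log R) * ((r1 : ℝ) / m) ^ c := by positivity
    have hb3 := hb.trans (mul_le_mul_of_nonneg_left hb2 (by positivity))
    calc Kp * (Cc + 1) * Ex T.V Fb + Kw * (Cc + 1) * ∑ i ∈ range (nJ R), Ex T.V (Fz i)
        ≤ Kp * (Cc + 1) * (9 * ((K2 + 128) * C0) * Cq *
            (192 ^ 4 * 384 ^ c * ((D : ℝ) ^ 4 * ((D : ℝ) / m) ^ c))) +
          Kw * (Cc + 1) * ((2 * (1 + Real.log R)) *
            (4161 * (K2 * C0) * Cq * ((r1 : ℝ) / m) ^ c)) :=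
          add_le_add (mul_le_mul_of_nonneg_left hb3 (by positivity))
            (mul_le_mul_of_nonneg_left hz2 (by positivity))
      _ = (Kp * (9 * (K2 + 128) * Cq * (192 ^ 4 * 384 ^ c))) * ((Cc + 1) * C0) *
            ((D : ℝ) ^ 4 * ((D : ℝ) / m) ^ c) +
          (Kw * (8322 * K2 * Cq)) * ((Cc + 1) * C0) *
            ((1 + Real.log R) * ((r1 : ℝ) / m) ^ c) := by ring
      _ ≤ _ := by
          have g1 : 0 ≤ (Kp * (9 * (K2 + 128) * Cq * (192 ^ 4 * 384 ^ c))) * ((Cc + 1) * C0) *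
            ((1 + Real.log R) * ((r1 : ℝ) / m) ^ c) := by positivity
          have g2 : 0 ≤ (Kw * (8322 * K2 * Cq)) * ((Cc + 1) * C0) *
            ((D : ℝ) ^ 4 * ((D : ℝ) / m) ^ c) := by positivity
          linarith
  · intro ω hω L hL hv O χ φ u hCP hOP hχ hφ hu S hS
    have hz := T905.fL_zero_off (hfin.subset hOP) hs hχ hu
    have h1 := sum_zones (T := T) (r0 := r0) (r1 := r1) hfit (by omega) (S := S)
      (a := fun x => |fL O φ χ u x|) (fun x => abs_nonneg _) (fun x hx => by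
        show |fL O φ χ u x| = 0
        rw [hz x, abs_zero]
        intro hxO
        rw [Set.Finite.mem_toFinset] at hxO
        exact hx (hOP hxO)) (fun x hx => (hS x hx).1)
    refine h1.trans (add_le_add ?_ ?_)
    · exact bot_le hKp hKp0 hω hL hv hOP hn0 hC0 hU hs h8 hχ hφ hu (fun x hx => by
        rw [mem_filter] at hx
        exact ⟨hx.2, (hS x hx.1).2⟩)
    · rw [Finset.mul_sum]
      apply Finset.sum_le_sum
      intro i _
      have hpw : 1 ≤ 2 ^ i := Nat.one_le_two_pow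
      have hri : r0 ≤ 2 ^ i * r0 := Nat.le_mul_of_pos_left _ hpw
      simp only [hFz]
      split_ifs with h
      · exact zone_le (D := D) hKw0 hKw hω hL hv hCP hOP hn0 hC0 hU hs h8 hχ hφ hu (by omega) (by omega)
          (by omega) (fun x hx => by
            rw [mem_filter] at hx
            exact ⟨hx.2.1, hx.2.2, (hS x hx.1).2⟩)
      · rw [mul_zero]

end Vale.Agent.P155.NT613
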