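import Vale.Agent.P155.NT613.Bds

/-!
# P155, block NT-B4: numerical part
-/

namespace Vale.Agent.P155.NT613

open Vale.Agent.P155 Finset Skel BD J H12 E4

theorem log_sq {a : ℝ} (ha : 0 < a) : ∃ C : ℝ, 0 ≤ C ∧ ∀ R : ℕ, 1 ≤ R →
    Real.log (R + 2) ^ 2 ≤ C * (R : ℝ) ^ a := by
  refine ⟨(2 / a) ^ 2 * 3 ^ a, by positivity, ?_⟩
  intro R hR
  have hR1 : (1 : ℝ) ≤ R := by exact_mod_cast hR
  have h0 : 0 ≤ Real.log (R + 2) := Real.log_nonneg (by linarith)
  have h1 : Real.log ((R : ℝ) + 2) ≤ (3 * (R : ℝ)) ^ (a / 2) / (a / 2) := by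
    refine (Real.log_le_rpow_div (by linarith) (by positivity : 0 < a / 2)).trans ?_
    apply div_le_div_of_nonneg_right _ (by positivity)
    apply Real.rpow_le_rpow (by positivity) _ (by positivity)
    linarith
  calc Real.log (R + 2) ^ 2 ≤ ((3 * (R : ℝ)) ^ (a / 2) / (a / 2)) ^ 2 :=
        pow_le_pow_left₀ h0 h1 2
    _ = (2 / a) ^ 2 * ((3 * (R : ℝ)) ^ (a / 2)) ^ 2 := by
        field_simp
    _ = (2 / a) ^ 2 * (3 * (R : ℝ)) ^ a := by
        rw [← Real.rpow_natCast ((3 * (R : ℝ)) ^ (a / 2)) 2, ← Real.rpow_mul (by positivity)]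
        congr 2
        push_cast
        ring
    _ = _ := by rw [Real.mul_rpow (by norm_num) (by positivity)]; ring

theorem rpow_add' {R : ℝ} (hR : 1 ≤ R) (x y : ℝ) : R ^ x * R ^ y = R ^ (x + y) :=
  (Real.rpow_add (by linarith) x y).symm

/-- the second moment in a zone: the numbers -/
theorem zone_num {R Ca c a Clog M b r lg K1 : ℝ} (hR : 1 ≤ R) (hCa : 0 ≤ Ca)
    (hM : 0 ≤ M) (hr : 0 < r) (hlg : lg ≤ Clog * R ^ a) (hClog : 0 ≤ Clog)
    (hK1 : 0 ≤ K1) (hb : b = K1 * R ^ (-(42 * a))) {E : ℝ}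
    (hE : E ≤ Ca * (M ^ 2 * R ^ (-(c * a)) +
      M * (19 * b / r ^ 2) * (265 * r) ^ 2 * R ^ (20 * a) * lg)) :
    E ≤ Ca * (M ^ 2 + M * (1334275 * K1) * Clog) * R ^ (-(min (c * a) (21 * a))) := by
  have hR0 : 0 < R := by linarith
  refine hE.trans ?_
  rw [mul_assoc Ca (M ^ 2 + M * (1334275 * K1) * Clog)]
  apply mul_le_mul_of_nonneg_left _ hCa
  rw [add_mul]
  apply add_le_add
  · apply mul_le_mul_of_nonneg_left _ (by positivity)
    apply Real.rpow_le_rpow_of_exponent_le hR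
    have := min_le_left (c * a) (21 * a)
    linarith
  · have e1 : M * (19 * b / r ^ 2) * (265 * r) ^ 2 * R ^ (20 * a) * lg =
        M * (1334275 * K1) * (R ^ (-(42 * a)) * R ^ (20 * a)) * lg := by
      rw [hb]
      field_simp
      ring
    rw [e1]
    calc M * (1334275 * K1) * (R ^ (-(42 * a)) * R ^ (20 * a)) * lg
        ≤ M * (1334275 * K1) * (R ^ (-(42 * a)) * R ^ (20 * a)) * (Clog * R ^ a) :=
          mul_le_mul_of_nonneg_left hlg (by positivity)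
      _ = M * (1334275 * K1) * Clog * (R ^ (-(42 * a)) * R ^ (20 * a) * R ^ a) := by ring
      _ = M * (1334275 * K1) * Clog * R ^ (-(21 * a)) := by
          rw [rpow_add' hR, rpow_add' hR]
          congr 2
          ring
      _ ≤ _ := by
          apply mul_le_mul_of_nonneg_left _ (by positivity)
          apply Real.rpow_le_rpow_of_exponent_le hR
          have := min_le_right (c * a) (21 * a)
          linarith

/-- the second moment in the bottom zone: the numbers -/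
theorem bot_num {R Ca c a Clog K b ρ lg B1 ab γ e0 : ℝ} (hR : 1 ≤ R) (hCa : 0 ≤ Ca)
    (hK : 0 ≤ K) (hρ0 : 0 ≤ ρ) (hlg : lg ≤ Clog * R ^ a) (hClog : 0 ≤ Clog)
    (hγ : 0 < γ) (hγ1 : γ ≤ 1) (he1 : e0 ≤ 1)
    (hae : 42 * a = e0 * γ) (hab0 : 0 < ab) (hab1 : ab ≤ c * a / 16) (hab2 : ab ≤ γ / 72)
    (hρ : ρ ≤ 320 * R ^ ab) (hB1 : 0 ≤ B1) (hb : b = B1 * R ^ ((ab - 1) * γ)) {E : ℝ}
    (hE : E ≤ Ca * ((9 * K * ρ ^ 4) ^ 2 * R ^ (-(c * a)) +
      (9 * K * ρ ^ 4) * (9 * b * ρ ^ 2) * (3 * ρ) ^ 2 * R ^ (20 * a) * lg)) :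
    E ≤ Ca * (81 * K ^ 2 * 320 ^ 8 + 729 * K * B1 * 320 ^ 8 * Clog) *
      R ^ (-(min (c * a / 2) (γ / 4))) := by
  have hR0 : 0 < R := by linarith
  refine hE.trans ?_
  rw [mul_assoc Ca (81 * K ^ 2 * 320 ^ 8 + 729 * K * B1 * 320 ^ 8 * Clog)]
  apply mul_le_mul_of_nonneg_left _ hCa
  have h8 : ρ ^ 8 ≤ 320 ^ 8 * R ^ (8 * ab) := by
    calc ρ ^ 8 ≤ (320 * R ^ ab) ^ 8 := pow_le_pow_left₀ hρ0 hρ 8
      _ = 320 ^ 8 * (R ^ ab) ^ 8 := by rw [mul_pow]
      _ = _ := by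
          rw [← Real.rpow_natCast (R ^ ab) 8, ← Real.rpow_mul hR0.le]
          congr 2
          push_cast
          ring
  rw [add_mul]
  apply add_le_add
  · calc (9 * K * ρ ^ 4) ^ 2 * R ^ (-(c * a)) = 81 * K ^ 2 * R ^ (-(c * a)) * ρ ^ 8 := by ring
      _ ≤ 81 * K ^ 2 * R ^ (-(c * a)) * (320 ^ 8 * R ^ (8 * ab)) :=
          mul_le_mul_of_nonneg_left h8 (by positivity)
      _ = 81 * K ^ 2 * 320 ^ 8 * (R ^ (-(c * a)) * R ^ (8 * ab)) := by ring
      _ ≤ _ := by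
          apply mul_le_mul_of_nonneg_left _ (by positivity)
          rw [rpow_add' hR]
          apply Real.rpow_le_rpow_of_exponent_le hR
          have := min_le_left (c * a / 2) (γ / 4)
          linarith
  · calc (9 * K * ρ ^ 4) * (9 * b * ρ ^ 2) * (3 * ρ) ^ 2 * R ^ (20 * a) * lg
        = 729 * K * b * R ^ (20 * a) * ρ ^ 8 * lg := by ring
      _ ≤ 729 * K * b * R ^ (20 * a) * ρ ^ 8 * (Clog * R ^ a) := by
          apply mul_le_mul_of_nonneg_left hlg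
          rw [hb]
          positivity
      _ ≤ 729 * K * b * R ^ (20 * a) * (320 ^ 8 * R ^ (8 * ab)) * (Clog * R ^ a) := by
          apply mul_le_mul_of_nonneg_right _ (by positivity)
          apply mul_le_mul_of_nonneg_left h8
          rw [hb]
          positivity
      _ = 729 * K * B1 * 320 ^ 8 * Clog *
            (R ^ ((ab - 1) * γ) * R ^ (20 * a) * R ^ (8 * ab) * R ^ a) := by
          rw [hb]
          ring
      _ ≤ _ := by
          apply mul_le_mul_of_nonneg_left _ (by positivity)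
          rw [rpow_add' hR, rpow_add' hR, rpow_add' hR]
          apply Real.rpow_le_rpow_of_exponent_le hR
          have h1 := min_le_right (c * a / 2) (γ / 4)
          have h2 : e0 * γ ≤ γ := by nlinarith
          have h3 : ab * γ ≤ ab := by nlinarith
          nlinarith

/-- Cauchy–Schwarz with `λ = R^{-c/2}` -/
theorem lam_num {R c C : ℝ} (hR : 1 ≤ R) (hC : 0 ≤ C) {E : ℝ} (hE : E ≤ C * R ^ (-c)) :
    R ^ (-(c / 2)) / 2 + (2 * R ^ (-(c / 2)))⁻¹ * E ≤ (1 + C) * R ^ (-(c / 2)) := by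
  have hR0 : 0 < R := by linarith
  have hl : 0 < R ^ (-(c / 2)) := Real.rpow_pos_of_pos hR0 _
  have e : R ^ (-c) = R ^ (-(c / 2)) * R ^ (-(c / 2)) := by
    rw [rpow_add' hR]
    congr 1
    ring
  rw [e] at hE
  have h1 : (2 * R ^ (-(c / 2)))⁻¹ * E ≤
      (2 * R ^ (-(c / 2)))⁻¹ * (C * (R ^ (-(c / 2)) * R ^ (-(c / 2)))) :=
    mul_le_mul_of_nonneg_left hE (by positivity)
  have h2 : (2 * R ^ (-(c / 2)))⁻¹ * (C * (R ^ (-(c / 2)) * R ^ (-(c / 2)))) =
      C / 2 * R ^ (-(c / 2)) := by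
    field_simp
  nlinarith

end Vale.Agent.P155.NT613
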