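import Vale.Agent.P155.NT613.Def2
import Vale.Agent.P155.NT613.PairP
import Vale.Agent.P155.H550.Cov
import Vale.Agent.P155.K.Final

/-!
# P155, block NT-B4: second moment of positive masses near the polygon (`SecP`)
-/

namespace Vale.Agent.P155.NT613

open Vale.Agent.P155 Finset Skel BD BDK

/-- the sum of the squares as a double sum -/
theorem SQ_eq {V : Finset Pt} {ω : Conf} (hω : ω ∈ DD V) (S : Finset Pt) (D : Pt → ℝ) :
    SQ S D ω = ∑ x ∈ S, ∑ y ∈ S, D x * D y * (both ω x y : ℝ) := by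
  classical
  have hfin := L.loops_finite hω
  have hc : ∀ x y, (both ω x y : ℝ) =
      ∑ A ∈ hfin.toFinset, (if surr ω A x then (1 : ℝ) else 0) *
        (if surr ω A y then (1 : ℝ) else 0) := by
    intro x y
    have e : ∀ A, (if surr ω A x then (1 : ℝ) else 0) * (if surr ω A y then (1 : ℝ) else 0) =
        if surr ω A x ∧ surr ω A y then (1 : ℝ) else 0 := by
      intro A
      by_cases hx : surr ω A x <;> by_cases hy : surr ω A y <;> simp [hx, hy]
    simp_rw [e]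
    rw [← sum_filter, sum_const, nsmul_eq_mul, mul_one]
    congr 1
    unfold both
    rw [← Set.ncard_coe_finset]
    congr 1
    ext A
    simp
  unfold SQ
  rw [dif_pos hfin]
  have e2 : ∀ x ∈ S, ∀ y ∈ S, D x * D y * (both ω x y : ℝ) =
      ∑ A ∈ hfin.toFinset, (D x * (if surr ω A x then (1 : ℝ) else 0)) *
        (D y * (if surr ω A y then (1 : ℝ) else 0)) := by
    intro x _ y _
    rw [hc, mul_sum]
    refine sum_congr rfl fun A _ => ?_
    ring
  rw [sum_congr rfl fun x hx => sum_congr rfl fun y hy => e2 x hx y hy,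
    sum_congr rfl (fun x _ => sum_comm), sum_comm]
  refine sum_congr rfl fun A _ => ?_
  unfold mD
  rw [sq, sum_mul_sum]

theorem both_le_self {V : Finset Pt} {ω : Conf} (hω : ω ∈ DD V) (x y : Pt) :
    (both ω x y : ℝ) ≤ both ω x x := by
  have hfin := L.loops_finite hω
  have h : both ω x y ≤ both ω x x := by
    unfold both
    apply Set.ncard_le_ncard
    · rintro A ⟨h1, h2, -⟩
      exact ⟨h1, h2, h2⟩
    · exact hfin.subset fun A hA => hA.1
  exact_mod_cast h

/-- the number of loops around a face -/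
theorem both_moment : ∃ C : ℝ, 0 ≤ C ∧ ∀ (R : ℕ) (T : Temp), Fits T R → ∀ x y : Pt,
    Ex T.V (fun ω => (both ω x y : ℝ)) ≤ C * Real.log (R + 2) ^ 2 := by
  obtain ⟨c, hc, C, hC⟩ := K.c_height'
  refine ⟨|C| * 2 * (c⁻¹) ^ 2, by positivity, ?_⟩
  intro R T hR x y
  have hlog : 0 < Real.log ((R : ℝ) + 2) := Real.log_pos (by
    have : (0 : ℝ) ≤ R := Nat.cast_nonneg R
    linarith)
  have h1 := hC R T hR x
  set l := Real.log ((R : ℝ) + 2) with hl
  have h0 : Ex T.V (fun ω => (both ω x y : ℝ)) ≤ Ex T.V (fun ω => (h ω x : ℝ) * (h ω x : ℝ)) := by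
    rw [HT.Ex_hh]
    rw [J.Ex_eq_avg, J.Ex_eq_avg]
    exact J.avg_mono fun ω hω => both_le_self hω x y
  have h2 : ∀ ω : Conf, (h ω x : ℝ) * (h ω x : ℝ) ≤
      (2 * (c⁻¹) ^ 2 * l ^ 2) * Real.cosh (c / l * (h ω x : ℝ)) := by
    intro ω
    have h3 := H12.one_add_sq_le_cosh (c / l * (h ω x : ℝ))
    have h5 : (h ω x : ℝ) * (h ω x : ℝ) =
        (2 * (c⁻¹) ^ 2 * l ^ 2) * ((c / l * (h ω x : ℝ)) ^ 2 / 2) := by
      field_simp
    rw [h5]
    apply mul_le_mul_of_nonneg_left _ (by positivity)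
    linarith
  calc Ex T.V (fun ω => (both ω x y : ℝ)) ≤ _ := h0
    _ ≤ Ex T.V (fun ω => (2 * (c⁻¹) ^ 2 * l ^ 2) * Real.cosh (c / l * (h ω x : ℝ))) :=
        by rw [J.Ex_eq_avg, J.Ex_eq_avg]; exact J.avg_mono (fun ω _ => h2 ω)
    _ = (2 * (c⁻¹) ^ 2 * l ^ 2) * Ex T.V (fun ω => Real.cosh (c / l * (h ω x : ℝ))) :=
        J.avg_mul_left _ _ _
    _ ≤ (2 * (c⁻¹) ^ 2 * l ^ 2) * |C| :=
        mul_le_mul_of_nonneg_left (h1.trans (le_abs_self C)) (by positivity)
    _ = _ := by ring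

/-- faces at small distance `dd` are close to each other -/
theorem dn_of_dd {T : Temp} {x y : Pt} (hx : x ∈ T.faceSet) (hy : y ∈ T.faceSet) :
    (dn x y : ℝ) ≤ Real.exp (10 * dd T x y) * (2 * dF T.faceSet x) := by
  obtain ⟨f, hf⟩ := T211B.rmap_spec T
  have m1 := BDK.cf_mem hx
  have m2 := BDK.cf_mem hy
  have b1 := hf.maps' _ m1
  have b2 := hf.maps' _ m2
  have n1 := mem_ball_zero_iff.1 b1
  have n2 := mem_ball_zero_iff.1 b2
  have h2 := (T211B.kog hf b1 b2).1
  rw [hf.right _ m1, hf.right _ m2] at h2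
  have h3 : 0 < 4 * HH (rmap T (cf x)) (rmap T (cf y)) := by
    have := one_le_HH n1 n2
    linarith
  have h4 : Real.exp (10 * dd T x y) = (4 * HH (rmap T (cf x)) (rmap T (cf y))) ^ 10 := by
    unfold dd
    rw [show (10 : ℝ) * Real.log (4 * HH (rmap T (cf x)) (rmap T (cf y))) =
      ((10 : ℕ) : ℝ) * Real.log (4 * HH (rmap T (cf x)) (rmap T (cf y))) by norm_num,
      ← Real.log_pow, Real.exp_log (by positivity)]
  rw [← h4] at h2
  have h5 : (dn x y : ℝ) ≤ ‖cf x - cf y‖ := by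
    have e1 := Complex.abs_re_le_norm (cf x - cf y)
    have e2 := Complex.abs_im_le_norm (cf x - cf y)
    rw [Complex.sub_re, BDK.cf_re, BDK.cf_re] at e1
    rw [Complex.sub_im, BDK.cf_im, BDK.cf_im] at e2
    rw [show ((x.1 : ℝ) + 1 / 2 - (y.1 + 1 / 2)) = ((x.1 - y.1 : ℤ) : ℝ) by push_cast; ring] at e1
    rw [show ((x.2 : ℝ) + 1 / 2 - (y.2 + 1 / 2)) = ((x.2 - y.2 : ℤ) : ℝ) by push_cast; ring] at e2
    set N := ⌊‖cf x - cf y‖⌋₊ with hN
    have hN1 : |x.1 - y.1| ≤ (N : ℤ) := by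
      have : |x.1 - y.1|.toNat ≤ N := by
        apply Nat.le_floor
        have h6 : ((|x.1 - y.1|.toNat : ℕ) : ℝ) = |((x.1 - y.1 : ℤ) : ℝ)| := by
          rw [← Int.cast_abs, ← Int.cast_natCast, Int.toNat_of_nonneg (abs_nonneg _)]
        rw [h6]
        exact e1
      have h7 := Int.self_le_toNat |x.1 - y.1|
      omega
    have hN2 : |x.2 - y.2| ≤ (N : ℤ) := by
      have : |x.2 - y.2|.toNat ≤ N := by
        apply Nat.le_floor
        have h6 : ((|x.2 - y.2|.toNat : ℕ) : ℝ) = |((x.2 - y.2 : ℤ) : ℝ)| := by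
          rw [← Int.cast_abs, ← Int.cast_natCast, Int.toNat_of_nonneg (abs_nonneg _)]
        rw [h6]
        exact e2
      have h7 := Int.self_le_toNat |x.2 - y.2|
      omega
    have h8 : dn x y ≤ N := (H904.dn_le_iff).2 ⟨hN1, hN2⟩
    calc (dn x y : ℝ) ≤ N := by exact_mod_cast h8
      _ ≤ _ := Nat.floor_le (norm_nonneg _)
  refine h5.trans (h2.trans ?_)
  exact mul_le_mul_of_nonneg_left BDK.dU_le (Real.exp_pos _).le

/-- number of faces at small distance `dd` from a face close to the polygon -/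
theorem near_card {T : Temp} {R : ℕ} (hR : 1 ≤ R) {S : Finset Pt} (hS : ∀ x ∈ S, x ∈ T.faceSet)
    {w a : ℝ} {x : Pt} (hx : x ∈ T.faceSet) (hw : (dF T.faceSet x : ℝ) ≤ w) (ha : 0 < a) :
    (((S.filter (fun y => dd T x y < a * Real.log R)).card : ℕ) : ℝ) ≤
      25 * w ^ 2 * (R : ℝ) ^ (20 * a) := by
  classical
  have hR1 : (1 : ℝ) ≤ R := by exact_mod_cast hR
  have hR0 : (0 : ℝ) < R := by linarith
  have hd1 : 1 ≤ dF T.faceSet x := BDK.dF_pos' hx
  have hw1 : (1 : ℝ) ≤ w := by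
    have : (1 : ℝ) ≤ dF T.faceSet x := by exact_mod_cast hd1
    linarith
  set ρ : ℝ := (R : ℝ) ^ (10 * a) * (2 * w) with hρ
  have hp : (1 : ℝ) ≤ (R : ℝ) ^ (10 * a) := Real.one_le_rpow hR1 (by positivity)
  have hsub : S.filter (fun y => dd T x y < a * Real.log R) ⊆ box x ⌊ρ⌋₊ := by
    intro y hy
    rw [mem_filter] at hy
    rw [BD.mem_box_dn]
    apply Nat.le_floor
    refine (dn_of_dd hx (hS y hy.1)).trans ?_
    have h1 : Real.exp (10 * dd T x y) ≤ (R : ℝ) ^ (10 * a) := by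
      rw [Real.rpow_def_of_pos hR0]
      apply Real.exp_le_exp.2
      nlinarith [hy.2]
    rw [hρ]
    exact mul_le_mul h1 (by linarith) (by positivity) (by positivity)
  have h2 : ((⌊ρ⌋₊ : ℕ) : ℝ) ≤ ρ := Nat.floor_le (by positivity)
  have h3 : (1 : ℝ) ≤ (R : ℝ) ^ (10 * a) * w := by nlinarith
  calc (((S.filter (fun y => dd T x y < a * Real.log R)).card : ℕ) : ℝ)
      ≤ ((box x ⌊ρ⌋₊).card : ℝ) := by exact_mod_cast card_le_card hsub
    _ = (2 * (⌊ρ⌋₊ : ℝ) + 1) ^ 2 := card_box _ _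
    _ ≤ (2 * ρ + 1) ^ 2 := by gcongr
    _ ≤ (5 * ((R : ℝ) ^ (10 * a) * w)) ^ 2 := by
        apply pow_le_pow_left₀ (by positivity)
        rw [hρ]
        linarith
    _ = 25 * w ^ 2 * ((R : ℝ) ^ (10 * a) * (R : ℝ) ^ (10 * a)) := by ring
    _ = 25 * w ^ 2 * (R : ℝ) ^ (20 * a) := by
        rw [← Real.rpow_add hR0]
        ring_nf

/-- **SecP** -/
theorem secP : SecP := by
  classical
  obtain ⟨c, C, C1, hc, hC, hcov⟩ := H550.cov
  obtain ⟨C2, hC2, hmom⟩ := both_moment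
  refine ⟨c, hc, fun a ha => ?_⟩
  set R1 : ℝ := max 1 (Real.exp (C1 / a)) with hR1
  have hR11 : 1 ≤ R1 := le_max_left _ _
  refine ⟨C + C2 * Real.log (R1 + 2) ^ 2 * R1 ^ (c * a) + 25 * C2, by positivity, ?_⟩
  intro R T hR hfit S D B M w hB0 hS hw hD0 hDB hM
  have hRr : (1 : ℝ) ≤ R := by exact_mod_cast hR
  have hR0 : (0 : ℝ) < R := by linarith
  have hlR := Real.log_nonneg hRr
  -- far pairs
  have hfar : ∀ x ∈ S, ∀ y ∈ S, a * Real.log R ≤ dd T x y →
      Ex T.V (fun ω => (both ω x y : ℝ)) ≤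
        (C + C2 * Real.log (R1 + 2) ^ 2 * R1 ^ (c * a)) * (R : ℝ) ^ (-(c * a)) := by
    intro x hx y hy hxy
    have hp : 0 < (R : ℝ) ^ (-(c * a)) := by positivity
    rcases le_or_gt C1 (dd T x y) with h1 | h1
    · refine (hcov T x (hS x hx) y (hS y hy) h1).trans ?_
      have h2 : Real.exp (-c * dd T x y) ≤ (R : ℝ) ^ (-(c * a)) := by
        rw [Real.rpow_def_of_pos hR0]
        apply Real.exp_le_exp.2
        nlinarith
      have h3 : 0 ≤ C2 * Real.log (R1 + 2) ^ 2 * R1 ^ (c * a) * (R : ℝ) ^ (-(c * a)) := by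
        positivity
      nlinarith [mul_le_mul_of_nonneg_left h2 hC]
    · refine (hmom R T hfit x y).trans ?_
      have h2 : (R : ℝ) ≤ R1 := by
        refine le_trans ?_ (le_max_right _ _)
        rw [← Real.log_le_iff_le_exp hR0, le_div_iff₀ ha]
        linarith
      have h3 : (1 : ℝ) ≤ R1 ^ (c * a) * (R : ℝ) ^ (-(c * a)) := by
        rw [Real.rpow_neg hR0.le, ← div_eq_mul_inv, le_div_iff₀ (by positivity), one_mul]
        exact Real.rpow_le_rpow hR0.le h2 (by positivity)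
      have h4 : Real.log ((R : ℝ) + 2) ^ 2 ≤ Real.log (R1 + 2) ^ 2 := by
        apply pow_le_pow_left₀ (Real.log_nonneg (by linarith))
        exact Real.log_le_log (by linarith) (by linarith)
      have h5 : 0 ≤ C * (R : ℝ) ^ (-(c * a)) := by positivity
      have h6 : 0 ≤ C2 * Real.log (R1 + 2) ^ 2 := by positivity
      calc C2 * Real.log ((R : ℝ) + 2) ^ 2 ≤ C2 * Real.log (R1 + 2) ^ 2 :=
            mul_le_mul_of_nonneg_left h4 hC2
        _ ≤ C2 * Real.log (R1 + 2) ^ 2 * (R1 ^ (c * a) * (R : ℝ) ^ (-(c * a))) :=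
            le_mul_of_one_le_right h6 h3
        _ ≤ _ := by rw [add_mul]; nlinarith
  have hE : Ex T.V (SQ S D) = ∑ x ∈ S, ∑ y ∈ S, D x * D y * Ex T.V (fun ω => (both ω x y : ℝ)) := by
    have e1 : Ex T.V (SQ S D) =
        Ex T.V (fun ω => ∑ x ∈ S, ∑ y ∈ S, D x * D y * (both ω x y : ℝ)) := by
      rw [J.Ex_eq_avg, J.Ex_eq_avg]
      exact J.avg_congr fun ω hω => SQ_eq hω S D
    rw [e1, H12.Ex_sum]
    refine sum_congr rfl fun x _ => ?_
    rw [H12.Ex_sum]
    refine sum_congr rfl fun y _ => ?_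
    exact J.avg_mul_left _ _ _
  rw [hE]
  set K1 : ℝ := C + C2 * Real.log (R1 + 2) ^ 2 * R1 ^ (c * a) with hK1
  have hK10 : 0 ≤ K1 := by positivity
  set l2 := Real.log ((R : ℝ) + 2) ^ 2 with hl2
  have hl20 : 0 ≤ l2 := by positivity
  have hterm : ∀ x ∈ S, ∑ y ∈ S, D x * D y * Ex T.V (fun ω => (both ω x y : ℝ)) ≤
      D x * (K1 * (R : ℝ) ^ (-(c * a)) * ∑ y ∈ S, D y) +
        D x * (B * (C2 * l2) * (25 * w ^ 2 * (R : ℝ) ^ (20 * a))) := by
    intro x hx
    have hDx := hD0 x hx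
    rw [← sum_filter_add_sum_filter_not S (fun y => dd T x y < a * Real.log R), add_comm]
    apply add_le_add
    · rw [mul_sum, mul_sum]
      calc ∑ y ∈ S with ¬ dd T x y < a * Real.log R,
            D x * D y * Ex T.V (fun ω => (both ω x y : ℝ))
          ≤ ∑ y ∈ S with ¬ dd T x y < a * Real.log R,
              D x * (K1 * (R : ℝ) ^ (-(c * a)) * D y) := by
            apply sum_le_sum
            intro y hy
            rw [mem_filter, not_lt] at hy
            have h1 := hfar x hx y hy.1 hy.2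
            have h2 := hD0 y hy.1
            calc D x * D y * Ex T.V (fun ω => (both ω x y : ℝ))
                ≤ D x * D y * (K1 * (R : ℝ) ^ (-(c * a))) :=
                  mul_le_mul_of_nonneg_left h1 (by positivity)
              _ = _ := by ring
        _ ≤ _ := by
            apply sum_le_sum_of_subset_of_nonneg (filter_subset _ _)
            intro y hy _
            have h2 := hD0 y hy
            positivity
    · calc ∑ y ∈ S with dd T x y < a * Real.log R,
            D x * D y * Ex T.V (fun ω => (both ω x y : ℝ))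
          ≤ ∑ y ∈ S with dd T x y < a * Real.log R, D x * (B * (C2 * l2)) := by
            apply sum_le_sum
            intro y hy
            rw [mem_filter] at hy
            have h1 := hmom R T hfit x y
            have h2 := hD0 y hy.1
            have h3 := hDB y hy.1
            rw [mul_assoc]
            apply mul_le_mul_of_nonneg_left _ hDx
            have h4 : 0 ≤ Ex T.V (fun ω => (both ω x y : ℝ)) := by
              rw [J.Ex_eq_avg]
              exact J.avg_nonneg fun ω _ => by positivity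
            exact mul_le_mul h3 h1 h4 hB0
        _ = D x * (B * (C2 * l2) *
            (((S.filter (fun y => dd T x y < a * Real.log R)).card : ℕ) : ℝ)) := by
            rw [sum_const, nsmul_eq_mul]
            ring
        _ ≤ _ := by
            apply mul_le_mul_of_nonneg_left _ hDx
            apply mul_le_mul_of_nonneg_left _ (by positivity)
            exact near_card hR hS (hS x hx) (hw x hx) ha
  have hS0 : 0 ≤ ∑ x ∈ S, D x := sum_nonneg hD0
  have hM0 : 0 ≤ M := hS0.trans hM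
  refine (sum_le_sum hterm).trans ?_
  rw [sum_add_distrib, ← sum_mul, ← sum_mul]
  have hRp : 0 ≤ (R : ℝ) ^ (-(c * a)) := by positivity
  have h20 : 0 ≤ w ^ 2 * (R : ℝ) ^ (20 * a) := by positivity
  have i1 : (∑ x ∈ S, D x) * (K1 * (R : ℝ) ^ (-(c * a)) * ∑ x ∈ S, D x) ≤
      K1 * (M ^ 2 * (R : ℝ) ^ (-(c * a))) := by
    have : (∑ x ∈ S, D x) * (∑ x ∈ S, D x) ≤ M * M := mul_le_mul hM hM hS0 hM0
    calc (∑ x ∈ S, D x) * (K1 * (R : ℝ) ^ (-(c * a)) * ∑ x ∈ S, D x) =
        K1 * (R : ℝ) ^ (-(c * a)) * ((∑ x ∈ S, D x) * (∑ x ∈ S, D x)) := by ring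
      _ ≤ K1 * (R : ℝ) ^ (-(c * a)) * (M * M) := mul_le_mul_of_nonneg_left this (by positivity)
      _ = _ := by ring
  have i2 : (∑ x ∈ S, D x) * (B * (C2 * l2) * (25 * w ^ 2 * (R : ℝ) ^ (20 * a))) ≤
      25 * C2 * (M * B * w ^ 2 * (R : ℝ) ^ (20 * a) * l2) := by
    calc (∑ x ∈ S, D x) * (B * (C2 * l2) * (25 * w ^ 2 * (R : ℝ) ^ (20 * a)))
        ≤ M * (B * (C2 * l2) * (25 * w ^ 2 * (R : ℝ) ^ (20 * a))) :=
          mul_le_mul_of_nonneg_right hM (by positivity)
      _ = _ := by ring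
  have j1 : 0 ≤ M ^ 2 * (R : ℝ) ^ (-(c * a)) := by positivity
  have j2 : 0 ≤ M * B * w ^ 2 * (R : ℝ) ^ (20 * a) * l2 := by positivity
  nlinarith [i1, i2, mul_nonneg hK10 j2, mul_nonneg (mul_nonneg (by norm_num : (0 : ℝ) ≤ 25) hC2) j1]

end Vale.Agent.P155.NT613
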