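import Vale.Agent.P155.NT613.UnxC

/-!
# P155, NT, visit bound (4): the strip of the line, linear in the bump
-/

namespace Vale.Agent.P155.NT613

open Vale.Agent.P155 Finset SW HT T905 T802 T862 G45 J H904 H12 NT E4 S862 NT905 NT743 S743

/-- the potential is monotone in the domain -/
theorem pot_mono_dom {O1 O2 : Set Pt} (h1 : O1.Finite) (h2 : O2.Finite) (hsub : O2 ⊆ O1)
    {φ : Pt → ℝ} (hφ : ∀ y, 0 ≤ φ y) (y : Pt) : pot O2 φ y ≤ pot O1 φ y := by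
  have g1 := pot_spec h1 φ
  have g2 := pot_spec h2 φ
  have n1 := green_nonneg h1 g1 (fun y _ => hφ y)
  exact green_le_super h2 g2 (fun x hx => by rw [← g1.eq x (hsub hx)]) (fun x _ => n1 x) y

open Classical in
/-- **the far part and the strip of the line, linear in `φ`**: `τ` is a stopping time with
explored set at least that of the (possibly earlier) domain `O ⊇ OE τ` -/
theorem far_stop : ∃ C : ℝ, 0 < C ∧ ∀ (T : Temp) (xS : ℤ) (τ : Stop T.V xS), ∀ ω ∈ DD T.V,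
    ∀ (O : Set Pt), O.Finite → OE T (τ.E ω) ⊆ O → ∀ (q : Pt) (r s : ℕ) (φ : Conf → Pt → ℝ),
      8 ≤ s → s ≤ r → (∀ y, φ ω y ≠ 0 → dn q y ≤ 2 * r) → ∀ (B S : Finset Pt),
      (∀ y, φ ω y ≠ 0 → y ∈ B) → (∀ x ∈ S, 4 * r ≤ dn q x) →
      ∑ x ∈ S, |gL T τ.E φ s ω x| ≤
        C * ∑ y ∈ B, |φ ω y| * pot O (fun z => if dn q z ≤ 4 * r then ((r : ℝ) ^ 2)⁻¹ else 0) y := by
  obtain ⟨C, hC, hfar⟩ := far_pot
  refine ⟨C, hC, ?_⟩
  intro T xS τ ω hω O hOf hsub q r s φ hs8 hsr hsupp B S hB hS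
  have hO := S743.oe_finite T (τ.E ω)
  have hcut : IsCut (OE T (τ.E ω)) s (32 ^ 4) (cutf (OE T (τ.E ω)) s) :=
    cutf_isCut (exists_notMem hO) hs8 le_rfl
  have hd0 : ∀ z : Pt, (0 : ℝ) ≤ if dn q z ≤ 4 * r then ((r : ℝ) ^ 2)⁻¹ else 0 := fun z => by
    split_ifs
    · positivity
    · exact le_rfl
  have h1 := hfar (OE T (τ.E ω)) hO (Stop.cpr (τ := τ) hω) s r _ (φ ω) _ _ q (by omega) hsr hcut
    (pot_spec hO (φ ω)) (fun y hy => by
      by_contra hne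
      have := hsupp y hne
      omega) (pot_spec hO _) S hS
  refine h1.trans (mul_le_mul_of_nonneg_left ?_ hC.le)
  have hO0 := green_nonneg hOf (pot_spec hOf _) (fun y _ => hd0 y)
  calc ∑ y ∈ hO.toFinset, |φ ω y| *
        pot (OE T (τ.E ω)) (fun z => if dn q z ≤ 4 * r then ((r : ℝ) ^ 2)⁻¹ else 0) y
      ≤ ∑ y ∈ hO.toFinset, |φ ω y| *
        pot O (fun z => if dn q z ≤ 4 * r then ((r : ℝ) ^ 2)⁻¹ else 0) y :=
        sum_le_sum fun y _ => mul_le_mul_of_nonneg_left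
          (pot_mono_dom hOf hO hsub hd0 y) (abs_nonneg _)
    _ = ∑ y ∈ hO.toFinset ∩ B, |φ ω y| *
        pot O (fun z => if dn q z ≤ 4 * r then ((r : ℝ) ^ 2)⁻¹ else 0) y := by
        symm
        refine sum_subset inter_subset_left fun y hy hyB => ?_
        have : φ ω y = 0 := by
          by_contra hne
          exact hyB (mem_inter.2 ⟨hy, hB y hne⟩)
        rw [this, abs_zero, zero_mul]
    _ ≤ _ := sum_le_sum_of_subset_of_nonneg inter_subset_right fun y _ _ =>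
        mul_nonneg (abs_nonneg _) (hO0 y)

/-- the strip of the line is outside the big box -/
theorem strip_far {q x : Pt} {xS : ℤ} {r κ : ℕ} (hq : (16 * r : ℤ) ≤ |q.1 - xS|)
    (hκ : κ ≤ 12 * r) (hx : |x.1 - xS| ≤ (κ : ℤ)) : 4 * r ≤ dn q x := by
  by_contra hc
  have h1 := (G45.dn_le_iff (r := dn q x)).1 le_rfl
  have h2 : |q.1 - x.1| ≤ (dn q x : ℤ) := by rw [abs_le]; constructor <;> omega
  have h3 := abs_sub_le q.1 x.1 xS
  omega

open Classical in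
/-- the strip of `unx_macro`, linear in the bump -/
theorem strip_le : ∃ C : ℝ, 0 < C ∧ ∀ (T : Temp) (xS : ℤ) (τ : Stop T.V xS), ∀ ω ∈ DD T.V,
    ∀ (O : Set Pt), O.Finite → OE T (τ.E ω) ⊆ O →
    ∀ (q : Pt) (r s κ : ℕ) (φ : Conf → Pt → ℝ), 8 ≤ s → s ≤ r → κ ≤ 12 * r →
      (16 * r : ℤ) ≤ |q.1 - xS| → (∀ y, φ ω y ≠ 0 → dn q y ≤ 2 * r) → ∀ B : Finset Pt,
      (∀ y, φ ω y ≠ 0 → y ∈ B) →
      ∑ x ∈ (S743.oe_finite T (τ.E ω)).toFinset.filter (fun x => |x.1 - xS| ≤ (κ : ℤ)),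
        |gL T τ.E φ s ω x| ≤
        C * ∑ y ∈ B, |φ ω y| * pot O (fun z => if dn q z ≤ 4 * r then ((r : ℝ) ^ 2)⁻¹ else 0) y := by
  obtain ⟨C, hC, h⟩ := far_stop
  refine ⟨C, hC, ?_⟩
  intro T xS τ ω hω O hOf hsub q r s κ φ hs8 hsr hκ hq hsupp B hB
  exact h T xS τ ω hω O hOf hsub q r s φ hs8 hsr hsupp B _ hB fun x hx =>
    strip_far hq hκ (mem_filter.1 hx).2

open Classical in
/-- **the unexplored loops at macroscopic scales, linear form** (`O` is any domain containing the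
current one, for example the domain of an earlier time) -/
theorem unx_lin : ∃ am > (0 : ℝ), ∃ e > (0 : ℝ), ∃ c > (0 : ℝ), ∀ C0 : ℝ, 0 ≤ C0 →
    ∃ C : ℝ, 0 ≤ C ∧ ∃ R0 : ℕ, 1 ≤ R0 ∧ ∀ (R : ℕ) (T : Temp), R0 ≤ R → Skel.Fits T R →
    ∀ κ s : ℕ, (R : ℝ) ^ (1 - e) ≤ κ → κ ≤ R → 8 ≤ s → (s : ℝ) ≤ (R : ℝ) ^ am →
    ∀ (xS : ℤ) (τ : Stop T.V xS) (Dom : Conf → Prop) (φ : Conf → Pt → ℝ)
      (q : Pt) (r : ℕ) (O : Conf → Set Pt) (B : Conf → Finset Pt),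
    (16 * r : ℤ) ≤ |q.1 - xS| → κ ≤ 12 * r → s ≤ r →
    (∀ ω ∈ DD T.V, Dom ω → τ.New ω ∧
      (∃ p, p ∉ OE T (τ.E ω) ∧ ∀ y, |φ ω y| ≤ dens C0 p κ y) ∧
      (∀ y, φ ω y ≠ 0 → κ ≤ dF (OE T (τ.E ω)) y ∧ dn q y ≤ 2 * r ∧ y ∈ B ω) ∧
      (O ω).Finite ∧ OE T (τ.E ω) ⊆ O ω) →
    Ex T.V (fun ω => if Dom ω then UnS τ φ s ω else 0) ≤ C * (R : ℝ) ^ (-c) +
      C * Ex T.V (fun ω => if Dom ω then
        ∑ y ∈ B ω, |φ ω y| *
          pot (O ω) (fun z => if dn q z ≤ 4 * r then ((r : ℝ) ^ 2)⁻¹ else 0) y else 0) := by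
  obtain ⟨am, ham, e, he, c, hc, hmac⟩ := unx_macro
  obtain ⟨C1, hC1, hst⟩ := strip_le
  refine ⟨am, ham, e, he, c, hc, ?_⟩
  intro C0 hC0
  obtain ⟨C, hC, R0, hR0, hmac⟩ := hmac C0 hC0
  refine ⟨max C (128 * C0 * C1), le_max_of_le_left hC, R0, hR0, ?_⟩
  intro R T hRR hfit κ s hκ hκR hs8 hs xS τ Dom φ q r O B hq hκr hsr hDom
  have hR : (0 : ℝ) < R := by exact_mod_cast hR0.trans hRR
  have h1 := hmac R T hRR hfit κ s hκ hκR hs8 hs xS τ Dom φ (fun ω hω hd => by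
    obtain ⟨a1, a2, a3, -, -⟩ := hDom ω hω hd
    exact ⟨a1, a2, fun y hy => (a3 y hy).1⟩)
  have h2 : Ex T.V (fun ω => if Dom ω then
      ∑ x ∈ (S743.oe_finite T (τ.E ω)).toFinset.filter (fun x => |x.1 - xS| ≤ (κ : ℤ)),
        |gL T τ.E φ s ω x| else 0) ≤ C1 * Ex T.V (fun ω => if Dom ω then
        ∑ y ∈ B ω, |φ ω y| *
          pot (O ω) (fun z => if dn q z ≤ 4 * r then ((r : ℝ) ^ 2)⁻¹ else 0) y else 0) := by
    rw [← H12.Ex_mul]
    refine H12.Ex_mono fun ω hω => ?_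
    by_cases hd : Dom ω
    · rw [if_pos hd, if_pos hd]
      obtain ⟨-, -, a3, a4, a5⟩ := hDom ω hω hd
      exact hst T xS τ ω hω (O ω) a4 a5 q r s κ φ hs8 hsr hκr hq (fun y hy => (a3 y hy).2.1) (B ω)
        (fun y hy => (a3 y hy).2.2)
    · rw [if_neg hd, if_neg hd, mul_zero]
  have hE0 : 0 ≤ Ex T.V (fun ω => if Dom ω then
        ∑ y ∈ B ω, |φ ω y| *
          pot (O ω) (fun z => if dn q z ≤ 4 * r then ((r : ℝ) ^ 2)⁻¹ else 0) y else 0) := by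
    refine H12.Ex_nonneg fun ω hω => ?_
    by_cases hd : Dom ω
    · rw [if_pos hd]
      obtain ⟨-, -, a3, a4, a5⟩ := hDom ω hω hd
      refine sum_nonneg fun y _ => mul_nonneg (abs_nonneg _) ?_
      exact green_nonneg a4 (pot_spec a4 _) (fun z _ => by
        split_ifs
        · positivity
        · exact le_rfl) y
    · rw [if_neg hd]
  have hRp : (0 : ℝ) ≤ (R : ℝ) ^ (-c) := by positivity
  calc _ ≤ C * (R : ℝ) ^ (-c) + 128 * C0 * (C1 * Ex T.V (fun ω => if Dom ω then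
        ∑ y ∈ B ω, |φ ω y| *
          pot (O ω) (fun z => if dn q z ≤ 4 * r then ((r : ℝ) ^ 2)⁻¹ else 0) y else 0)) :=
        h1.trans (add_le_add le_rfl (mul_le_mul_of_nonneg_left h2 (by positivity)))
    _ ≤ _ := by
        rw [← mul_assoc]
        exact add_le_add (mul_le_mul_of_nonneg_right (le_max_left _ _) hRp)
          (mul_le_mul_of_nonneg_right (le_max_right _ _) hE0)

end Vale.Agent.P155.NT613
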