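import Vale.Agent.P155.NT613.UnxA
import Vale.Agent.P155.NT276.Far

/-!
# P155, NT, visit bound (4): mesoscopic scales
-/

namespace Vale.Agent.P155.NT613

open Vale.Agent.P155 Finset SW HT T905 T802 T862 G45 J H904 H12 NT E4 S862 NT905 NT743 S743

/-- the sizes at the scale `κ` -/
theorem meso_num {g x a γ : ℝ} (hg0 : 0 < g) (hg1 : g ≤ 1 / 1024) (hx0 : 0 < x)
    (hx : x ≤ g / 4) (ha0 : 0 < a) (ha1 : a ≤ γ / 1024) (hγ : 0 < γ) (hγ1 : γ ≤ 1) :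
    ∃ κ0 : ℕ, 1 ≤ κ0 ∧ ∀ κ s N ρ0 : ℕ, κ0 ≤ κ → (s : ℝ) ≤ (κ : ℝ) ^ a →
      N = ⌈(κ : ℝ) ^ (1 + x)⌉₊ → ρ0 = ⌈(N : ℝ) ^ (1 - g)⌉₊ →
      8 * s ≤ κ ∧ ρ0 ≤ κ ∧ 4 * s + 1 ≤ ρ0 ∧ ρ0 + 2 * s < κ ∧ (s : ℝ) ≤ (N : ℝ) ^ (γ / 512) ∧
      4 * (s : ℝ) + 1 ≤ (N : ℝ) ^ (γ / 512) ∧ κ ≤ N ∧ (κ : ℝ) ^ (1 + x) ≤ N ∧
      (N : ℝ) ≤ 2 * (κ : ℝ) ^ (1 + x) ∧ (ρ0 : ℝ) ≤ 4 * (κ : ℝ) ^ (1 - g / 2) := by
  obtain ⟨R1, hR1⟩ := pow_lt_ev (a := 1 - g / 2) (b := 1) (by linarith) 100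
  obtain ⟨R2, hR2⟩ := pow_lt_ev (a := a) (b := 1 - g) (by linarith) 100
  obtain ⟨R3, hR3⟩ := pow_lt_ev (a := a) (b := γ / 512) (by linarith) 100
  refine ⟨max 1 (max R1 (max R2 R3)), le_max_left _ _, ?_⟩
  intro κ s N ρ0 hκ hs hN hρ
  have h1 : 1 ≤ κ := (le_max_left _ _).trans hκ
  have hm := (le_max_right _ _).trans hκ
  have t1 := hR1 κ ((le_max_left _ _).trans hm)
  have t2 := hR2 κ (((le_max_left _ _).trans (le_max_right _ _)).trans hm)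
  have t3 := hR3 κ (((le_max_right _ _).trans (le_max_right _ _)).trans hm)
  clear hR1 hR2 hR3 hm hκ
  rw [Real.rpow_one] at t1
  have hk1 : (1 : ℝ) ≤ κ := by exact_mod_cast h1
  have hk0 : (0 : ℝ) < κ := by linarith
  have p1 : (1 : ℝ) ≤ (κ : ℝ) ^ (1 + x) := Real.one_le_rpow hk1 (by linarith)
  have p2 : (κ : ℝ) ≤ (κ : ℝ) ^ (1 + x) := by
    conv_lhs => rw [← Real.rpow_one (κ : ℝ)]
    exact Real.rpow_le_rpow_of_exponent_le hk1 (by linarith)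
  have p3 : (1 : ℝ) ≤ (κ : ℝ) ^ (1 - g / 2) := Real.one_le_rpow hk1 (by linarith)
  have p4 : (κ : ℝ) ^ (1 - g) ≤ (κ : ℝ) ^ (1 - g / 2) :=
    Real.rpow_le_rpow_of_exponent_le hk1 (by linarith)
  have p5 : (1 : ℝ) ≤ (κ : ℝ) ^ a := Real.one_le_rpow hk1 ha0.le
  have hNl : (κ : ℝ) ^ (1 + x) ≤ N := by rw [hN]; exact Nat.le_ceil _
  have hNu : (N : ℝ) ≤ 2 * (κ : ℝ) ^ (1 + x) := by
    have := Nat.ceil_lt_add_one (a := (κ : ℝ) ^ (1 + x)) (by positivity)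
    rw [hN]
    linarith
  have hκN : (κ : ℝ) ≤ N := p2.trans hNl
  have hN1 : (1 : ℝ) ≤ N := by linarith
  have hN0 : (0 : ℝ) < N := by linarith
  have q1 : (κ : ℝ) ^ (1 - g) ≤ (N : ℝ) ^ (1 - g) :=
    Real.rpow_le_rpow hk0.le hκN (by linarith)
  have q2 : (N : ℝ) ^ (1 - g) ≤ 2 * (κ : ℝ) ^ (1 - g / 2) := by
    calc (N : ℝ) ^ (1 - g) ≤ (2 * (κ : ℝ) ^ (1 + x)) ^ (1 - g) :=
          Real.rpow_le_rpow hN0.le hNu (by linarith)
      _ = 2 ^ (1 - g) * (κ : ℝ) ^ ((1 + x) * (1 - g)) := by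
          rw [Real.mul_rpow (by norm_num) (by positivity), ← Real.rpow_mul hk0.le]
      _ ≤ 2 * (κ : ℝ) ^ (1 - g / 2) := by
          refine mul_le_mul ?_ ?_ (by positivity) (by norm_num)
          · conv_rhs => rw [← Real.rpow_one (2 : ℝ)]
            exact Real.rpow_le_rpow_of_exponent_le (by norm_num) (by linarith)
          · apply Real.rpow_le_rpow_of_exponent_le hk1
            nlinarith [mul_pos hx0 hg0]
  have q3 : (N : ℝ) ^ (1 - g) ≤ ρ0 := by rw [hρ]; exact Nat.le_ceil _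
  have q4 : (ρ0 : ℝ) ≤ 4 * (κ : ℝ) ^ (1 - g / 2) := by
    have := Nat.ceil_lt_add_one (a := (N : ℝ) ^ (1 - g)) (by positivity)
    rw [hρ]
    linarith
  have q5 : (κ : ℝ) ^ (γ / 512) ≤ (N : ℝ) ^ (γ / 512) :=
    Real.rpow_le_rpow hk0.le hκN (by positivity)
  generalize (κ : ℝ) ^ (1 - g / 2) = X at *
  generalize (κ : ℝ) ^ (1 - g) = Y at *
  generalize (κ : ℝ) ^ a = W at *
  generalize (κ : ℝ) ^ (γ / 512) = G at *
  generalize (N : ℝ) ^ (1 - g) = Z at *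
  generalize (N : ℝ) ^ (γ / 512) = U at *
  generalize (κ : ℝ) ^ (1 + x) = V at *
  refine ⟨?_, ?_, ?_, ?_, ?_, ?_, ?_, hNl, hNu, q4⟩
  · have : (8 * s : ℝ) ≤ κ := by linarith
    exact_mod_cast this
  · have : (ρ0 : ℝ) ≤ κ := by linarith
    exact_mod_cast this
  · have : (4 * s : ℝ) + 1 ≤ ρ0 := by linarith
    exact_mod_cast this
  · have : (ρ0 : ℝ) + 2 * s < κ := by linarith
    exact_mod_cast this
  · linarith
  · linarith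
  · exact_mod_cast hκN

/-- the error of the two-strand estimate at the scale `κ` -/
theorem meso_err {g x a γ β κ N ρ0 s M C : ℝ} (hg0 : 0 < g) (hx0 : 0 < x)
    (hx : x ≤ g / 4) (ha2 : a ≤ g * β / 4) (hγ : 0 < γ) (hγ1 : γ ≤ 1)
    (hβ : 0 < β) (hβ1 : β ≤ 1) (hg : g = γ ^ 2 / 1024) (hM : 0 ≤ M) (hC : 0 ≤ C) (hκ : 1 ≤ κ)
    (hs : s ≤ κ ^ a) (hN1 : κ ≤ N) (hN : N ≤ 2 * κ ^ (1 + x)) (hρ0 : 0 ≤ ρ0)
    (hρ : ρ0 ≤ 4 * κ ^ (1 - g / 2)) :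
    4 * s * (M * (ρ0 / κ) ^ β + C * ((N / κ) ^ γ * N ^ (-(γ ^ 2 / 128)))) ≤
      (16 * M + 8 * C) * κ ^ (-(g * β / 4)) := by
  have hκ0 : 0 < κ := by linarith
  have hN0 : 0 < N := by linarith
  have q1 : ρ0 / κ ≤ 4 * κ ^ (-(g / 2)) := by
    rw [div_le_iff₀ hκ0]
    calc ρ0 ≤ 4 * κ ^ (1 - g / 2) := hρ
      _ = 4 * κ ^ (-(g / 2)) * κ ^ (1 : ℝ) := by
          rw [mul_assoc, ← Real.rpow_add hκ0]
          congr 2
          ring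
      _ = _ := by rw [Real.rpow_one]
  have q2 : (ρ0 / κ) ^ β ≤ 4 * κ ^ (-(g * β / 2)) := by
    calc (ρ0 / κ) ^ β ≤ (4 * κ ^ (-(g / 2))) ^ β :=
          Real.rpow_le_rpow (by positivity) q1 hβ.le
      _ = 4 ^ β * κ ^ (-(g * β / 2)) := by
          rw [Real.mul_rpow (by norm_num) (by positivity), ← Real.rpow_mul hκ0.le]
          congr 2
          ring
      _ ≤ _ := by
          refine mul_le_mul_of_nonneg_right ?_ (by positivity)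
          conv_rhs => rw [← Real.rpow_one (4 : ℝ)]
          exact Real.rpow_le_rpow_of_exponent_le (by norm_num) hβ1
  have q3 : (N / κ) ^ γ ≤ 2 * κ ^ x := by
    have h1 : N / κ ≤ 2 * κ ^ x := by
      rw [div_le_iff₀ hκ0]
      calc N ≤ 2 * κ ^ (1 + x) := hN
        _ = 2 * κ ^ x * κ ^ (1 : ℝ) := by
            rw [mul_assoc, ← Real.rpow_add hκ0]
            congr 2
            ring
        _ = _ := by rw [Real.rpow_one]
    have h2 : 1 ≤ 2 * κ ^ x := by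
      have : (1 : ℝ) ≤ κ ^ x := Real.one_le_rpow hκ hx0.le
      linarith
    calc (N / κ) ^ γ ≤ (2 * κ ^ x) ^ γ := Real.rpow_le_rpow (by positivity) h1 hγ.le
      _ ≤ (2 * κ ^ x) ^ (1 : ℝ) := Real.rpow_le_rpow_of_exponent_le h2 hγ1
      _ = _ := Real.rpow_one _
  have q4 : N ^ (-(γ ^ 2 / 128)) ≤ κ ^ (-(8 * g)) := by
    have e : γ ^ 2 / 128 = 8 * g := by rw [hg]; ring
    rw [e]
    exact Real.rpow_le_rpow_of_nonpos hκ0 hN1 (by linarith)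
  have q5 : s * (ρ0 / κ) ^ β ≤ 4 * κ ^ (-(g * β / 4)) := by
    calc s * (ρ0 / κ) ^ β ≤ κ ^ a * (4 * κ ^ (-(g * β / 2))) :=
          mul_le_mul hs q2 (by positivity) (by positivity)
      _ = 4 * (κ ^ a * κ ^ (-(g * β / 2))) := by ring
      _ = 4 * κ ^ (a + -(g * β / 2)) := by rw [← Real.rpow_add hκ0]
      _ ≤ _ := by
          apply mul_le_mul_of_nonneg_left _ (by positivity)
          exact Real.rpow_le_rpow_of_exponent_le hκ (by linarith)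
  have hgb : g * β ≤ g := mul_le_of_le_one_right hg0.le hβ1
  have q6 : s * ((N / κ) ^ γ * N ^ (-(γ ^ 2 / 128))) ≤ 2 * κ ^ (-(g * β / 4)) := by
    calc s * ((N / κ) ^ γ * N ^ (-(γ ^ 2 / 128))) ≤
        κ ^ a * (2 * κ ^ x * κ ^ (-(8 * g))) := by
          refine mul_le_mul hs (mul_le_mul q3 q4 (by positivity) (by positivity)) (by positivity)
            (by positivity)
      _ = 2 * (κ ^ a * (κ ^ x * κ ^ (-(8 * g)))) := by ring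
      _ = 2 * κ ^ (a + (x + -(8 * g))) := by rw [← Real.rpow_add hκ0, ← Real.rpow_add hκ0]
      _ ≤ _ := by
          apply mul_le_mul_of_nonneg_left _ (by positivity)
          exact Real.rpow_le_rpow_of_exponent_le hκ (by linarith)
  calc 4 * s * (M * (ρ0 / κ) ^ β + C * ((N / κ) ^ γ * N ^ (-(γ ^ 2 / 128))))
      = 4 * M * (s * (ρ0 / κ) ^ β) + 4 * C * (s * ((N / κ) ^ γ * N ^ (-(γ ^ 2 / 128)))) := by ring
    _ ≤ 4 * M * (4 * κ ^ (-(g * β / 4))) + 4 * C * (2 * κ ^ (-(g * β / 4))) := by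
        apply add_le_add
        · exact mul_le_mul_of_nonneg_left q5 (by positivity)
        · exact mul_le_mul_of_nonneg_left q6 (by positivity)
    _ = _ := by ring

open Classical in
/-- the far part of the layer function is linear in `φ` -/
theorem far_pot : ∃ C : ℝ, 0 < C ∧ ∀ (O : Set Pt) (hO : O.Finite), CPr O →
    ∀ (s ρ : ℕ) (χ φ u v4 : Pt → ℝ) (q : Pt), 1 ≤ s → s ≤ ρ →
      IsCut O s (32 ^ 4) χ → IsGreen O φ u → (∀ y, 2 * ρ < dn q y → φ y = 0) →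
      IsGreen O (fun y => if dn q y ≤ 4 * ρ then ((ρ : ℝ) ^ 2)⁻¹ else 0) v4 →
      ∀ S : Finset Pt, (∀ x ∈ S, 4 * ρ ≤ dn q x) →
        ∑ x ∈ S, |fL O φ χ u x| ≤ C * ∑ y ∈ hO.toFinset, |φ y| * v4 y := by
  obtain ⟨C, hC, hfar⟩ := NT276.far_le
  refine ⟨C * (32 ^ 4 + 1), by positivity, ?_⟩
  intro O hO hCP s ρ χ φ u v4 q hs hsρ hχ hu hφ hv4 S hS
  have h := hfar O hO hCP s ρ (32 ^ 4) 0 χ φ u (fun y => |φ y|) (fun _ => 0) v4 q hs hsρ le_rfl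
    hχ hu hφ (fun y => abs_nonneg _) (fun y hy => by simp [hφ y hy]) (fun _ => le_rfl)
    (fun y => by simp) (fun _ _ => rfl) (fun v hv _ _ => by
      refine (abs_sum_le_sum_abs _ _).trans (sum_le_sum fun y _ => ?_)
      simp only [add_zero]
      rw [abs_mul, abs_of_nonneg (hv y)]) hv4 S hS
  simpa using h

/-- the potential of the big box is small near the complement -/
theorem v4_small : ∃ γ : ℝ, 0 < γ ∧ γ ≤ 1 ∧ ∃ C : ℝ, 0 < C ∧ ∀ (O : Set Pt), O.Finite →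
    CPr O → ∀ (ρ d : ℕ) (v4 : Pt → ℝ) (q p : Pt), 1 ≤ ρ → p ∉ O → dn q p ≤ ρ →
      IsGreen O (fun y => if dn q y ≤ 4 * ρ then ((ρ : ℝ) ^ 2)⁻¹ else 0) v4 →
      ∀ y, dn y p ≤ d → v4 y ≤ C * ((d : ℝ) / ρ) ^ γ := by
  obtain ⟨γ, hγ, hγ1, hpot⟩ := pot_meso
  obtain ⟨Cd, hCd, hpot⟩ := hpot 27 (by norm_num)
  refine ⟨γ, hγ, hγ1, Cd + 1, by positivity, ?_⟩
  intro O hO hCP ρ d v4 q p hρ hp hqp hv4 y hy
  have hρ0 : (0 : ℝ) < ρ := by exact_mod_cast hρ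
  obtain ⟨ub, -, -, h2, -, h4⟩ := hpot O p ρ _ v4 hO hCP hp hρ (fun y => by
    by_cases h : dn q y ≤ 4 * ρ
    swap
    · rw [if_neg h, abs_zero]
      exact dens_nonneg (by norm_num) p ρ y
    rw [if_pos h, abs_of_nonneg (by positivity)]
    unfold E4.dens
    have h5 : dn p y ≤ 5 * ρ := by
      have := H904.dn_tri p q y
      rw [H904.dn_comm p q] at this
      omega
    have h6 : (dn p y : ℝ) ≤ 5 * ρ := by exact_mod_cast h5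
    have h7 : (0 : ℝ) ≤ dn p y := Nat.cast_nonneg _
    rw [inv_eq_one_div, div_le_div_iff₀ (by positivity) (by positivity)]
    have h8 : ((ρ : ℝ) + dn p y) ^ 3 ≤ (6 * ρ) ^ 3 := pow_le_pow_left₀ (by positivity)
      (by linarith) 3
    calc 1 * ((ρ : ℝ) + dn p y) ^ 3 ≤ (6 * ρ) ^ 3 := by rw [one_mul]; exact h8
      _ = 8 * 27 * ρ * (ρ : ℝ) ^ 2 := by ring) hv4
  have h3 : dF O y ≤ d := (H904.dF_le hp).trans hy
  have h3' : (dF O y : ℝ) ≤ d := by exact_mod_cast h3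
  calc v4 y ≤ |v4 y| := le_abs_self _
    _ ≤ ub y := h2 y
    _ ≤ Cd * ((dF O y : ℝ) / ρ) ^ γ := h4 y
    _ ≤ (Cd + 1) * ((d : ℝ) / ρ) ^ γ := by
        refine mul_le_mul (by linarith) ?_ (by positivity) (by positivity)
        exact Real.rpow_le_rpow (by positivity) (div_le_div_of_nonneg_right h3' hρ0.le) hγ.le

open Classical in
/-- **the far part of the layer function of a bump** -/
theorem far_small : ∃ γ : ℝ, 0 < γ ∧ γ ≤ 1 ∧ ∀ C0 : ℝ, 0 ≤ C0 → ∃ C : ℝ, 0 < C ∧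
    ∀ O : Set Pt, O.Finite → CPr O → ∀ (κ s ρ A : ℕ) (χ φ u : Pt → ℝ) (q p : Pt),
      1 ≤ s → s ≤ ρ → 1 ≤ κ → 1 ≤ A → A * κ ≤ ρ → p ∉ O → dn q p ≤ A * κ →
      IsCut O s (32 ^ 4) χ → IsGreen O φ u → (∀ y, |φ y| ≤ dens C0 p κ y) →
      (∀ y, φ y ≠ 0 → dn q y ≤ A * κ) →
      ∀ S : Finset Pt, (∀ x ∈ S, 4 * ρ ≤ dn q x) →
        ∑ x ∈ S, |fL O φ χ u x| ≤ C * (((2 * (A * κ) : ℕ) : ℝ) / ρ) ^ γ := by
  obtain ⟨C1, hC1, hfar⟩ := far_pot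
  obtain ⟨γ, hγ, hγ1, C2, hC2, hv⟩ := v4_small
  refine ⟨γ, hγ, hγ1, fun C0 hC0 => ⟨C1 * (128 * C0 * C2) + 1, by positivity, ?_⟩⟩
  intro O hO hCP κ s ρ A χ φ u q p hs hsρ hκ hA hAρ hp hqp hχ hu hφ hsupp S hS
  have hρ : 1 ≤ ρ := hs.trans hsρ
  obtain ⟨v4, hv4⟩ := exists_green hO (fun y => if dn q y ≤ 4 * ρ then ((ρ : ℝ) ^ 2)⁻¹ else 0)
  have h1 := hfar O hO hCP s ρ χ φ u v4 q hs hsρ hχ hu (fun y hy => by
    by_contra hne
    have := hsupp y hne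
    omega) hv4 S hS
  have h2 : ∑ y ∈ hO.toFinset, |φ y| * v4 y ≤
      128 * C0 * (C2 * (((2 * (A * κ) : ℕ) : ℝ) / ρ) ^ γ) := by
    calc ∑ y ∈ hO.toFinset, |φ y| * v4 y
        ≤ ∑ y ∈ hO.toFinset, |φ y| * (C2 * (((2 * (A * κ) : ℕ) : ℝ) / ρ) ^ γ) := by
          refine sum_le_sum fun y _ => ?_
          by_cases h0 : φ y = 0
          · rw [h0]; simp
          refine mul_le_mul_of_nonneg_left ?_ (abs_nonneg _)
          refine hv O hO hCP ρ _ v4 q p hρ hp (hqp.trans hAρ) hv4 y ?_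
          have h3 := hsupp y h0
          have h4 := H904.dn_tri y q p
          rw [H904.dn_comm y q] at h4
          omega
      _ = (∑ y ∈ hO.toFinset, |φ y|) * (C2 * (((2 * (A * κ) : ℕ) : ℝ) / ρ) ^ γ) := by
          rw [sum_mul]
      _ ≤ _ := mul_le_mul_of_nonneg_right
          ((sum_le_sum fun y _ => hφ y).trans (dens_mass hC0 p hκ _)) (by positivity)
  have h5 : (0 : ℝ) ≤ (((2 * (A * κ) : ℕ) : ℝ) / ρ) ^ γ := by positivity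
  calc _ ≤ C1 * ∑ y ∈ hO.toFinset, |φ y| * v4 y := h1
    _ ≤ C1 * (128 * C0 * (C2 * (((2 * (A * κ) : ℕ) : ℝ) / ρ) ^ γ)) :=
        mul_le_mul_of_nonneg_left h2 hC1.le
    _ ≤ _ := by nlinarith

end Vale.Agent.P155.NT613
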