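import Vale.Agent.P155.NT613.Far4

/-!
# P155, NT, visit bound (4): the expectation of the sum over the unexplored loops
-/

namespace Vale.Agent.P155.NT613

open Vale.Agent.P155 Finset SW HT T905 T802 T862 G45 J H904 H12 NT E4 S862 NT905 NT743 S743

open Classical in
/-- the sum over the unexplored loops -/
noncomputable def UnS {T : Temp} {xS : ℤ} (τ : Stop T.V xS) (φ : Conf → Pt → ℝ) (s : ℕ)
    (ω : Conf) : ℝ :=
  ∑ A ∈ (LF ω).filter (fun A => Unx (τ.E ω) A),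
    |mass ω (gL T τ.E φ s ω) A * mass ω (φ ω) A|

theorem UnS_nonneg {T : Temp} {xS : ℤ} (τ : Stop T.V xS) (φ : Conf → Pt → ℝ) (s : ℕ)
    (ω : Conf) : 0 ≤ UnS τ φ s ω := sum_nonneg fun _ _ => abs_nonneg _

open Classical in
/-- crude bound for the sum over the unexplored loops -/
theorem unx_crude {T : Temp} {R : ℕ} {ω : Conf} (hω : ω ∈ DD T.V) (E : Set Pt)
    {g φ : Pt → ℝ} {S : Finset Pt} {M Φ K : ℝ} (hM0 : 0 ≤ M) (hK : 0 ≤ K)
    (hgS : ∀ x, x ∉ S → g x = 0) (hM : ∑ x ∈ S, |g x| ≤ M)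
    (hφS : ∀ y, y ∉ box ((0 : ℤ), (0 : ℤ)) R → φ y = 0)
    (hΦ : ∑ y ∈ box ((0 : ℤ), (0 : ℤ)) R, |φ y| ≤ Φ) :
    ∑ A ∈ (LF ω).filter (fun A => Unx E A), |mass ω g A * mass ω φ A| ≤
      M * (Φ * (K + tauN (box (0, 0) R) K ω)) := by
  set S0 := box ((0 : ℤ), (0 : ℤ)) R with hS0
  have hτ0 := tauN_nonneg S0 K ω
  have h1 : ∀ A ∈ (LF ω).filter (fun A => Unx E A), |mass ω g A * mass ω φ A| ≤
      M * ∑ y ∈ S0, |φ y| * (if surr ω A y then 1 else 0) := by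
    intro A _
    rw [abs_mul]
    refine mul_le_mul ?_ ?_ (abs_nonneg _) hM0
    · rw [mass_eq_sum hgS]
      refine (abs_sum_le_sum_abs _ _).trans ((sum_le_sum fun y _ => ?_).trans hM)
      rw [abs_mul]
      refine mul_le_of_le_one_right (abs_nonneg _) ?_
      split_ifs <;> simp
    · rw [mass_eq_sum hφS]
      refine (abs_sum_le_sum_abs _ _).trans (sum_le_sum fun y _ => ?_)
      rw [abs_mul]
      refine mul_le_mul_of_nonneg_left ?_ (abs_nonneg _)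
      split_ifs <;> simp
  refine (sum_le_sum h1).trans ?_
  rw [← mul_sum]
  refine mul_le_mul_of_nonneg_left ?_ hM0
  rw [sum_comm]
  have h5 : ∀ y ∈ S0, ∑ A ∈ (LF ω).filter (fun A => Unx E A),
      |φ y| * (if surr ω A y then (1 : ℝ) else 0) ≤ |φ y| * (K + tauN S0 K ω) := by
    intro y hy
    rw [← mul_sum]
    refine mul_le_mul_of_nonneg_left ?_ (abs_nonneg _)
    have h6 : ∑ A ∈ (LF ω).filter (fun A => Unx E A),
        (if surr ω A y then (1 : ℝ) else 0) ≤ (N ω y : ℝ) := by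
      rw [← sum_filter, sum_const, nsmul_eq_mul, mul_one]
      unfold N
      have h7 : (((LF ω).filter (fun A => Unx E A)).filter
          (fun A => surr ω A y)).card ≤ Set.ncard {L | L ∈ Loops ω ∧ surr ω L y} := by
        rw [← Set.ncard_coe_finset]
        apply Set.ncard_le_ncard
        · intro A hA
          rw [mem_coe, mem_filter, mem_filter] at hA
          exact ⟨(mem_LF hω).1 hA.1.1, hA.2⟩
        · exact (L.loops_finite hω).subset fun A hA => hA.1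
      exact_mod_cast h7
    exact h6.trans (N_le_tau hy hK)
  refine (sum_le_sum h5).trans ?_
  rw [← sum_mul]
  exact mul_le_mul_of_nonneg_right hΦ (by positivity)

theorem fL_smul (O : Set Pt) (φ χ u : Pt → ℝ) (t : ℝ) (x : Pt) :
    fL O (fun y => t * φ y) χ (fun y => t * u y) x = t * fL O φ χ u x := by
  unfold fL
  have e : (fun y => χ y * (t * u y)) = fun y => t * (χ y * u y) := by
    funext y; ring
  rw [e, lap_smul]
  split_ifs <;> ring

theorem green_smul {O : Set Pt} {φ u : Pt → ℝ} (h : IsGreen O φ u) (t : ℝ) :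
    IsGreen O (fun y => t * φ y) (fun y => t * u y) where
  off := fun y hy => by rw [h.off y hy, mul_zero]
  eq := fun y hy => by rw [lap_smul, ← h.eq y hy]; ring

theorem mass_smul {ω : Conf} {f : Pt → ℝ} {S : Finset Pt} (hf : ∀ x, x ∉ S → f x = 0) (t : ℝ)
    (A : Set Pt) : mass ω (fun y => t * f y) A = t * mass ω f A := by
  classical
  rw [mass_eq_sum (s := S) (f := fun y => t * f y) (fun x hx => by rw [hf x hx, mul_zero]),
    mass_eq_sum hf, mul_sum]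
  refine sum_congr rfl fun x _ => ?_
  ring

open Classical in
/-- the polygon zone for test functions of size `R^(2e) / R²` -/
theorem zone_scaled {e0 : ℝ} (he0 : 0 < e0) : ∃ c > (0 : ℝ), ∀ C0 Cc : ℝ, 0 ≤ C0 → 0 ≤ Cc →
    ∃ C : ℝ, 0 ≤ C ∧ ∀ (R : ℕ) (T : Temp), 1 ≤ R → Skel.Fits T R → ∀ s h : ℕ, 1 ≤ s →
    8 * s ≤ R → ((2 * s : ℕ) : ℝ) ≤ (R : ℝ) ^ c → (h : ℝ) ≤ (R : ℝ) ^ (1 - e0) → h ≤ R →
    ∃ F : Conf → ℝ, (∀ ω, 0 ≤ F ω) ∧ Ex T.V F ≤ C * (R : ℝ) ^ (-(c / 2)) ∧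
    ∀ (xS : ℤ) (τ : Stop T.V xS), ∀ ω ∈ DD T.V, τ.New ω → ∀ (φ u χ : Pt → ℝ),
      (∀ y, |φ y| ≤ C0 * (R : ℝ) ^ (c / 4) / (R : ℝ) ^ 2) →
      (∀ y, φ y ≠ 0 → 3 * h < dF T.faceSet y) →
      IsCut (OE T (τ.E ω)) s Cc χ → IsGreen (OE T (τ.E ω)) φ u →
      ∑ A ∈ (LF ω).filter (fun A => Unx (τ.E ω) A),
        |mass ω (gz T h (fL (OE T (τ.E ω)) φ χ u)) A * mass ω φ A| ≤ F ω := by
  obtain ⟨c, hc, hz⟩ := zone_unx e0 he0
  refine ⟨c, hc, ?_⟩
  intro C0 Cc hC0 hCc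
  obtain ⟨C, hC, hz⟩ := hz C0 Cc hC0 hCc
  refine ⟨C, hC, ?_⟩
  intro R T hR hfit s h hs h8 hsR hh hhR
  obtain ⟨F, hF0, hEF, hF⟩ := hz R T hR hfit s h hs h8 hsR hh hhR
  have hR1 : (1 : ℝ) ≤ R := by exact_mod_cast hR
  have hR0 : (0 : ℝ) < R := by linarith
  set r := (R : ℝ) ^ (c / 4) with hr
  have hr0 : 0 < r := by positivity
  refine ⟨fun ω => r ^ 2 * F ω, fun ω => mul_nonneg (by positivity) (hF0 ω), ?_, ?_⟩
  · rw [H12.Ex_mul]
    calc r ^ 2 * Ex T.V F ≤ r ^ 2 * (C * (R : ℝ) ^ (-c)) :=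
          mul_le_mul_of_nonneg_left hEF (by positivity)
      _ = C * ((R : ℝ) ^ (c / 4) * (R : ℝ) ^ (c / 4) * (R : ℝ) ^ (-c)) := by rw [hr]; ring
      _ = _ := by
          rw [← Real.rpow_add hR0, ← Real.rpow_add hR0]
          congr 2
          ring
  · intro xS τ ω hω hN φ u χ hφ hsupp hχ hu
    have h1 := hF xS τ ω hω hN (fun y => r⁻¹ * φ y) (fun y => r⁻¹ * u y) χ
      (fun y => by
        rw [abs_mul, abs_of_pos (inv_pos.2 hr0), inv_mul_le_iff₀ hr0]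
        refine (hφ y).trans (le_of_eq ?_)
        ring)
      (fun y hy => hsupp y (fun h0 => hy (by rw [h0, mul_zero])))
      hχ (green_smul hu _)
    have hO : (OE T (τ.E ω)).Finite := S743.oe_finite T (τ.E ω)
    have hOb : OE T (τ.E ω) ⊆ (box ((0 : ℤ), (0 : ℤ)) R : Set Pt) := fun f hf => hfit hf.1
    have hφ0 : ∀ y, y ∉ box ((0 : ℤ), (0 : ℤ)) R → φ y = 0 := by
      intro y hy
      by_contra hne
      have h1 := hsupp y hne
      have h2 : y ∈ T.faceSet := BD.mem_of_lt_dF (z := y) (by rw [H904.dn_self]; omega)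
      exact hy (hfit h2)
    have hg0 : ∀ y, y ∉ box ((0 : ℤ), (0 : ℤ)) R →
        gz T h (fL (OE T (τ.E ω)) φ χ u) y = 0 := by
      intro x hx
      unfold gz
      rw [fL_zero_off hO hs hχ hu x (fun h => hx (by
        have := hOb ((Set.Finite.mem_toFinset hO).1 h)
        exact_mod_cast this)), ite_self]
    have e : ∀ A, |mass ω (gz T h (fL (OE T (τ.E ω)) (fun y => r⁻¹ * φ y) χ
        (fun y => r⁻¹ * u y))) A * mass ω (fun y => r⁻¹ * φ y) A| =
        (r⁻¹) ^ 2 * |mass ω (gz T h (fL (OE T (τ.E ω)) φ χ u)) A * mass ω φ A| := by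
      intro A
      have e1 : gz T h (fL (OE T (τ.E ω)) (fun y => r⁻¹ * φ y) χ (fun y => r⁻¹ * u y)) =
          fun y => r⁻¹ * gz T h (fL (OE T (τ.E ω)) φ χ u) y := by
        funext y
        unfold gz
        rw [fL_smul]
        split_ifs <;> simp
      rw [e1, mass_smul hg0, mass_smul hφ0]
      rw [show r⁻¹ * mass ω (gz T h (fL (OE T (τ.E ω)) φ χ u)) A * (r⁻¹ * mass ω φ A) =
        (r⁻¹) ^ 2 * (mass ω (gz T h (fL (OE T (τ.E ω)) φ χ u)) A * mass ω φ A) by ring, abs_mul,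
        abs_of_nonneg (by positivity : (0 : ℝ) ≤ (r⁻¹) ^ 2)]
    simp only [e] at h1
    rw [← mul_sum] at h1
    calc ∑ A ∈ (LF ω).filter (fun A => Unx (τ.E ω) A),
          |mass ω (gz T h (fL (OE T (τ.E ω)) φ χ u)) A * mass ω φ A|
        = r ^ 2 * ((r⁻¹) ^ 2 * ∑ A ∈ (LF ω).filter (fun A => Unx (τ.E ω) A),
          |mass ω (gz T h (fL (OE T (τ.E ω)) φ χ u)) A * mass ω φ A|) := by
          field_simp
      _ ≤ r ^ 2 * F ω := mul_le_mul_of_nonneg_left h1 (by positivity)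

/-- comparison of powers for large `R` -/
theorem pow_lt_ev {a b : ℝ} (hab : a < b) (K : ℝ) : ∃ R0 : ℕ, ∀ R : ℕ, R0 ≤ R →
    K * (R : ℝ) ^ a ≤ (R : ℝ) ^ b := by
  have h1 : Filter.Tendsto (fun n : ℕ => (n : ℝ) ^ (b - a)) Filter.atTop Filter.atTop :=
    (tendsto_rpow_atTop (by linarith)).comp tendsto_natCast_atTop_atTop
  obtain ⟨R0, hR0⟩ := Filter.eventually_atTop.1 ((h1.eventually_ge_atTop K).and
    (Filter.eventually_ge_atTop 1))
  refine ⟨R0, fun R hR => ?_⟩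
  obtain ⟨h2, h3⟩ := hR0 R hR
  have hR1 : (1 : ℝ) ≤ R := by exact_mod_cast h3
  have hRp : (0 : ℝ) < R := by linarith
  calc K * (R : ℝ) ^ a ≤ (R : ℝ) ^ (b - a) * (R : ℝ) ^ a :=
        mul_le_mul_of_nonneg_right h2 (by positivity)
    _ = (R : ℝ) ^ b := by
        rw [← Real.rpow_add hRp]
        congr 1
        ring

end Vale.Agent.P155.NT613
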