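import Vale.Agent.P155.NT613.Strip
import Vale.Agent.P155.NT34.VBc
import Vale.Agent.P155.NT905.V1Main

/-!
# P155, NT, visit bound: the energy drop with a random centre
-/

namespace Vale.Agent.P155.NT613

open Vale.Agent.P155 Finset SW HT T905 T802 T862 G45 J H904 H12 NT E4 S862 NT905 NT743 S743 NT34

theorem UnS_eq905 {T : Temp} {xS : ℤ} (τ : Stop T.V xS) (φ : Conf → Pt → ℝ) (s : ℕ)
    (ω : Conf) : NT905.UnS τ φ s ω = NT613.UnS τ φ s ω := rfl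

open Classical in
/-- splitting by the value of the centre -/
theorem Ex_fiber {V : Finset Pt} {S : Conf → Prop} {x : Conf → Pt} {D : Pt → Conf → Prop}
    {B : Finset Pt} (hD : ∀ x0 ω, D x0 ω ↔ (S ω ∧ x ω = x0))
    (h : ∀ ω ∈ DD V, S ω → x ω ∈ B) (G : Pt → Conf → ℝ) :
    ∑ x0 ∈ B, Ex V (fun ω => if D x0 ω then G x0 ω else 0) =
      Ex V (fun ω => if S ω then G (x ω) ω else 0) := by
  rw [← H12.Ex_sum]
  refine H12.Ex_congr fun ω hω => ?_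
  by_cases hs : S ω
  · simp only [hD, hs, true_and, if_true]
    rw [Finset.sum_ite_eq B (x ω) (fun x0 => G x0 ω), if_pos (h ω hω hs)]
  · simp [hD, hs]

open Classical in
/-- sum of the inequalities over the values of the centre -/
theorem drop_fiber {V : Finset Pt} {S : Conf → Prop} {x : Conf → Pt} {D : Pt → Conf → Prop}
    {R : ℕ} (hD : ∀ x0 ω, D x0 ω ↔ (S ω ∧ x ω = x0)) (hR : 1 ≤ R)
    (h : ∀ ω ∈ DD V, S ω → x ω ∈ box ((0 : ℤ), (0 : ℤ)) R) {C c : ℝ} (hC : 0 ≤ C)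
    (hc : c ≤ 1) {F G H : Conf → ℝ} {Z : Pt → Conf → ℝ}
    (hx : ∀ x0 ∈ box ((0 : ℤ), (0 : ℤ)) R,
      Ex V (fun ω => if D x0 ω then F ω else 0) ≤
      C * (Ex V (fun ω => if D x0 ω then G ω else 0) +
        (R : ℝ) ^ (-c) * Pr V (D x0) + (R : ℝ) ^ (-3 : ℝ) +
        Ex V (fun ω => if D x0 ω then Z x0 ω else 0) +
        Ex V (fun ω => if D x0 ω then H ω else 0))) :
    Ex V (fun ω => if S ω then F ω else 0) ≤
      C * (Ex V (fun ω => if S ω then G ω else 0) + 10 * (R : ℝ) ^ (-c) +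
        Ex V (fun ω => if S ω then Z (x ω) ω else 0) +
        Ex V (fun ω => if S ω then H ω else 0)) := by
  have hRr : (1 : ℝ) ≤ R := by exact_mod_cast hR
  have hR0 : (0 : ℝ) < R := by linarith
  have h1 := sum_le_sum hx
  rw [Ex_fiber hD h (fun _ => F), ← mul_sum, sum_add_distrib, sum_add_distrib, sum_add_distrib,
    sum_add_distrib, Ex_fiber hD h (fun _ => G), Ex_fiber hD h Z, Ex_fiber hD h (fun _ => H),
    ← mul_sum, sum_const, nsmul_eq_mul] at h1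
  refine h1.trans (mul_le_mul_of_nonneg_left ?_ hC)
  have h2 : ∑ x0 ∈ box ((0 : ℤ), (0 : ℤ)) R, Pr V (D x0) ≤ 1 := by
    have e : ∀ x0, Pr V (D x0) = Ex V (fun ω => if D x0 ω then (1 : ℝ) else 0) := fun x0 => by
      rw [Vale.Agent.P155.E.Pr_eq_avg, Ex_eq_avg]
    simp only [e]
    rw [Ex_fiber hD h (fun _ _ => 1)]
    refine H12.Ex_const_le zero_le_one fun ω _ => ?_
    split_ifs <;> norm_num
  have h3 : ((box ((0 : ℤ), (0 : ℤ)) R).card : ℝ) * (R : ℝ) ^ (-3 : ℝ) ≤ 9 * (R : ℝ) ^ (-c) := by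
    calc ((box ((0 : ℤ), (0 : ℤ)) R).card : ℝ) * (R : ℝ) ^ (-3 : ℝ) ≤
        9 * (R : ℝ) ^ 2 * (R : ℝ) ^ (-3 : ℝ) :=
          mul_le_mul_of_nonneg_right (card_box_le hR) (by positivity)
      _ = 9 * (R : ℝ) ^ (2 + -3 : ℝ) := by
          rw [Real.rpow_add hR0, mul_assoc]
          congr 2
          rw [← Real.rpow_natCast]
          norm_num
      _ ≤ _ := mul_le_mul_of_nonneg_left
          (Real.rpow_le_rpow_of_exponent_le hRr (by linarith)) (by norm_num)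
  have h4 : (R : ℝ) ^ (-c) * ∑ x0 ∈ box ((0 : ℤ), (0 : ℤ)) R, Pr V (D x0) ≤
      (R : ℝ) ^ (-c) := mul_le_of_le_one_right (by positivity) h2
  linarith

open Classical in
/-- **the energy drop of the first visit, random centre** -/
theorem v1_rand : ∃ γ : ℝ, 0 < γ ∧ γ ≤ 1 ∧ ∀ (a0 C0 am : ℝ), 0 < a0 → 0 ≤ C0 → 0 < am →
    ∃ a : ℝ, 0 < a ∧ a ≤ am ∧ ∃ CT : ℝ, 0 < CT ∧ ∃ c : ℝ, 0 < c ∧ c ≤ 1 ∧
    ∃ C : ℝ, 0 ≤ C ∧ ∃ R0 : ℕ, 1 ≤ R0 ∧
    ∀ (R n N : ℕ) (T : Temp), R0 ≤ R → Skel.Fits T R → (R : ℝ) ^ a0 ≤ n → n ≤ N → N ≤ R →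
    (N : ℝ) ≤ 2 * (n : ℝ) ^ (1 + γ ^ 2 / 4096) → ∀ s ρ0 : ℕ,
    s = ⌈(R : ℝ) ^ a⌉₊ → ρ0 = ⌈(N : ℝ) ^ (1 - γ ^ 2 / 1024)⌉₊ →
    (8 ≤ s ∧ s ^ 2 + 1 ≤ ρ0 ∧ 8 * ρ0 + 16 ≤ n) ∧
    ∀ (xS : ℤ) (q : Pt) (r k κ : ℕ) (b : Bool) (S : Conf → Prop) (x p : Conf → Pt)
      (hx : At (tE T.V xS q r k) x), At (tE T.V xS q r k) S → 1 ≤ r →
      (16 * r : ℤ) ≤ |q.1 - xS| → 5 ≤ κ →
      (∀ ω ∈ DD T.V, S ω → (tE T.V xS q r k).N ω < Tm.M T.V xS ω ∧
        x ω ∈ box ((0 : ℤ), (0 : ℤ)) R ∧ p ω ∉ OE T ((tE T.V xS q r k).toStop.E ω) ∧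
        IsBump (p ω) n (C0 / (n : ℝ) ^ 2) (S743.bump κ (x ω)) ∧
        3 * κ < dF (OE T ((tE T.V xS q r k).toStop.E ω)) (x ω)) →
      Ex T.V (fun ω => if S ω then dropE (tE T.V xS q r k).toStop (tV hx (3 * κ)).toStop
        (fun ω => S743.bump κ (x ω)) ω else 0) ≤
      C * (Ex T.V (fun ω => if S ω then
          ∑ y ∈ (oe_finite T ((tE T.V xS q r k).toStop.E ω)).toFinset, S743.bump κ (x ω) y *
            (if b then (tE T.V xS q r k).toStop.Hf ω y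
              else 1 - (tE T.V xS q r k).toStop.Hf ω y) else 0) + 10 * (R : ℝ) ^ (-c) +
        Ex T.V (fun ω => if S ω then
          farL (tE T.V xS q r k).toStop (fun ω => S743.bump κ (x ω)) s N (x ω) ρ0 ω +
          zoneS (tE T.V xS q r k).toStop (fun ω => S743.bump κ (x ω)) s N (x ω) (CT * ρ0) ω
          else 0) +
        Ex T.V (fun ω => if S ω then
          NT905.UnS (tE T.V xS q r k).toStop (fun ω => S743.bump κ (x ω)) s ω +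
          NT905.UnS (tV hx (3 * κ)).toStop (fun ω => S743.bump κ (x ω)) s ω else 0)) := by
  obtain ⟨γ, hγ, hγ1, hv⟩ := v1_asm
  refine ⟨γ, hγ, hγ1, ?_⟩
  intro a0 C0 am ha0 hC0 ham
  obtain ⟨a, ha, haam, CT, hCT, c1, hc1, C, hC, R0, hR0, hv⟩ :=
    hv a0 C0 am 3 2 ha0 hC0 ham (by norm_num) (by norm_num)
  refine ⟨a, ha, haam, CT, hCT, min c1 1, lt_min hc1 one_pos, min_le_right _ _, C, hC, R0, hR0, ?_⟩
  intro R n N T hR hfit hn hnN hNR hNn s ρ0 hs hρ0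
  obtain ⟨⟨s1, s2, s3, -⟩, -, hd⟩ := hv R n N T hR hfit hn hnN hNR hNn s ρ0 hs hρ0
  refine ⟨⟨s1, s2, s3⟩, ?_⟩
  clear hv
  intro xS q r k κ b S x p hx hS hr hq hκ hD
  have hR1 : 1 ≤ R := hR0.trans hR
  have hRr : (1 : ℝ) ≤ R := by exact_mod_cast hR1
  refine drop_fiber (x := x) (D := fun x0 ω => S ω ∧ x ω = x0) (fun _ _ => Iff.rfl) hR1
    (fun ω hω hs => (hD ω hω hs).2.1) hC (min_le_right _ _)
    (Z := fun x0 ω => farL (tE T.V xS q r k).toStop (fun ω => S743.bump κ (x ω)) s N x0 ρ0 ω +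
      zoneS (tE T.V xS q r k).toStop (fun ω => S743.bump κ (x ω)) s N x0 (CT * ρ0) ω) ?_
  intro x0 _
  have hDx : At (tE T.V xS q r k) (fun ω => S ω ∧ x ω = x0) := hS.comp₂ (fun a b => a ∧ b = x0) hx
  have hlt : ∀ ω ∈ DD T.V, (S ω ∧ x ω = x0) → (tE T.V xS q r k).N ω < Tm.M T.V xS ω :=
    fun ω hω h => (hD ω hω h.1).1
  obtain ⟨h1, h2⟩ := hd xS (tE T.V xS q r k).toStop (tV hx (3 * κ)).toStop
    (fun ω => S ω ∧ x ω = x0) (fun ω => S743.bump κ (x ω)) p x0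
    (fms_E hx hDx κ hr hq hlt) (fms_V hx hDx κ (3 * κ) hr hq hlt)
    (fun ω hω h => (tV_facts hω hr hq (hlt ω hω h)).2.2.2)
    (fun ω hω h => ⟨(hD ω hω h.1).2.2.1, (hD ω hω h.1).2.2.2.1⟩)
    (fun ω hω h y hy => by
      obtain ⟨g1, g2, g3, g4, g5⟩ := hD ω hω h.1
      have h6 := mem_box_dn905.1 (S743.bump_supp hκ hy)
      refine tV_free hω hr hq g1 g5 ?_ (by omega)
      by_contra hc
      have h7 := G45.dF_le hc (x := x ω)
      omega)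
    (fun ω _ _ y => S743.bump_nonneg κ (x ω) y)
  have h3 := h2 1 zero_le_one le_rfl (fun ω hω h => bump_one hκ (by
    have := (hD ω hω h.1).2.2.2.2
    omega))
  have hPr := Vale.Agent.P155.E.Pr_nonneg T.V (fun ω => S ω ∧ x ω = x0)
  have hpow : (R : ℝ) ^ (-c1) * Pr T.V (fun ω => S ω ∧ x ω = x0) ≤
      (R : ℝ) ^ (-(min c1 1)) * Pr T.V (fun ω => S ω ∧ x ω = x0) :=
    mul_le_mul_of_nonneg_right (Real.rpow_le_rpow_of_exponent_le hRr (by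
      have := min_le_left c1 1
      linarith)) hPr
  cases b
  · refine h3.trans (mul_le_mul_of_nonneg_left ?_ hC)
    unfold hitE'
    simp only [Bool.false_eq_true, if_false]
    gcongr
  · refine h1.trans (mul_le_mul_of_nonneg_left ?_ hC)
    unfold hitE
    simp only [if_true]
    gcongr

end Vale.Agent.P155.NT613
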