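import Vale.Agent.P155.NT613.VB1

/-!
# P155, NT, visit bound: the mesoscopic regime
-/

namespace Vale.Agent.P155.NT613

open Vale.Agent.P155 Finset SW HT T905 T802 T862 G45 J H904 H12 NT E4 S862 NT905 NT743 S743 NT34

/-- the numbers at mesoscopic scales -/
theorem mes_num {a0 e x g4 θ CT : ℝ} {L : ℕ} (ha0 : 0 < a0) (he1 : e ≤ 1)
    (hx0 : 0 < x) (hx1 : x ≤ e / 4) (hx2 : x ≤ g4) (hθ : 0 < θ) (hCT : 0 < CT) (hL : 1 ≤ L) :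
    ∃ R0 : ℕ, 1 ≤ R0 ∧ ∀ R n : ℕ, R0 ≤ R → (R : ℝ) ^ a0 ≤ n → (n : ℝ) ≤ (R : ℝ) ^ (1 - e) →
    ∃ N ρ : ℕ, 400 ≤ n ∧ L * n ≤ N ∧ N ≤ R ∧ (N : ℝ) ≤ 2 * ((L * n : ℕ) : ℝ) ^ (1 + g4) ∧
      L * n ≤ ρ ∧ 4 * ρ ≤ N ∧ ((L * n : ℕ) : ℝ) / ρ ≤ 8 * (R : ℝ) ^ (-(a0 * x)) ∧
      ∀ ρ0 : ℕ, ρ0 ≤ L * n → (N : ℝ) + ρ0 + 1 < θ * R ∧ (N : ℝ) + CT * ρ0 ≤ θ * R := by
  obtain ⟨R1, κ0, h2⟩ := meso_num2 (x := x) (e := e / 2) (θ := θ) (Cd := CT) (A := 1) hx0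
    (by linarith) (by linarith) hθ hCT le_rfl
  obtain ⟨R2, hR2⟩ := pow_lt_ev (a := 1 - e) (b := 1 - e / 2) (by linarith) (L : ℝ)
  obtain ⟨R3, hR3⟩ := ge_of_pow ha0 (max 400 κ0)
  refine ⟨max 1 (max R1 (max R2 R3)), le_max_left _ _, ?_⟩
  intro R n hR hn hnR
  have hR1 : 1 ≤ R := (le_max_left _ _).trans hR
  have hm := (le_max_right _ _).trans hR
  have t1 : R1 ≤ R := (le_max_left _ _).trans hm
  have t2 := hR2 R (((le_max_left _ _).trans (le_max_right _ _)).trans hm)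
  have t3 := hR3 R n (((le_max_right _ _).trans (le_max_right _ _)).trans hm) hn
  have hn400 : 400 ≤ n := (le_max_left _ _).trans t3
  have hnκ : κ0 ≤ n := (le_max_right _ _).trans t3
  have hRr : (1 : ℝ) ≤ R := by exact_mod_cast hR1
  have hnr : (1 : ℝ) ≤ n := by exact_mod_cast (by omega : 1 ≤ n)
  have hnL : n ≤ L * n := Nat.le_mul_of_pos_left n hL
  obtain ⟨m, hmn⟩ : ∃ m : ℕ, m = L * n := ⟨_, rfl⟩
  rw [← hmn] at hnL ⊢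
  have hm1 : 1 ≤ m := by omega
  have hmr : (1 : ℝ) ≤ m := by exact_mod_cast hm1
  have hm0 : (0 : ℝ) < m := by linarith
  have hnm : (n : ℝ) ≤ m := by exact_mod_cast hnL
  have hmR : (m : ℝ) ≤ (R : ℝ) ^ (1 - e / 2) := by
    rw [hmn]
    push_cast
    exact (mul_le_mul_of_nonneg_left hnR (by positivity)).trans t2
  have p1 : (1 : ℝ) ≤ (m : ℝ) ^ (1 + x) := Real.one_le_rpow hmr (by linarith)
  have hNl : (m : ℝ) ^ (1 + x) ≤ (⌈(m : ℝ) ^ (1 + x)⌉₊ : ℝ) := Nat.le_ceil _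
  have hNu : (⌈(m : ℝ) ^ (1 + x)⌉₊ : ℝ) ≤ 2 * (m : ℝ) ^ (1 + x) := by
    have := Nat.ceil_lt_add_one (a := (m : ℝ) ^ (1 + x)) (by positivity)
    linarith
  have h3 := fun ρ0 (hρ0 : ρ0 ≤ m) => h2 R m ⌈(m : ℝ) ^ (1 + x)⌉₊ ρ0 (⌈(m : ℝ) ^ (1 + x)⌉₊ / 4)
    t1 hR1 (by omega) hm1 hmR hNl hNu hρ0 rfl
  obtain ⟨-, -, k3, k4, k5, k6⟩ := h3 0 (Nat.zero_le _)
  rw [one_mul] at k4 k6
  refine ⟨⌈(m : ℝ) ^ (1 + x)⌉₊, ⌈(m : ℝ) ^ (1 + x)⌉₊ / 4, hn400, by omega, k3, ?_, k4, k5, ?_,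
    fun ρ0 hρ0 => ⟨(h3 ρ0 hρ0).1, (h3 ρ0 hρ0).2.1⟩⟩
  · refine hNu.trans (mul_le_mul_of_nonneg_left ?_ (by norm_num))
    exact Real.rpow_le_rpow_of_exponent_le hmr (by linarith)
  · have k7 : (m : ℝ) ^ (-x) ≤ (R : ℝ) ^ (-(a0 * x)) :=
      kap_neg hRr (hn.trans hnm) hx0.le le_rfl
    push_cast at k6
    have k8 : (m : ℝ) / (⌈(m : ℝ) ^ (1 + x)⌉₊ / 4 : ℕ) ≤ 8 * (m : ℝ) ^ (-x) := by
      have : 2 * (m : ℝ) / (⌈(m : ℝ) ^ (1 + x)⌉₊ / 4 : ℕ) =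
          2 * ((m : ℝ) / (⌈(m : ℝ) ^ (1 + x)⌉₊ / 4 : ℕ)) := by ring
      rw [this] at k6
      linarith
    exact k8.trans (mul_le_mul_of_nonneg_left k7 (by norm_num))

/-- power of the ratio -/
theorem far_pow {R f γf y : ℝ} (hR : 1 ≤ R) (hγf : 0 < γf) (hf0 : 0 ≤ f) (hf1 : f ≤ 1)
    (hf : f ≤ 8 * R ^ (-y)) : f ^ γf ≤ 8 * R ^ (-(y * min γf 1)) := by
  have hR0 : 0 < R := by linarith
  have h1 : 0 < min γf 1 := lt_min hγf one_pos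
  have h2 : f ^ γf ≤ f ^ (min γf 1) := by
    rcases hf0.eq_or_lt with h | h
    · rw [← h, Real.zero_rpow hγf.ne', Real.zero_rpow h1.ne']
    · exact Real.rpow_le_rpow_of_exponent_ge h hf1 (min_le_left _ _)
  calc f ^ γf ≤ f ^ (min γf 1) := h2
    _ ≤ (8 * R ^ (-y)) ^ (min γf 1) := Real.rpow_le_rpow hf0 hf h1.le
    _ = 8 ^ (min γf 1) * R ^ (-(y * min γf 1)) := by
        rw [Real.mul_rpow (by norm_num) (by positivity), ← Real.rpow_mul hR0.le]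
        congr 2
        ring
    _ ≤ _ := by
        refine mul_le_mul_of_nonneg_right ?_ (by positivity)
        conv_rhs => rw [← Real.rpow_one (8 : ℝ)]
        exact Real.rpow_le_rpow_of_exponent_le (by norm_num) (min_le_right _ _)

/-- the line is far from the centre -/
theorem line_far {q x : Pt} {xS : ℤ} {r R : ℕ} {c : ℝ} (hcr : c * R ≤ r)
    (hq : (16 * r : ℤ) ≤ |q.1 - xS|) (hx : dn q x ≤ 2 * r) :
    14 * c * R ≤ ((|x.1 - xS| : ℤ) : ℝ) := by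
  have h3 := (G45.dn_le_iff.1 hx).1
  have h4 : (14 * r : ℤ) ≤ |x.1 - xS| := by
    have h5 := abs_sub_le q.1 x.1 xS
    have h6 : |q.1 - x.1| ≤ (2 * r : ℤ) := by rw [abs_le]; constructor <;> omega
    omega
  have h4' : (14 * r : ℝ) ≤ ((|x.1 - xS| : ℤ) : ℝ) := by exact_mod_cast h4
  linarith

open Classical in
/-- the far part and the polygon part, pointwise -/
theorem mes_far : ∃ γf : ℝ, 0 < γf ∧ ∃ Cf : ℝ, 0 < Cf ∧ ∀ (T : Temp) (xS : ℤ) (τ : Stop T.V xS)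
    (ω : Conf), ω ∈ DD T.V → ∀ (x : Conf → Pt) (p : Pt) (n L s ρ N ρ0 : ℕ) (t y CT R : ℝ),
    1 ≤ R → p ∉ OE T (τ.E ω) → 5 ≤ n → 1 ≤ L → dn p (x ω) + n ≤ L * n → L * n ≤ ρ → 4 * ρ ≤ N →
    8 ≤ s → s ≤ ρ → (N : ℝ) + ρ0 + 1 < t → (N : ℝ) + CT * ρ0 ≤ t →
    t ≤ dF T.faceSet (x ω) → t ≤ ((|(x ω).1 - xS| : ℤ) : ℝ) →
    ((L * n : ℕ) : ℝ) / ρ ≤ 8 * R ^ (-y) →
    farL τ (fun ω => S743.bump n (x ω)) s N (x ω) ρ0 ω +
      zoneS τ (fun ω => S743.bump n (x ω)) s N (x ω) (CT * ρ0) ω ≤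
      Cf * (L : ℝ) ^ 2 * (8 * R ^ (-(y * min γf 1))) := by
  obtain ⟨γf, hγf, Cf, hCf, hfar⟩ := NT34.far_bump
  refine ⟨γf, hγf, Cf, hCf, ?_⟩
  intro T xS τ ω hω x p n L s ρ N ρ0 t y CT R hR hp hn hL hpx hLρ hρN hs hsρ h1 h2 h3 h4 h5
  have hρ0 : (0 : ℝ) < ρ := by
    have : 0 < ρ := by omega
    exact_mod_cast this
  have hf1 : ((L * n : ℕ) : ℝ) / ρ ≤ 1 := by
    rw [div_le_one hρ0]
    exact_mod_cast hLρ
  have hnL : n ≤ L * n := Nat.le_mul_of_pos_left n hL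
  have e1 : farL τ (fun ω => S743.bump n (x ω)) s N (x ω) ρ0 ω ≤
      Cf * (L : ℝ) ^ 2 * (8 * R ^ (-(y * min γf 1))) := by
    refine (hfar T xS τ ω hω x p (x ω) n L s ρ hp hn hL hpx hLρ hs hsρ
      (by rw [H904.dn_self]; omega) _ ?_).trans
      (mul_le_mul_of_nonneg_left (far_pow hR hγf (by positivity) hf1 h5) (by positivity))
    intro z hz
    rcases (mem_filter.1 hz).2 with h6 | h6
    · rw [mem_box_dn905] at h6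
      omega
    · by_contra hc
      have h7 : z ∈ box (x ω) N := by
        rw [mem_box_dn905]; omega
      have := line_of h7 h1 h4
      omega
  have e2 : zoneS τ (fun ω => S743.bump n (x ω)) s N (x ω) (CT * ρ0) ω = 0 := by
    unfold zoneS
    apply sum_eq_zero
    intro z hz
    rw [mem_filter] at hz
    exact absurd (zone_of hz.1 h2 h3) (not_le.2 hz.2.1)
  rw [e2, add_zero]
  exact e1

open Classical in
/-- the unexplored loops at both times -/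
theorem mes_uns {a0 : ℝ} (ha0 : 0 < a0) : ∃ am > (0 : ℝ), ∀ e : ℝ, 0 < e → e ≤ 1 → ∃ c > (0 : ℝ),
    ∀ (K : ℕ) (t : ℝ), 17 ≤ K → 0 < t → ∃ C : ℝ, 0 ≤ C ∧ ∃ R0 : ℕ, 1 ≤ R0 ∧
    ∀ (R : ℕ) (T : Temp), R0 ≤ R → Skel.Fits T R → ∀ n s : ℕ, (R : ℝ) ^ a0 ≤ n →
    (n : ℝ) ≤ (R : ℝ) ^ (1 - e) → 5 ≤ n → 8 ≤ s → (s : ℝ) ≤ (R : ℝ) ^ am →
    ∀ (xS : ℤ) (q : Pt) (r k : ℕ) (S : Conf → Prop) (x : Conf → Pt)
      (hx : At (tE T.V xS q r k) x), 1 ≤ r → (16 * r : ℤ) ≤ |q.1 - xS| →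
    (∀ ω ∈ DD T.V, S ω → (tE T.V xS q r k).N ω < Tm.M T.V xS ω ∧ t * R ≤ dF T.faceSet (x ω) ∧
      t * R ≤ ((|(x ω).1 - xS| : ℤ) : ℝ) ∧
      (K + 1) * n ≤ dF (OE T ((tE T.V xS q r k).toStop.E ω)) (x ω) ∧
      dF (OE T ((tE T.V xS q r k).toStop.E ω)) (x ω) ≤ 5 * (K + 1) * n) →
    Ex T.V (fun ω => if S ω then
      NT905.UnS (tE T.V xS q r k).toStop (fun ω => S743.bump n (x ω)) s ω +
      NT905.UnS (tV hx (3 * n)).toStop (fun ω => S743.bump n (x ω)) s ω else 0) ≤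
      C * (R : ℝ) ^ (-c) := by
  obtain ⟨am, ham, h⟩ := unx_meso a0 ha0
  refine ⟨am, ham, ?_⟩
  intro e he0 he1
  obtain ⟨c, hc, h⟩ := h e he0 he1
  refine ⟨c, hc, ?_⟩
  intro K t hK ht
  obtain ⟨C, hC, R0, hR0, h⟩ := h (2000000 * (((5 * (K + 1) + 1 : ℕ) : ℝ) + 1) ^ 3) t
    (5 * (K + 1) + 1) (by positivity) ht (by omega)
  refine ⟨2 * C, by positivity, R0, hR0, ?_⟩
  intro R T hR hfit n s hn hnR hn5 hs8 hs xS q r k S x hx hr hq hD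
  have hKn : (K + 1) * n = K * n + n := by ring
  have hK17 : 17 * n ≤ K * n := Nat.mul_le_mul_right _ hK
  have hL5 : (5 * (K + 1) + 1) * n = 5 * (K + 1) * n + n := by ring
  choose p hp1 hp2 using fun ω : Conf => G45.exists_dF
    (exists_notMem (oe_finite T ((tE T.V xS q r k).toStop.E ω))) (x ω)
  have key : ∀ τ : Stop T.V xS, (∀ ω ∈ DD T.V, S ω → τ.New ω ∧
      OE T (τ.E ω) ⊆ OE T ((tE T.V xS q r k).toStop.E ω) ∧
      ∀ y, S743.bump n (x ω) y ≠ 0 → n ≤ dF (OE T (τ.E ω)) y) →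
      Ex T.V (fun ω => if S ω then NT905.UnS τ (fun ω => S743.bump n (x ω)) s ω else 0) ≤
        C * (R : ℝ) ^ (-c) := by
    intro τ hτ
    refine h R T hR hfit n s hn hnR hs8 hs xS τ S x (fun ω => S743.bump n (x ω)) ?_
    intro ω hω hSω
    obtain ⟨g1, g2, g3, g4, g5⟩ := hD ω hω hSω
    obtain ⟨f1, f2, f3⟩ := hτ ω hω hSω
    refine ⟨f1, g2, g3, ⟨p ω, fun h => hp1 ω (f2 h), ?_, ?_⟩, ?_⟩
    · rw [hp2]
      omega
    · intro y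
      refine bump_dens2 hn5 ?_ y
      rw [H904.dn_comm, hp2]
      omega
    · intro y hy
      have h6 := mem_box_dn905.1 (S743.bump_supp hn5 hy)
      exact ⟨f3 y hy, by omega⟩
  have u1 := key (tE T.V xS q r k).toStop (fun ω hω hSω => ⟨tE_new hω hr hq (hD ω hω hSω).1,
    subset_rfl, fun y hy => by
      obtain ⟨g1, g2, g3, g4, g5⟩ := hD ω hω hSω
      have h6 := mem_box_dn905.1 (S743.bump_supp hn5 hy)
      have h7 := NT34.dF_lip (oe_finite T ((tE T.V xS q r k).toStop.E ω)) (x ω) y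
      omega⟩)
  have u2 := key (tV hx (3 * n)).toStop (fun ω hω hSω => by
    obtain ⟨g1, g2, g3, g4, g5⟩ := hD ω hω hSω
    refine ⟨(tV_facts hω hr hq g1).2.1, NT802.OE_anti (Tm.En_mono tE_le_tV), fun y hy => ?_⟩
    have h6 := mem_box_dn905.1 (S743.bump_supp hn5 hy)
    exact tV_dF (hx := hx) hω hr hq g1 (by omega) (by omega))
  rw [Ex_dom_add]
  linarith

end Vale.Agent.P155.NT613
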