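import Vale.Agent.P155.E4.Bump

/-!
# P155, block NT-B4: mass of the layer function of a subdomain in Whitney boxes of the domain

`P` is the big domain (the faces of the polygon), `O ⊆ P` the unexplored part, `U` the Green
potential in `P` of the density. The mass of the layer function of `O` in the box of radius `r`
around `z` is at most a constant times `U z`, if the box is far from the complement of `P`.
-/

namespace Vale.Agent.P155.NT613

open Finset Vale.Agent.P155 Vale.Agent.P155.G45 Vale.Agent.P155.J Vale.Agent.P155.H12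
open Vale.Agent.P155.E4

/-- Lower bound for the time spent in a box. -/
theorem box_green {P : Set Pt} {z y : Pt} {r : ℕ} {G : Pt → ℝ} (hP : P.Finite) (hr1 : 1 ≤ r)
    (hr : 3 * r ≤ dF P z)
    (hG : IsGreen P (fun y => if dn z y ≤ 2 * r then 1 else 0) G) (hy : dn z y ≤ r) :
    (r : ℝ) ^ 2 / 4 ≤ G y := by
  have hG0 : ∀ x, 0 ≤ G x := green_nonneg hP hG (fun x _ => by
    show (0 : ℝ) ≤ if dn z x ≤ 2 * r then 1 else 0
    split_ifs <;> norm_num)
  have hfin : ({x : Pt | dn y x < r}).Finite := by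
    apply (box y r).finite_toSet.subset
    intro x hx
    exact G45.mem_box.2 (le_of_lt hx)
  have h := comparison hfin (u := fun x => (r : ℝ) ^ 2 / 4 + (-1 / 4) * sqd y x) (v := G) ?_ ?_ y
  · simp only [sqd_self, mul_zero, add_zero] at h
    exact h
  · intro x hx
    rw [lap_add, lap_const, lap_smul, lap_sqd]
    have h1 : dn y x < r := hx
    have h2 := dn_tri z y x
    have h3 := hG.eq x (mem_of_lt_dF (x := z) (by omega))
    rw [if_pos (by omega : dn z x ≤ 2 * r)] at h3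
    linarith
  · intro x hx
    refine le_trans ?_ (hG0 x)
    have h1 : r ≤ dn y x := not_lt.1 hx
    have h2 : (r : ℝ) ≤ dn y x := by exact_mod_cast h1
    have h3 := le_sqd y x
    have h4 : (r : ℝ) ^ 2 ≤ (dn y x : ℝ) ^ 2 := by gcongr
    linarith

/-- monotonicity of the potential of the density in the domain -/
theorem ub_le {P O : Set Pt} {p : Pt} {n0 : ℕ} {C0 : ℝ} {ub U : Pt → ℝ} (hP : P.Finite)
    (hOP : O ⊆ P) (hC0 : 0 ≤ C0) (hub : IsGreen O (dens C0 p n0) ub)
    (hU : IsGreen P (dens C0 p n0) U) : ∀ x, ub x ≤ U x := by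
  have hU0 := green_nonneg hP hU (fun y _ => dens_nonneg hC0 p n0 y)
  exact green_le_super (hP.subset hOP) hub (fun x hx => (hU.eq x (hOP hx)).ge)
    (fun x _ => hU0 x)

/-- **The mass of the layer function of `O` in a Whitney box of `P`.** -/
theorem whit_mass : ∃ K : ℝ, 0 ≤ K ∧ ∀ (P O : Set Pt) (p z : Pt) (n0 s r : ℕ) (C0 Cc : ℝ)
    (χ φ u U : Pt → ℝ), P.Finite → CPr O → O ⊆ P → 1 ≤ n0 → 0 ≤ C0 →
    IsGreen P (dens C0 p n0) U → 1 ≤ s → 8 * s ≤ n0 → IsCut O s Cc χ →
    (∀ y, |φ y| ≤ dens C0 p n0 y) → IsGreen O φ u → s ≤ r → 7 * r ≤ dF P z →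
    64 * r ≤ n0 + dn p z → ∑ x ∈ box z r, |fL O φ χ u x| ≤ K * (Cc + 1) * U z := by
  classical
  obtain ⟨β, hβ, hSD, hOut⟩ := G1.decay
  obtain ⟨A, hA, hfl⟩ := fL_pt hβ (by norm_num) hSD
  obtain ⟨D, hD, hv⟩ := visits_local hβ (by norm_num) hSD
  obtain ⟨B, hB, hH⟩ := G45.harnack_one hβ (by norm_num) hSD
  refine ⟨A * (D * (400 * B) + 4), by positivity, ?_⟩
  intro P O p z n0 s r C0 Cc χ φ u U hP hCP hOP hn0 hC0 hU hs h8 hχ hφ hu hsr hr7 hr64
  have hO := hP.subset hOP
  have hr : 1 ≤ r := hs.trans hsr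
  have hrr : (1 : ℝ) ≤ r := by exact_mod_cast hr
  have hr0 : (0 : ℝ) < r := by linarith
  have hs0 : (0 : ℝ) < s := by exact_mod_cast hs
  have hU0 := green_nonneg hP hU (fun y _ => dens_nonneg hC0 p n0 y)
  obtain ⟨ub, hub⟩ := exists_green hO (dens C0 p n0)
  have hub0 := green_nonneg hO hub (fun y _ => dens_nonneg hC0 p n0 y)
  have hdom := abs_green_le hO hu hub (fun y _ => hφ y)
  have hCc := cut_C0_nonneg hχ
  set S := (box z r).filter (fun x => x ∈ O ∧ dF O x ≤ 2 * s) with hS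
  -- the layer function is supported on `S`
  have h1 : ∑ x ∈ box z r, |fL O φ χ u x| ≤
      ∑ x ∈ S, A * (Cc + 1) * (ub x / s ^ 2 + dens C0 p n0 x) := by
    rw [hS, Finset.sum_filter]
    apply Finset.sum_le_sum
    intro x _
    by_cases h0 : fL O φ χ u x = 0
    · rw [h0, abs_zero]
      have := hub0 x
      have := dens_nonneg hC0 p n0 x
      split_ifs
      · positivity
      · exact le_rfl
    · obtain ⟨k1, k2, k3⟩ := hfl O hO s Cc C0 χ φ u ub p n0 hs hn0 h8 hC0 hχ hu hφ hub hdom x h0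
      rw [if_pos ⟨k1, k2⟩]
      exact k3
  have h2 : ∑ x ∈ S, A * (Cc + 1) * (ub x / s ^ 2 + dens C0 p n0 x) =
      A * (Cc + 1) * ((∑ x ∈ S, ub x) / s ^ 2 + ∑ x ∈ S, dens C0 p n0 x) := by
    rw [← Finset.mul_sum, Finset.sum_add_distrib, Finset.sum_div]
  -- the density
  have hlow := low_ub hC0 hn0 hU hU0 hr7 hr64
  have h3 : ∑ x ∈ S, dens C0 p n0 x ≤ 4 * U z := by
    calc ∑ x ∈ S, dens C0 p n0 x ≤ ∑ x ∈ box z r, dens C0 p n0 x :=
          Finset.sum_le_sum_of_subset_of_nonneg (Finset.filter_subset _ _)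
            (fun x _ _ => dens_nonneg hC0 p n0 x)
      _ ≤ ∑ _x ∈ box z r, 2 * dens C0 p n0 z := by
          apply Finset.sum_le_sum
          intro x hx
          have hx' := G45.mem_box.1 hx
          exact (dens_doubling hC0 hn0 (by omega)).2
      _ = (2 * (r : ℝ) + 1) ^ 2 * (2 * dens C0 p n0 z) := by
          rw [Finset.sum_const, nsmul_eq_mul, G45.card_box]
          push_cast
          ring
      _ ≤ (3 * (r : ℝ)) ^ 2 * (2 * dens C0 p n0 z) := by
          apply mul_le_mul_of_nonneg_right _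
            (mul_nonneg (by norm_num) (dens_nonneg hC0 p n0 z))
          apply pow_le_pow_left₀ (by positivity)
          linarith
      _ = 18 * (dens C0 p n0 z * (r : ℝ) ^ 2) := by ring
      _ ≤ 18 * (2 / 9 * U z) := by linarith
      _ = 4 * U z := by ring
  -- the potential
  obtain ⟨G, hG⟩ := exists_green hP (fun y => if dn z y ≤ 2 * r then (1 : ℝ) else 0)
  have hG0 : ∀ x, 0 ≤ G x := green_nonneg hP hG (fun x _ => by
    show (0 : ℝ) ≤ if dn z x ≤ 2 * r then 1 else 0
    split_ifs <;> norm_num)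
  have h4 := hv O hO hCP s hs S (dens C0 p n0) ub (fun x => 4 / (r : ℝ) ^ 2 * G x)
    (fun x hx => (Finset.mem_filter.1 hx).2.2) hub (fun y _ => dens_nonneg hC0 p n0 y)
    (fun x => mul_nonneg (by positivity) (hG0 x))
    (fun x hx _ => by
      rw [lap_smul]
      have e1 := hG.eq x (hOP hx)
      have e2 : (0 : ℝ) ≤ if dn z x ≤ 2 * r then 1 else 0 := by split_ifs <;> norm_num
      have e3 : 0 ≤ 4 / (r : ℝ) ^ 2 := by positivity
      have e4 : lap G x ≤ 0 := by linarith
      exact mul_nonpos_of_nonneg_of_nonpos e3 e4)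
    (fun x hx => by
      have e1 := G45.mem_box.1 (Finset.mem_filter.1 hx).1
      have e2 := box_green hP hr (by omega) hG e1
      calc (1 : ℝ) = 4 / (r : ℝ) ^ 2 * ((r : ℝ) ^ 2 / 4) := by field_simp
        _ ≤ 4 / (r : ℝ) ^ 2 * G x := by
          apply mul_le_mul_of_nonneg_left e2 (by positivity))
  have h5 : ∑ x ∈ hO.toFinset, dens C0 p n0 x * (4 / (r : ℝ) ^ 2 * G x) ≤
      4 / (r : ℝ) ^ 2 * (100 * (r : ℝ) ^ 2 * (B * U z)) := by
    calc ∑ x ∈ hO.toFinset, dens C0 p n0 x * (4 / (r : ℝ) ^ 2 * G x)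
        ≤ ∑ x ∈ hP.toFinset, dens C0 p n0 x * (4 / (r : ℝ) ^ 2 * G x) := by
          apply Finset.sum_le_sum_of_subset_of_nonneg
          · intro x hx
            simp only [Set.Finite.mem_toFinset] at hx ⊢
            exact hOP hx
          · intro x _ _
            exact mul_nonneg (dens_nonneg hC0 p n0 x) (mul_nonneg (by positivity) (hG0 x))
      _ = 4 / (r : ℝ) ^ 2 * ∑ x ∈ hP.toFinset, dens C0 p n0 x * G x := by
          rw [Finset.mul_sum]
          apply Finset.sum_congr rfl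
          intro x _
          ring
      _ = 4 / (r : ℝ) ^ 2 * ∑ x ∈ hP.toFinset, U x * (if dn z x ≤ 2 * r then 1 else 0) := by
          rw [green_symm' hP hU hG]
      _ ≤ 4 / (r : ℝ) ^ 2 * ∑ _x ∈ box z (2 * r), 4 * B * U z := by
          apply mul_le_mul_of_nonneg_left _ (by positivity)
          have e : ∑ x ∈ hP.toFinset, U x * (if dn z x ≤ 2 * r then (1 : ℝ) else 0) =
              ∑ x ∈ hP.toFinset.filter (fun x => dn z x ≤ 2 * r), U x := by
            rw [Finset.sum_filter]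
            apply Finset.sum_congr rfl
            intro x _
            by_cases h : dn z x ≤ 2 * r <;> simp [h]
          rw [e]
          calc ∑ x ∈ hP.toFinset.filter (fun x => dn z x ≤ 2 * r), U x
              ≤ ∑ x ∈ box z (2 * r), U x := by
                apply Finset.sum_le_sum_of_subset_of_nonneg
                · intro x hx
                  exact G45.mem_box.2 (Finset.mem_filter.1 hx).2
                · intro x _ _
                  exact hU0 x
            _ ≤ _ := by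
                apply Finset.sum_le_sum
                intro x hx
                have e1 := G45.mem_box.1 hx
                exact har_ub hB hH hC0 hn0 hU hU0 hr7 hr64 (by omega)
                  (by rw [dn_self]; omega)
      _ = 4 / (r : ℝ) ^ 2 * ((2 * (2 * (r : ℝ)) + 1) ^ 2 * (4 * B * U z)) := by
          rw [Finset.sum_const, nsmul_eq_mul, G45.card_box]
          push_cast
          ring
      _ ≤ 4 / (r : ℝ) ^ 2 * ((5 * (r : ℝ)) ^ 2 * (4 * B * U z)) := by
          have hBU : 0 ≤ 4 * B * U z := by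
            have := hU0 z
            positivity
          apply mul_le_mul_of_nonneg_left _ (by positivity)
          apply mul_le_mul_of_nonneg_right _ hBU
          apply pow_le_pow_left₀ (by positivity)
          linarith
      _ = _ := by ring
  have h6 : (∑ x ∈ S, ub x) / (s : ℝ) ^ 2 ≤ D * (400 * B) * U z := by
    rw [div_le_iff₀ (by positivity)]
    refine h4.trans ?_
    calc D * (s : ℝ) ^ 2 * ∑ x ∈ hO.toFinset, dens C0 p n0 x * (4 / (r : ℝ) ^ 2 * G x)
        ≤ D * (s : ℝ) ^ 2 * (4 / (r : ℝ) ^ 2 * (100 * (r : ℝ) ^ 2 * (B * U z))) :=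
          mul_le_mul_of_nonneg_left h5 (by positivity)
      _ = _ := by field_simp; ring
  calc ∑ x ∈ box z r, |fL O φ χ u x|
      ≤ A * (Cc + 1) * ((∑ x ∈ S, ub x) / s ^ 2 + ∑ x ∈ S, dens C0 p n0 x) := by
        rw [← h2]; exact h1
    _ ≤ A * (Cc + 1) * (D * (400 * B) * U z + 4 * U z) := by
        apply mul_le_mul_of_nonneg_left _ (by positivity)
        linarith
    _ = _ := by ring

/-- The pointwise bound of the layer function by the potential in `P`. -/
theorem pt_mass : ∃ K : ℝ, 0 ≤ K ∧ ∀ (P O : Set Pt) (p : Pt) (n0 s : ℕ) (C0 Cc : ℝ)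
    (χ φ u U : Pt → ℝ), P.Finite → O ⊆ P → 1 ≤ n0 → 0 ≤ C0 →
    IsGreen P (dens C0 p n0) U → 1 ≤ s → 8 * s ≤ n0 → IsCut O s Cc χ →
    (∀ y, |φ y| ≤ dens C0 p n0 y) → IsGreen O φ u →
    ∀ x, |fL O φ χ u x| ≤ K * (Cc + 1) * (U x + dens C0 p n0 x) := by
  obtain ⟨β, hβ, hSD, hOut⟩ := G1.decay
  obtain ⟨A, hA, hfl⟩ := fL_pt hβ (by norm_num) hSD
  refine ⟨A, by linarith, ?_⟩
  intro P O p n0 s C0 Cc χ φ u U hP hOP hn0 hC0 hU hs h8 hχ hφ hu x
  have hO := hP.subset hOP
  have hs1 : (1 : ℝ) ≤ s := by exact_mod_cast hs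
  have hU0 := green_nonneg hP hU (fun y _ => dens_nonneg hC0 p n0 y)
  have hd0 := dens_nonneg hC0 p n0 x
  have hCc := cut_C0_nonneg hχ
  obtain ⟨ub, hub⟩ := exists_green hO (dens C0 p n0)
  have hub0 := green_nonneg hO hub (fun y _ => dens_nonneg hC0 p n0 y)
  have hdom := abs_green_le hO hu hub (fun y _ => hφ y)
  by_cases h0 : fL O φ χ u x = 0
  · rw [h0, abs_zero]
    have := hU0 x
    have hA0 : 0 ≤ A := by linarith
    positivity
  · obtain ⟨k1, k2, k3⟩ := hfl O hO s Cc C0 χ φ u ub p n0 hs hn0 h8 hC0 hχ hu hφ hub hdom x h0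
    refine k3.trans ?_
    apply mul_le_mul_of_nonneg_left _ (by positivity)
    have h1 := ub_le hP hOP hC0 hub hU x
    have h2 : ub x / (s : ℝ) ^ 2 ≤ ub x := div_le_self (hub0 x) (one_le_pow₀ hs1)
    linarith

/-- The sum of the potential over a zone. -/
theorem zone_sum : ∃ K : ℝ, 0 ≤ K ∧ ∀ (P : Set Pt) (p : Pt) (n0 r : ℕ) (C0 : ℝ) (U : Pt → ℝ),
    P.Finite → CPr P → 1 ≤ n0 → 0 ≤ C0 → IsGreen P (dens C0 p n0) U → 1 ≤ r →
    ∀ S : Finset Pt, (∀ x ∈ S, dF P x ≤ 2 * r) → ∑ x ∈ S, U x ≤ K * C0 * (r : ℝ) ^ 2 := by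
  obtain ⟨β, hβ, hSD, hOut⟩ := G1.decay
  obtain ⟨D, hD, hv⟩ := visits hβ (by norm_num) hSD
  refine ⟨D * 128, by positivity, ?_⟩
  intro P p n0 r C0 U hP hCP hn0 hC0 hU hr S hS
  refine (hv P hP hCP r hr S (dens C0 p n0) U hS hU (fun y _ => dens_nonneg hC0 p n0 y)).trans ?_
  calc D * (r : ℝ) ^ 2 * ∑ x ∈ hP.toFinset, dens C0 p n0 x ≤ D * (r : ℝ) ^ 2 * (128 * C0) :=
        mul_le_mul_of_nonneg_left (dens_mass hC0 p hn0 _) (by positivity)
    _ = _ := by ring

open Classical in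
/-- Averaging over boxes of radius `r`. -/
theorem avg_box {S Z : Finset Pt} {r : ℕ} {a B : Pt → ℝ} (hZ : ∀ x ∈ S, box x r ⊆ Z)
    (hB : ∀ z ∈ Z, ∑ x ∈ S.filter (fun x => dn z x ≤ r), a x ≤ B z) :
    (∑ x ∈ S, a x) * (2 * (r : ℝ) + 1) ^ 2 ≤ ∑ z ∈ Z, B z := by
  have h1 : (∑ x ∈ S, a x) * (2 * (r : ℝ) + 1) ^ 2 =
      ∑ x ∈ S, ∑ z ∈ Z, if dn z x ≤ r then a x else 0 := by
    rw [Finset.sum_mul]
    apply Finset.sum_congr rfl
    intro x hx
    have h2 : (∑ z ∈ Z, if dn z x ≤ r then a x else 0) = ∑ _z ∈ box x r, a x := by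
      rw [← Finset.sum_filter]
      apply Finset.sum_congr _ (fun _ _ => rfl)
      ext z
      rw [Finset.mem_filter, G45.mem_box, dn_comm z x]
      constructor
      · exact fun h => h.2
      · exact fun h => ⟨hZ x hx (G45.mem_box.2 h), h⟩
    rw [h2, Finset.sum_const, nsmul_eq_mul, G45.card_box]
    push_cast
    ring
  rw [h1, Finset.sum_comm]
  apply Finset.sum_le_sum
  intro z hz
  rw [← Finset.sum_filter]
  exact hB z hz

end Vale.Agent.P155.NT613
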