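import Vale.Agent.P155.S743T.Rot
import Vale.Agent.P155.H12.Inputs
import Vale.Agent.P155.HT426.Wind

/-!
# P155, necessity of the outer condition, (C): loops of the collection and loops of the graph
-/

namespace Vale.Agent.P155.NT613

open Topology Filter MeasureTheory TopologicalSpace Vale.Agent.P155 Vale.Agent.P155.Q1

/-! ## distance of a loop to a point -/

/-- distance of a loop to a point -/
noncomputable def plNear (z : ℂ) (γ : PL) : ℝ := Metric.infDist z (Set.range γ.c)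

theorem plNear_le_dist (z : ℂ) (γ : PL) (s : S1) : plNear z γ ≤ dist z (γ.c s) :=
  Metric.infDist_le_dist_of_mem ⟨s, rfl⟩

theorem plNear_le (z : ℂ) (γ γ' : PL) : plNear z γ ≤ plNear z γ' + dist γ γ' := by
  refine le_of_forall_pos_le_add fun ε hε => ?_
  obtain ⟨φ, hφ⟩ := exists_lt (show ldist γ γ' < ldist γ γ' + ε / 2 by linarith)
  have hne : (Set.range γ'.c).Nonempty := Set.range_nonempty _
  obtain ⟨w, ⟨s, rfl⟩, hs⟩ := (Metric.infDist_lt_iff hne).1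
    (show plNear z γ' < plNear z γ' + ε / 2 by linarith)
  have h1 : dist (γ.c (φ.symm s)) (γ'.c (φ (φ.symm s))) ≤
      dist γ.c (γ'.c.comp (φ : C(S1, S1))) :=
    ContinuousMap.dist_apply_le_dist (f := γ.c) (g := γ'.c.comp (φ : C(S1, S1))) _
  rw [Homeomorph.apply_symm_apply] at h1
  have h2 := plNear_le_dist z γ (φ.symm s)
  have h3 := dist_triangle z (γ'.c s) (γ.c (φ.symm s))
  rw [dist_comm (γ'.c s)] at h3
  rw [dist_def]
  linarith

/-- distance of a loop to a point -/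
noncomputable def near (z : ℂ) : Loop → ℝ :=
  SeparationQuotient.lift (plNear z) (by
    intro γ γ' h
    have h0 : dist γ γ' = 0 := Metric.inseparable_iff.1 h
    have h1 := plNear_le z γ γ'
    have h2 := plNear_le z γ' γ
    rw [dist_comm γ' γ] at h2
    rw [h0] at h1 h2
    linarith)

@[simp] theorem near_mk (z : ℂ) (γ : PL) : near z (SeparationQuotient.mk γ) = plNear z γ := rfl

theorem near_nonneg (z : ℂ) (γ : Loop) : 0 ≤ near z γ := by
  obtain ⟨γ, rfl⟩ := SeparationQuotient.surjective_mk γ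
  exact Metric.infDist_nonneg

/-- `near z` is `1`-Lipschitz -/
theorem near_le (z : ℂ) (γ γ' : Loop) : near z γ ≤ near z γ' + dist γ γ' := by
  obtain ⟨γ, rfl⟩ := SeparationQuotient.surjective_mk γ
  obtain ⟨γ', rfl⟩ := SeparationQuotient.surjective_mk γ'
  rw [SeparationQuotient.dist_mk]
  exact plNear_le z γ γ'

theorem continuous_near (z : ℂ) : Continuous (near z) := by
  refine (LipschitzWith.of_le_add_mul 1 (f := near z) fun γ γ' => ?_).continuous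
  simpa using near_le z γ γ'

/-- the members of a limit collection are in `Ω` -/
theorem near_of_holes {Ω : Set ℂ} {G : ℕ → NonemptyCompacts ℂ} {Γ : LoopColl}
    (h : HoleLoops Ω G Γ) {z : ℂ} {r : ℝ} (hr : ∀ w ∈ Ω, r ≤ dist w z) {γ : Loop}
    (hγ : Γ.mult γ ≠ 0) : r ≤ near z γ := by
  rw [h.mult γ] at hγ
  obtain ⟨p, h1, h2, c, hc, rfl⟩ := Set.nonempty_of_ncard_ne_zero hγ
  have h3 := h.inside p.1 p.2 h1 h2
  rw [near_mk]
  unfold plNear
  rw [hc.2]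
  refine Metric.le_infDist ?_ |>.2 ?_
  · rw [← hc.2]
    exact Set.range_nonempty _
  · intro w hw
    rw [dist_comm]
    exact hr w (h3 hw)

/-! ## the vertices are on the curve -/

variable {V : Finset Pt} {ω : Conf} {δ : ℝ} {a : ℂ}

theorem pt_mem_range (hω : ω ∈ DD V) (δ : ℝ) (a : ℂ) {v u : Pt} (hv : ω.1 v ≠ ω.2 v)
    (hu : u ∈ comp ω v) : Q1.pt δ a u ∈ Set.range (lcurve δ a ω v).c := by
  have hN : 0 < (comp ω v).ncard := by
    have := TC.len_pos hω hv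
    rw [← TC.ncard_comp hω hv] at this
    exact this
  have hN' : (0 : ℝ) < (comp ω v).ncard := by exact_mod_cast hN
  have hu' := hu
  rw [TC.comp_eq hω hv] at hu'
  obtain ⟨i, hi, rfl⟩ := hu'
  refine ⟨(((i : ℝ) / (comp ω v).ncard : ℝ) : S1), ?_⟩
  have e1 : (lcurve δ a ω v).c ((((i : ℝ) / (comp ω v).ncard : ℝ)) : S1) =
      poly (cyc δ a ω v) ((comp ω v).ncard * ((i : ℝ) / (comp ω v).ncard)) :=
    polyLoop_coe (comp ω v).ncard (cyc δ a ω v) (cyc_periodic δ a ω v) _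
  rw [e1, mul_div_cancel₀ _ hN'.ne']
  have e2 : ((i : ℕ) : ℝ) = ((i : ℤ) : ℝ) := by push_cast; rfl
  rw [e2, poly_int]
  unfold cyc
  have h3 : (i : ℤ) % ((comp ω v).ncard : ℤ) = i := by
    apply Int.emod_eq_of_lt (by positivity)
    have h4 : i < TC.len ω v := hi
    rw [← TC.ncard_comp hω hv] at h4
    exact_mod_cast h4
  rw [h3, Int.toNat_natCast]

theorem dn_le_dist (hδ : 0 ≤ δ) (v w : Pt) :
    δ * dn v w ≤ dist (Q1.pt δ a v) (Q1.pt δ a w) := by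
  have h1 : Q1.pt δ a v - Q1.pt δ a w = (δ : ℂ) * (((v.1 - w.1 : ℤ) : ℂ) +
      ((v.2 - w.2 : ℤ) : ℂ) * Complex.I) := by
    unfold Q1.pt
    push_cast
    ring
  rw [dist_eq_norm, h1, norm_mul, Complex.norm_real, Real.norm_of_nonneg hδ]
  refine mul_le_mul_of_nonneg_left ?_ hδ
  have hre := Complex.abs_re_le_norm (((v.1 - w.1 : ℤ) : ℂ) + ((v.2 - w.2 : ℤ) : ℂ) * Complex.I)
  have him := Complex.abs_im_le_norm (((v.1 - w.1 : ℤ) : ℂ) + ((v.2 - w.2 : ℤ) : ℂ) * Complex.I)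
  have e1 : (((v.1 - w.1 : ℤ) : ℂ) + ((v.2 - w.2 : ℤ) : ℂ) * Complex.I).re =
      ((v.1 - w.1 : ℤ) : ℝ) := by simp
  have e2 : (((v.1 - w.1 : ℤ) : ℂ) + ((v.2 - w.2 : ℤ) : ℂ) * Complex.I).im =
      ((v.2 - w.2 : ℤ) : ℝ) := by simp
  rw [e1] at hre
  rw [e2] at him
  have h3 : (dn v w : ℤ) = max |v.1 - w.1| |v.2 - w.2| := by
    rw [G45.dn_eq, Int.abs_eq_natAbs, Int.abs_eq_natAbs]
    omega
  have h4 : (dn v w : ℝ) = max |((v.1 - w.1 : ℤ) : ℝ)| |((v.2 - w.2 : ℤ) : ℝ)| := by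
    have : ((dn v w : ℤ) : ℝ) = ((max |v.1 - w.1| |v.2 - w.2| : ℤ) : ℝ) := by rw [h3]
    push_cast at this ⊢
    exact this
  rw [h4]
  exact max_le hre him

theorem dist_le_dn (hδ : 0 ≤ δ) (v w : Pt) :
    dist (Q1.pt δ a v) (Q1.pt δ a w) ≤ 2 * (δ * dn v w) := by
  have h1 : Q1.pt δ a v - Q1.pt δ a w = (δ : ℂ) * (((v.1 - w.1 : ℤ) : ℂ) +
      ((v.2 - w.2 : ℤ) : ℂ) * Complex.I) := by
    unfold Q1.pt
    push_cast
    ring
  rw [dist_eq_norm, h1, norm_mul, Complex.norm_real, Real.norm_of_nonneg hδ]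
  have h2 : ‖((v.1 - w.1 : ℤ) : ℂ) + ((v.2 - w.2 : ℤ) : ℂ) * Complex.I‖ ≤
      |((v.1 - w.1 : ℤ) : ℝ)| + |((v.2 - w.2 : ℤ) : ℝ)| := by
    refine (norm_add_le _ _).trans ?_
    rw [norm_mul, Complex.norm_I, mul_one, Complex.norm_intCast, Complex.norm_intCast]
  have h3 : |v.1 - w.1| ≤ (dn v w : ℤ) ∧ |v.2 - w.2| ≤ (dn v w : ℤ) := by
    rw [G45.dn_eq, Int.abs_eq_natAbs, Int.abs_eq_natAbs]
    omega
  have h4 : |((v.1 - w.1 : ℤ) : ℝ)| ≤ (dn v w : ℝ) := by exact_mod_cast h3.1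
  have h5 : |((v.2 - w.2 : ℤ) : ℝ)| ≤ (dn v w : ℝ) := by exact_mod_cast h3.2
  calc _ ≤ δ * (|((v.1 - w.1 : ℤ) : ℝ)| + |((v.2 - w.2 : ℤ) : ℝ)|) :=
        mul_le_mul_of_nonneg_left h2 hδ
    _ ≤ δ * (dn v w + dn v w) := mul_le_mul_of_nonneg_left (add_le_add h4 h5) hδ
    _ = _ := by ring

/-- the diameter of a loop -/
theorem diam_ge (hω : ω ∈ DD V) (hδ : 0 ≤ δ) (a : ℂ) {L : Set Pt} (hL : L ∈ Loops ω) {v w : Pt}
    (hv : v ∈ L) (hw : w ∈ L) : δ * dn v w ≤ (loopOf δ a ω L).diam := by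
  obtain ⟨v0, h0, h1, h2⟩ := loopOf_eq hω hL δ a
  rw [h2, Loop.diam_mk]
  rw [← h1] at hv hw
  obtain ⟨s, hs⟩ := pt_mem_range hω δ a h0 hv
  obtain ⟨t, ht⟩ := pt_mem_range hω δ a h0 hw
  refine (dn_le_dist (a := a) hδ v w).trans ?_
  rw [← hs, ← ht]
  exact (lcurve δ a ω v0).dist_le_diam s t

/-- the distance of a loop to a point -/
theorem near_le_dn (hω : ω ∈ DD V) (δ : ℝ) (a : ℂ) {L : Set Pt} (hL : L ∈ Loops ω) {v : Pt}
    (hv : v ∈ L) (z : ℂ) : near z (loopOf δ a ω L) ≤ dist z (Q1.pt δ a v) := by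
  obtain ⟨v0, h0, h1, h2⟩ := loopOf_eq hω hL δ a
  rw [h2, near_mk]
  rw [← h1] at hv
  exact Metric.infDist_le_dist_of_mem (pt_mem_range hω δ a h0 hv)

/-! ## loops and boxes -/

/-- a loop which surrounds a part of the box meets the box -/
theorem cuts_near (hω : ω ∈ DD V) {L : Set Pt} (hL : L ∈ Loops ω) {x : Pt} {m : ℕ}
    (h1 : ∃ y ∈ box x m, surr ω L y) (h2 : ∃ y ∈ box x m, ¬ surr ω L y) :
    ∃ v ∈ L, v ∈ box x (m + 1) := by
  by_contra hno
  push Not at hno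
  obtain ⟨y, hy, hs⟩ := h1
  obtain ⟨y', hy', hs'⟩ := h2
  have e1 := H12.surr_const H12.l_step hω hL x m hno y hy
  have e2 := H12.surr_const H12.l_step hω hL x m hno y' hy'
  exact hs' (e2.1 (e1.2 hs))

/-- stepping out of a loop in a direction -/
theorem step_out (hω : ω ∈ DD V) {L : Set Pt} (hL : L ∈ Loops ω) (x : Pt) (ε : ℤ)
    (hε : ε = 1 ∨ ε = -1) (m : ℕ) (h : surr ω L (x.1 + ε * m, x.2)) :
    ∃ v ∈ L, (m : ℤ) ≤ ε * (v.1 - x.1) := by
  classical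
  have hex : ∃ i : ℕ, m < i ∧ ¬ surr ω L (x.1 + ε * i, x.2) := by
    by_contra hcon
    push Not at hcon
    have hfin := P155.L.intr_finite hω hL
    refine Set.infinite_of_injective_forall_mem (s := P155.L.intr ω L)
      (f := fun i : ℕ => ((x.1 + ε * ((m + 1 + i : ℕ) : ℤ), x.2) : Pt)) ?_ ?_ hfin
    · intro i j hij
      simp only [Prod.mk.injEq] at hij
      rcases hε with rfl | rfl <;> omega
    · intro i
      exact hcon (m + 1 + i) (by omega)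
  obtain ⟨h1, h2⟩ := Nat.find_spec hex
  set i := Nat.find hex with hi
  have h3 : surr ω L (x.1 + ε * (i - 1 : ℕ), x.2) := by
    by_cases h4 : m < i - 1
    · by_contra h5
      exact Nat.find_min hex (m := i - 1) (by omega) ⟨h4, h5⟩
    · have : i - 1 = m := by omega
      rw [this]
      exact h
  have hadj : Adj ((x.1 + ε * (i - 1 : ℕ), x.2) : Pt) (x.1 + ε * i, x.2) := by
    unfold Adj
    have : ((i - 1 : ℕ) : ℤ) = i - 1 := by omega
    rw [this]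
    rcases hε with rfl | rfl <;> simp
  obtain ⟨u, v, hu, -, -, -, hs1, hs2, -, -⟩ := P155.A1.L_step hω hL hadj h3 h2
  refine ⟨u, hu, ?_⟩
  obtain ⟨⟨a1, a2⟩, -⟩ := hs1
  obtain ⟨⟨b1, b2⟩, -⟩ := hs2
  simp only at a1 a2 b1 b2
  rcases hε with rfl | rfl <;> omega

/-- a loop which surrounds a box is large -/
theorem surr_wide (hω : ω ∈ DD V) {L : Set Pt} (hL : L ∈ Loops ω) {x : Pt} {m : ℕ}
    (h : ∀ y ∈ box x m, surr ω L y) : ∃ v ∈ L, ∃ w ∈ L, 2 * m ≤ dn v w := by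
  obtain ⟨v, hv, hvb⟩ := step_out hω hL x 1 (Or.inl rfl) m (h _ (by
    rw [H12.mem_box]; simp only; omega))
  obtain ⟨w, hw, hwb⟩ := step_out hω hL x (-1) (Or.inr rfl) m (h _ (by
    rw [H12.mem_box]; simp only; omega))
  refine ⟨v, hv, w, hw, ?_⟩
  rw [G45.dn_eq]
  omega

/-! ## sums over the collection -/

open Classical in
/-- a sum over the members of the collection is a sum over the loops -/
theorem finsum_LL (hω : ω ∈ DD V) (hδ : 0 < δ) (a : ℂ) (f : Loop → ℝ) :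
    ∑ᶠ y : (LL δ a ω).Inst, f y.1 = ∑ L ∈ HT.LF ω, f (loopOf δ a ω L) := by
  obtain ⟨e, he⟩ := exists_loops hω hδ a
  have h1 : ∑ᶠ y : (LL δ a ω).Inst, f y.1 =
      ∑ᶠ L : {L : Set Pt // L ∈ Loops ω}, f (loopOf δ a ω L.1) := by
    rw [← finsum_comp_equiv e (f := fun L : {L : Set Pt // L ∈ Loops ω} => f (loopOf δ a ω L.1))]
    exact finsum_congr fun y => by rw [he]
  rw [h1]
  have h2 : ∑ᶠ L : {L : Set Pt // L ∈ Loops ω}, f (loopOf δ a ω L.1) =
      ∑ᶠ (L : Set Pt) (_ : L ∈ Loops ω), f (loopOf δ a ω L) := by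
    exact finsum_subtype_eq_finsum_cond (f := fun L => f (loopOf δ a ω L)) (p := fun L => L ∈ Loops ω)
  have h3 : Loops ω = ((HT.LF ω : Finset (Set Pt)) : Set (Set Pt)) := by
    ext L
    rw [Finset.mem_coe, HT.mem_LF hω]
  rw [h2, ← finsum_mem_coe_finset, ← h3]

end Vale.Agent.P155.NT613
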