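import Vale.Agent.P155.U.P1
import Vale.Agent.P155.K.Bridge
import Vale.Agent.P155.K.LogCut2

/-!
# P155, block (R): radial bumps and their Green energies at hit and missed points
-/

namespace Vale.Agent.P155.NT613

open MeasureTheory Filter Topology Set
open scoped ContDiff

/-- the profile -/
noncomputable def eta (w : ℂ) : ℝ := Real.smoothTransition (2 - 4 * ‖w‖ ^ 2)

theorem eta_contDiff : ContDiff ℝ ((⊤ : ℕ∞) : WithTop ℕ∞) eta := by
  unfold eta
  exact Real.smoothTransition.contDiff.comp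
    (contDiff_const.sub (contDiff_const.mul (contDiff_norm_sq ℝ)))

theorem eta_nonneg (w : ℂ) : 0 ≤ eta w := Real.smoothTransition.nonneg _

theorem eta_le_one (w : ℂ) : eta w ≤ 1 := Real.smoothTransition.le_one _

theorem eta_zero {w : ℂ} (h : 3 / 4 ≤ ‖w‖) : eta w = 0 := by
  unfold eta
  apply Real.smoothTransition.zero_of_nonpos
  nlinarith [norm_nonneg w]

theorem eta_cpt : HasCompactSupport eta := by
  apply HasCompactSupport.intro (isCompact_closedBall (0 : ℂ) 1)
  intro w hw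
  apply eta_zero
  rw [mem_closedBall_zero_iff, not_le] at hw
  linarith

/-- its mass -/
noncomputable def em : ℝ := ∫ w, eta w

theorem em_pos : 0 < em := by
  unfold em
  apply eta_contDiff.continuous.integral_pos_of_hasCompactSupport_nonneg_nonzero eta_cpt
    eta_nonneg (x := 0)
  unfold eta
  rw [Real.smoothTransition.one_of_one_le (by norm_num)]
  norm_num

/-- the radial bump of mass one and radius `ε` at `z` -/
noncomputable def rb (z : ℂ) (ε : ℝ) (w : ℂ) : ℝ := (em * ε ^ 2)⁻¹ * eta (ε⁻¹ • (w - z))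

theorem rb_nonneg (z : ℂ) (ε : ℝ) (w : ℂ) : 0 ≤ rb z ε w := by
  unfold rb
  have := em_pos
  have := eta_nonneg (ε⁻¹ • (w - z))
  positivity

theorem rb_le (z : ℂ) (ε : ℝ) (w : ℂ) : rb z ε w ≤ em⁻¹ / ε ^ 2 := by
  unfold rb
  have h := em_pos
  have h1 := eta_le_one (ε⁻¹ • (w - z))
  have h2 : em⁻¹ / ε ^ 2 = (em * ε ^ 2)⁻¹ * 1 := by
    rw [mul_inv, mul_one, div_eq_mul_inv]
  rw [h2]
  exact mul_le_mul_of_nonneg_left h1 (by positivity)

theorem rb_zero {z : ℂ} {ε : ℝ} (hε : 0 < ε) {w : ℂ} (h : 3 / 4 * ε ≤ ‖w - z‖) :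
    rb z ε w = 0 := by
  unfold rb
  rw [eta_zero, mul_zero]
  rw [norm_smul, norm_inv, Real.norm_of_nonneg hε.le, inv_mul_eq_div, le_div_iff₀ hε]
  exact h

theorem rb_contDiff (z : ℂ) (ε : ℝ) : ContDiff ℝ ((⊤ : ℕ∞) : WithTop ℕ∞) (rb z ε) := by
  unfold rb
  exact contDiff_const.mul (eta_contDiff.comp
    ((contDiff_id.sub contDiff_const).const_smul _))

theorem rb_tsupport {z : ℂ} {ε : ℝ} (hε : 0 < ε) :
    tsupport (rb z ε) ⊆ Metric.closedBall z (3 / 4 * ε) := by
  refine closure_minimal ?_ Metric.isClosed_closedBall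
  intro w hw
  rw [mem_closedBall_iff_norm]
  by_contra hc
  exact hw (rb_zero hε (not_le.1 hc).le)

theorem rb_test {z : ℂ} {ε : ℝ} (hε : 0 < ε) : IsTest (Metric.ball z ε) (rb z ε) := by
  refine ⟨rb_contDiff z ε, ?_, ?_⟩
  · exact (isCompact_closedBall z (3 / 4 * ε)).of_isClosed_subset (isClosed_tsupport _)
      (rb_tsupport hε)
  · exact (rb_tsupport hε).trans (Metric.closedBall_subset_ball (by linarith))

theorem rb_test' {z : ℂ} {ε : ℝ} (hε : 0 < ε) {U : Set ℂ} (hU : Metric.closedBall z ε ⊆ U) :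
    IsTest U (rb z ε) :=
  ⟨(rb_test hε).1, (rb_test hε).2.1,
    (rb_test hε).2.2.trans (Metric.ball_subset_closedBall.trans hU)⟩

theorem rb_mass {z : ℂ} {ε : ℝ} (hε : 0 < ε) : ∫ w, rb z ε w = 1 := by
  unfold rb
  rw [integral_const_mul, integral_sub_right_eq_self (fun w => eta (ε⁻¹ • w)) z,
    Measure.integral_comp_inv_smul_of_nonneg volume eta hε.le, Complex.finrank_real_complex]
  have := em_pos
  change (em * ε ^ 2)⁻¹ * (ε ^ 2 • em) = 1
  rw [smul_eq_mul]
  field_simp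

theorem rb_radial (z : ℂ) (ε : ℝ) : ∃ ψ : ℝ → ℝ, ∀ w, rb z ε w = ψ ‖w - z‖ := by
  refine ⟨fun r => (em * ε ^ 2)⁻¹ * Real.smoothTransition (2 - 4 * (‖ε⁻¹‖ * r) ^ 2), fun w => ?_⟩
  unfold rb eta
  rw [norm_smul]

/-- **a hit point**: bounded Green energy -/
theorem green_hit {z : ℂ} {ε : ℝ} (hε : 0 < ε) (D : Set ℂ) {A : Set ℂ} (hA : IsPreconnected A)
    (hz : z ∈ A) (hfar : ∃ w ∈ A, 2 * ε ≤ dist w z) :
    greenEnergy (D \ A) (rb z ε) ≤ 160 * em⁻¹ ^ 2 := by
  have h := P155.U.green_near D hA ({()} : Finset Unit) (fun _ => z) (fun _ => 1)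
    (fun _ => rb z ε) (r := ε) (s := ε) (M := em⁻¹) (B := 1) hε le_rfl
    (fun _ _ => zero_le_one) (fun _ _ => (rb_contDiff z ε).continuous.aestronglyMeasurable)
    (fun _ _ w => by
      rw [abs_of_nonneg (rb_nonneg z ε w)]
      exact rb_le z ε w)
    (fun _ _ w hw => rb_zero hε (by
      rw [Metric.mem_ball, not_lt, dist_eq_norm] at hw
      linarith))
    (fun _ _ => ⟨z, hz, by rw [dist_self]; exact hε.le⟩)
    (fun _ _ => hfar)
    (fun x => by
      refine (Finset.sum_le_sum_of_subset_of_nonneg (Finset.filter_subset _ _)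
        fun _ _ _ => zero_le_one).trans ?_
      simp)
  rw [div_self hε.ne', Real.log_one] at h
  simpa using h

end Vale.Agent.P155.NT613
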