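import Vale.Agent.P155.NT613.YA
import Vale.Agent.P155.U.Sub

/-!
# P155, block (R): the Green energy of the radial bumps at a missed point tends to infinity
-/

namespace Vale.Agent.P155.NT613

open MeasureTheory Filter Topology Set
open Vale.Agent.P155.K
open scoped ContDiff

theorem gI_one_pos : 0 < gI 1 := by
  unfold gI
  apply intervalIntegral.intervalIntegral_pos_of_pos_on
    (bf_contDiff.continuous.intervalIntegrable _ _) _ zero_lt_one
  intro x hx
  apply bf.pos_of_mem_ball
  have h1 : bf.rOut = 1 / 2 := rfl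
  rw [Metric.mem_ball, h1, Real.dist_eq, abs_lt]
  constructor <;> linarith [hx.1, hx.2]

theorem bf_sq_le (t : ℝ) : (bf t) ^ 2 ≤ 1 := by
  have h0 : 0 ≤ bf t := bf.nonneg
  have h1 : bf t ≤ 1 := bf.le_one
  nlinarith

section
variable (z0 : ℂ) {t1 T r2 : ℝ} (hr2 : 0 < r2) (hT : 0 < T) (hcomp : t1 - Real.log r2 = T)
  {R2 : ℝ} (hR2 : 0 < R2) (ht1 : t1 = Real.log R2)

include hr2 hT hcomp hR2 ht1 in
/-- upper bound of the energy -/
theorem energy_le : ∫ z, gradSq (psi z0 t1 T r2) z ≤ 4 * Real.pi / T := by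
  set ρ := Real.sqrt R2 with hρ
  have hρ0 : 0 < ρ := Real.sqrt_pos.2 hR2
  set r := Real.sqrt r2 with hr
  have hr0 : 0 < r := Real.sqrt_pos.2 hr2
  have hrρ : r < ρ := Real.sqrt_lt_sqrt hr2.le (r2_lt_R2 hT hcomp hR2 ht1)
  obtain ⟨p1, p2⟩ := K1.polar z0 hr0 hrρ
  have h1 : ∫ z, gradSq (psi z0 t1 T r2) z ≤
      ∫ z : ℂ, 4 / T ^ 2 * Set.indicator {z : ℂ | r ≤ ‖z - z0‖ ∧ ‖z - z0‖ ≤ ρ}
      (fun z => (‖z - z0‖ ^ 2)⁻¹) z := by
    apply integral_mono_of_nonneg (Eventually.of_forall fun z => ?_) (p1.const_mul _)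
    · apply Eventually.of_forall
      intro z
      simp only
      rw [gradSq_psi_eq z0 hr2 hT hcomp]
      have hn := ns_nonneg z0 z
      by_cases hz : z ∈ {z : ℂ | r ≤ ‖z - z0‖ ∧ ‖z - z0‖ ≤ ρ}
      · rw [Set.indicator_of_mem hz, ← ns_eq]
        have h2 := bf_sq_le (tau z0 t1 T z)
        have h3 : 4 / T ^ 2 * bf (tau z0 t1 T z) ^ 2 ≤ 4 / T ^ 2 * 1 :=
          mul_le_mul_of_nonneg_left h2 (by positivity)
        rw [mul_one] at h3
        exact mul_le_mul_of_nonneg_right h3 (by positivity)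
      · rw [Set.indicator_of_notMem hz, mul_zero]
        have h4 : bf (tau z0 t1 T z) = 0 ∨ (ns z0 z)⁻¹ = 0 := by
          rcases eq_or_ne (ns z0 z) 0 with h | h
          · right
            rw [h, inv_zero]
          · left
            have hpos : 0 < ns z0 z := lt_of_le_of_ne hn (Ne.symm h)
            rcases lt_or_ge (ns z0 z) r2 with h5 | h5
            · exact bf_zero (Or.inr (tau_ge z0 hT hcomp hpos h5.le))
            · rcases lt_or_ge R2 (ns z0 z) with h6 | h6
              · apply bf_zero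
                left
                unfold tau
                have h7 := Real.log_le_log hR2 h6.le
                exact mul_nonpos_of_nonpos_of_nonneg (by linarith) (inv_nonneg.2 hT.le)
              · exfalso
                apply hz
                rw [ns_eq] at h5 h6
                exact ⟨Real.sqrt_le_iff.2 ⟨norm_nonneg _, h5⟩, Real.le_sqrt_of_sq_le h6⟩
        rcases h4 with h4 | h4 <;> rw [h4] <;> simp
    · simp only [Pi.zero_apply]
      rw [gradSq_psi_eq z0 hr2 hT hcomp]
      have := ns_nonneg z0 z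
      positivity
  refine h1.trans (le_of_eq ?_)
  rw [integral_const_mul, p2]
  have h2 : Real.log (ρ / r) = T / 2 := by
    rw [Real.log_div hρ0.ne' hr0.ne', hρ, hr, Real.log_sqrt hR2.le, Real.log_sqrt hr2.le, ← ht1]
    linarith
  rw [h2]
  field_simp

end

/-- **a missed point**: the Green energy of the bumps tends to infinity -/
theorem green_miss (z : ℂ) {ρ : ℝ} (hρ : 0 < ρ) (B : ℝ) : ∃ ε0 : ℝ, 0 < ε0 ∧
    ∀ ε : ℝ, 0 < ε → ε ≤ ε0 → ∀ U : Set ℂ, Bornology.IsBounded U → Metric.closedBall z ρ ⊆ U →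
      B ≤ greenEnergy U (rb z ε) := by
  have hc := gI_one_pos
  set lam : ℝ := (|B| + 1) / gI 1 with hlam
  have hlam0 : 0 < lam := by positivity
  set T : ℝ := 4 * Real.pi * lam ^ 2 with hTd
  have hT : 0 < T := by positivity
  set R2 := ρ ^ 2 with hR2
  have hR20 : 0 < R2 := by positivity
  set t1 := Real.log R2 with ht1
  set r2 := R2 * Real.exp (-T) with hr2
  have hr20 : 0 < r2 := by positivity
  have hcomp : t1 - Real.log r2 = T := by
    rw [hr2, Real.log_mul hR20.ne' (Real.exp_pos _).ne', Real.log_exp]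
    ring
  refine ⟨Real.sqrt r2, Real.sqrt_pos.2 hr20, fun ε hε hε0 U hbU hU => ?_⟩
  have hsR : Real.sqrt R2 = ρ := Real.sqrt_sq hρ.le
  have hv : IsTest U (fun w => lam * psi z t1 T r2 w) := by
    refine ⟨contDiff_const.mul (psi_contDiff z hr20 hT hcomp),
      (psi_cpt z hT hcomp hR20 rfl).mul_left, ?_⟩
    refine (closure_minimal ?_ Metric.isClosed_closedBall).trans hU
    intro w hw
    have h1 : psi z t1 T r2 w ≠ 0 := right_ne_zero_of_mul hw
    have h2 := psi_support z hT hcomp hR20 rfl (subset_tsupport _ h1)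
    rwa [hsR] at h2
  have hB : ∀ w, |rb z ε w| ≤ em⁻¹ / ε ^ 2 := fun w => by
    rw [abs_of_nonneg (rb_nonneg z ε w)]
    exact rb_le z ε w
  have key := P155.U.dval_le hbU (rb_contDiff z ε).continuous.aestronglyMeasurable hB hv
  have e1 : ∫ w, rb z ε w * (lam * psi z t1 T r2 w) = lam * gI 1 := by
    have : (fun w => rb z ε w * (lam * psi z t1 T r2 w)) =
        fun w => (lam * gI 1) * rb z ε w := by
      funext w
      by_cases hw : 3 / 4 * ε ≤ ‖w - z‖
      · rw [rb_zero hε hw, zero_mul, mul_zero]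
      · rw [not_le] at hw
        have h3 : ns z w < r2 := by
          rw [ns_eq]
          have h4 : ‖w - z‖ < Real.sqrt r2 := by linarith
          have h5 := Real.sq_sqrt hr20.le
          nlinarith [norm_nonneg (w - z)]
        have h6 : psi z t1 T r2 w = gI 1 := by
          unfold psi
          rw [if_pos h3]
        rw [h6]
        ring
    rw [this, integral_const_mul, rb_mass hε, mul_one]
  have e2 : ∫ w, ‖fderiv ℝ (fun w => lam * psi z t1 T r2 w) w‖ ^ 2 ≤ 1 := by
    have h1 : ∀ w, ‖fderiv ℝ (fun w => lam * psi z t1 T r2 w) w‖ ^ 2 =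
        lam ^ 2 * gradSq (psi z t1 T r2) w := by
      intro w
      have hd : DifferentiableAt ℝ (psi z t1 T r2) w :=
        (psi_contDiff z hr20 hT hcomp).differentiable (by simp) w
      have h2 : fderiv ℝ (fun w => lam * psi z t1 T r2 w) w =
          lam • fderiv ℝ (psi z t1 T r2) w := fderiv_const_mul hd lam
      rw [h2, norm_smul, mul_pow, Real.norm_eq_abs, sq_abs, gradSq_eq]
    simp_rw [h1]
    rw [integral_const_mul]
    have h2 := energy_le z hr20 hT hcomp hR20 rfl
    calc lam ^ 2 * ∫ w, gradSq (psi z t1 T r2) w ≤ lam ^ 2 * (4 * Real.pi / T) :=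
          mul_le_mul_of_nonneg_left h2 (sq_nonneg _)
      _ = 1 := by
        rw [hTd]
        have := Real.pi_pos
        field_simp
  rw [e1] at key
  have h7 : lam * gI 1 = |B| + 1 := by
    rw [hlam]
    field_simp
  have := le_abs_self B
  have := abs_nonneg B
  linarith

end Vale.Agent.P155.NT613
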