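import Vale.Agent.P155.NT924.YDef
import Vale.Agent.P155.NT613.YB

/-!
# P155, block (R): Green energies of bumps at hit (R4) and missed points
-/

namespace Vale.Agent.P155.NT613

open MeasureTheory Filter Topology Set
open Vale.Agent.P155.K
open scoped ContDiff

variable {C ε : ℝ} {z : ℂ} {φ : ℂ → ℝ}

theorem bmp_zero (h : YD.IsBmp C z ε φ) {w : ℂ} (hw : w ∉ Metric.closedBall z ε) : φ w = 0 := by
  by_contra hne
  exact hw (h.supp (subset_tsupport _ hne))

theorem bmp_test (h : YD.IsBmp C z ε φ) {U : Set ℂ} (hU : Metric.closedBall z ε ⊆ U) :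
    IsTest U φ :=
  ⟨h.smooth, (isCompact_closedBall z ε).of_isClosed_subset (isClosed_tsupport _) h.supp,
    h.supp.trans hU⟩

theorem bmp_abs (h : YD.IsBmp C z ε φ) : ∫ w, |φ w| ≤ 1 := by
  have : (fun w => |φ w|) = φ := by
    funext w
    exact abs_of_nonneg (h.nonneg w)
  rw [this, h.one]

/-- **a hit point**: bounded Green energy -/
theorem green_hit' (hε : 0 < ε) (h : YD.IsBmp C z ε φ) (D : Set ℂ) {A : Set ℂ}
    (hA : IsPreconnected A) (hz : z ∈ A) (hfar : ∃ w ∈ A, 4 * ε ≤ dist w z) :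
    greenEnergy (D \ A) φ ≤ 160 * (4 * C) ^ 2 := by
  have h := P155.U.green_near D hA ({()} : Finset Unit) (fun _ => z) (fun _ => 1)
    (fun _ => φ) (r := 2 * ε) (s := 2 * ε) (M := 4 * C) (B := 1) (by positivity) le_rfl
    (fun _ _ => zero_le_one) (fun _ _ => h.smooth.continuous.aestronglyMeasurable)
    (fun _ _ w => by
      rw [abs_of_nonneg (h.nonneg w)]
      have h1 := h.le w
      have h2 : 4 * C / (2 * ε) ^ 2 = C / ε ^ 2 := by
        rw [mul_pow]
        field_simp
        ring
      rw [h2]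
      exact h1)
    (fun _ _ w hw => bmp_zero h (by
      intro hw'
      apply hw
      rw [Metric.mem_ball]
      rw [Metric.mem_closedBall] at hw'
      linarith))
    (fun _ _ => ⟨z, hz, by rw [dist_self]; positivity⟩)
    (fun _ _ => by
      obtain ⟨w, hw, hw2⟩ := hfar
      exact ⟨w, hw, by linarith⟩)
    (fun x => by
      refine (Finset.sum_le_sum_of_subset_of_nonneg (Finset.filter_subset _ _)
        fun _ _ _ => zero_le_one).trans ?_
      simp)
  rw [div_self (by positivity), Real.log_one] at h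
  simpa using h

/-- **(R4)** -/
theorem r4 : YD.R4 := by
  intro C
  refine ⟨160 * (4 * C) ^ 2, ?_⟩
  intro O K z ε φ _ _ hKc hdis hz hε hfar hφ
  obtain ⟨w, hw, hw2⟩ := Set.not_subset.1 hfar
  have h := green_hit' hε hφ O hKc.isPreconnected hz
    ⟨w, hw, by rwa [Metric.mem_ball, not_lt] at hw2⟩
  rwa [hdis.sdiff_eq_left] at h

/-- **a missed point**: the Green energy of the bumps tends to infinity -/
theorem green_miss' (z : ℂ) {ρ : ℝ} (hρ : 0 < ρ) (B : ℝ) : ∃ ε0 : ℝ, 0 < ε0 ∧
    ∀ ε : ℝ, 0 < ε → ε < ε0 → ∀ (C : ℝ) (φ : ℂ → ℝ), YD.IsBmp C z ε φ →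
      ∀ U : Set ℂ, Bornology.IsBounded U → Metric.closedBall z ρ ⊆ U →
      B ≤ greenEnergy U φ := by
  have hc := gI_one_pos
  set lam : ℝ := (|B| + 1) / gI 1 with hlam
  have hlam0 : 0 < lam := by positivity
  set T : ℝ := 4 * Real.pi * lam ^ 2 with hTd
  have hT : 0 < T := by positivity
  set R2 := ρ ^ 2 with hR2
  have hR20 : 0 < R2 := by positivity
  set t1 := Real.log R2 with ht1
  set r2 := R2 * Real.exp (-T) with hr2
  have hr20 : 0 < r2 := by positivity
  have hcomp : t1 - Real.log r2 = T := by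
    rw [hr2, Real.log_mul hR20.ne' (Real.exp_pos _).ne', Real.log_exp]
    ring
  refine ⟨Real.sqrt r2, Real.sqrt_pos.2 hr20, fun ε hε hε0 C φ hφ U hbU hU => ?_⟩
  have hsR : Real.sqrt R2 = ρ := Real.sqrt_sq hρ.le
  have hv : IsTest U (fun w => lam * psi z t1 T r2 w) := by
    refine ⟨contDiff_const.mul (psi_contDiff z hr20 hT hcomp),
      (psi_cpt z hT hcomp hR20 rfl).mul_left, ?_⟩
    refine (closure_minimal ?_ Metric.isClosed_closedBall).trans hU
    intro w hw
    have h1 : psi z t1 T r2 w ≠ 0 := right_ne_zero_of_mul hw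
    have h2 := psi_support z hT hcomp hR20 rfl (subset_tsupport _ h1)
    rwa [hsR] at h2
  have hB : ∀ w, |φ w| ≤ C / ε ^ 2 := fun w => by
    rw [abs_of_nonneg (hφ.nonneg w)]
    exact hφ.le w
  have key := P155.U.dval_le hbU hφ.smooth.continuous.aestronglyMeasurable hB hv
  have e1 : ∫ w, φ w * (lam * psi z t1 T r2 w) = lam * gI 1 := by
    have : (fun w => φ w * (lam * psi z t1 T r2 w)) =
        fun w => (lam * gI 1) * φ w := by
      funext w
      by_cases hw : w ∈ Metric.closedBall z ε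
      · rw [mem_closedBall_iff_norm] at hw
        have h3 : ns z w < r2 := by
          rw [ns_eq]
          have h4 : ‖w - z‖ < Real.sqrt r2 := by linarith
          have h5 := Real.sq_sqrt hr20.le
          nlinarith [norm_nonneg (w - z)]
        have h6 : psi z t1 T r2 w = gI 1 := by
          unfold psi
          rw [if_pos h3]
        rw [h6]
        ring
      · rw [bmp_zero hφ hw, zero_mul, mul_zero]
    rw [this, integral_const_mul, hφ.one, mul_one]
  have e2 : ∫ w, ‖fderiv ℝ (fun w => lam * psi z t1 T r2 w) w‖ ^ 2 ≤ 1 := by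
    have h1 : ∀ w, ‖fderiv ℝ (fun w => lam * psi z t1 T r2 w) w‖ ^ 2 =
        lam ^ 2 * gradSq (psi z t1 T r2) w := by
      intro w
      have hd : DifferentiableAt ℝ (psi z t1 T r2) w :=
        (psi_contDiff z hr20 hT hcomp).differentiable (by simp) w
      have h2 : fderiv ℝ (fun w => lam * psi z t1 T r2 w) w =
          lam • fderiv ℝ (psi z t1 T r2) w := fderiv_const_mul hd lam
      rw [h2, norm_smul, mul_pow, Real.norm_eq_abs, sq_abs, gradSq_eq]
    simp_rw [h1]
    rw [integral_const_mul]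
    have h2 := energy_le z hr20 hT hcomp hR20 rfl
    calc lam ^ 2 * ∫ w, gradSq (psi z t1 T r2) w ≤ lam ^ 2 * (4 * Real.pi / T) :=
          mul_le_mul_of_nonneg_left h2 (sq_nonneg _)
      _ = 1 := by
        rw [hTd]
        have := Real.pi_pos
        field_simp
  rw [e1] at key
  have h7 : lam * gI 1 = |B| + 1 := by
    rw [hlam]
    field_simp
  have := le_abs_self B
  have := abs_nonneg B
  linarith

end Vale.Agent.P155.NT613
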