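import Mathlib.MeasureTheory.Integral.DominatedConvergence
import Mathlib.MeasureTheory.Constructions.BorelSpace.Metrizable
import Mathlib.Analysis.SpecialFunctions.Exp

/-!
# P155, block (R): a limit theorem for exponential moments
-/

namespace Vale.Agent.P155.NT613

open MeasureTheory Filter Topology Set

variable {Θ : Type*} [MeasurableSpace Θ] {Q : Measure Θ} [IsProbabilityMeasure Q]

theorem exp_tail {a a' L d : ℝ} (haa : a < a') (h : L < d) :
    Real.exp (a * d) ≤ Real.exp (-(a' - a) * L) * Real.exp (a' * d) := by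
  rw [← Real.exp_add, Real.exp_le_exp]
  nlinarith

theorem tail_bound {D Y : Θ → ℝ} (hD : AEMeasurable D Q) (hY : AEMeasurable Y Q) {C K a a' : ℝ}
    (ha : 0 ≤ a) (hC0 : 0 ≤ C) (hK0 : 0 ≤ K) (haa : a < a')
    (hC : ∀ᵐ x ∂Q, |Y x| ≤ C)
    (hK : ∫⁻ x, ENNReal.ofReal (Real.exp (a' * D x)) ∂Q ≤ ENNReal.ofReal K) (L : ℝ) (hL : 0 ≤ L) :
    Integrable (fun x => Real.exp (a * D x)) Q ∧
    Integrable (fun x => Y x * Real.exp (a * D x)) Q ∧
    |∫ x, Y x * Real.exp (a * D x) ∂Q -
      ∫ x, {x | D x ≤ L}.indicator (fun x => Y x * Real.exp (a * D x)) x ∂Q| ≤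
        C * (Real.exp (-(a' - a) * L) * K) := by
  have me : ∀ b : ℝ, AEStronglyMeasurable (fun x => Real.exp (b * D x)) Q := fun b =>
    (Real.measurable_exp.comp_aemeasurable (hD.const_mul b)).aestronglyMeasurable
  have i1 : Integrable (fun x => Real.exp (a' * D x)) Q := by
    refine ⟨me a', ?_⟩
    rw [hasFiniteIntegral_iff_ofReal (Eventually.of_forall fun x => (Real.exp_pos _).le)]
    exact hK.trans_lt ENNReal.ofReal_lt_top
  have v1 : ∫ x, Real.exp (a' * D x) ∂Q ≤ K := by
    rw [integral_eq_lintegral_of_nonneg_ae (Eventually.of_forall fun x => (Real.exp_pos _).le)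
      (me a')]
    exact ENNReal.toReal_le_of_le_ofReal hK0 hK
  have i2 : Integrable (fun x => Real.exp (a * D x)) Q := by
    refine (i1.add (integrable_const 1)).mono' (me a) (Eventually.of_forall fun x => ?_)
    rw [Real.norm_of_nonneg (Real.exp_pos _).le]
    simp only [Pi.add_apply]
    have h0 := Real.exp_pos (a' * D x)
    rcases le_or_gt (D x) 0 with h | h
    · have : Real.exp (a * D x) ≤ 1 := by
        rw [Real.exp_le_one_iff]
        exact mul_nonpos_of_nonneg_of_nonpos ha h
      linarith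
    · have : Real.exp (a * D x) ≤ Real.exp (a' * D x) := by
        rw [Real.exp_le_exp]
        nlinarith
      linarith
  have i3 : Integrable (fun x => Y x * Real.exp (a * D x)) Q :=
    i2.bdd_mul hY.aestronglyMeasurable (c := C) (by
      filter_upwards [hC] with x hx
      rwa [Real.norm_eq_abs])
  refine ⟨i2, i3, ?_⟩
  have hms : NullMeasurableSet {x | D x ≤ L} Q := nullMeasurableSet_le hD aemeasurable_const
  have i4 : Integrable ({x | D x ≤ L}.indicator (fun x => Y x * Real.exp (a * D x))) Q :=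
    i3.indicator₀ hms
  rw [← integral_sub i3 i4, ← Real.norm_eq_abs]
  refine (norm_integral_le_integral_norm _).trans ?_
  have h5 : ∫ x, C * (Real.exp (-(a' - a) * L) * Real.exp (a' * D x)) ∂Q ≤
      C * (Real.exp (-(a' - a) * L) * K) := by
    rw [integral_const_mul, integral_const_mul]
    exact mul_le_mul_of_nonneg_left (mul_le_mul_of_nonneg_left v1 (Real.exp_pos _).le) hC0
  refine le_trans (integral_mono_ae (i3.sub i4).norm ((i1.const_mul _).const_mul _) ?_) h5
  filter_upwards [hC] with x hx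
  simp only [Real.norm_eq_abs]
  by_cases h : x ∈ {x | D x ≤ L}
  · rw [indicator_of_mem h, sub_self, abs_zero]
    positivity
  · rw [indicator_of_notMem h, sub_zero, abs_mul, abs_of_pos (Real.exp_pos _)]
    rw [mem_ofPred_eq, not_le] at h
    exact mul_le_mul hx (exp_tail haa h) (Real.exp_pos _).le hC0

/-- the limit theorem -/
theorem ui_lim {D Y : ℕ → Θ → ℝ} {D' Y' : Θ → ℝ} (hD : ∀ n, AEMeasurable (D n) Q)
    (hY : ∀ n, AEMeasurable (Y n) Q) {C K a a' : ℝ} (ha : 0 ≤ a) (hC0 : 0 ≤ C) (hK0 : 0 ≤ K)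
    (haa : a < a') (hC : ∀ n, ∀ᵐ x ∂Q, |Y n x| ≤ C)
    (hK : ∀ n, ∫⁻ x, ENNReal.ofReal (Real.exp (a' * D n x)) ∂Q ≤ ENNReal.ofReal K)
    (hlim : ∀ᵐ x ∂Q, ∀ᶠ n in atTop, D n x = D' x ∧ Y n x = Y' x) {m : ℝ}
    (hm : ∀ n, ∫ x, Y n x * Real.exp (a * D n x) ∂Q = m) :
    AEMeasurable D' Q ∧
    ∫⁻ x, ENNReal.ofReal (Real.exp (a' * D' x)) ∂Q ≤ ENNReal.ofReal K ∧
    Integrable (fun x => Real.exp (a * D' x)) Q ∧
    ∫ x, Y' x * Real.exp (a * D' x) ∂Q = m := by
  have hDm : AEMeasurable D' Q := by
    apply aemeasurable_of_tendsto_metrizable_ae atTop hD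
    filter_upwards [hlim] with x hx
    apply tendsto_const_nhds.congr'
    filter_upwards [hx] with n hn
    exact hn.1.symm
  have hYm : AEMeasurable Y' Q := by
    apply aemeasurable_of_tendsto_metrizable_ae atTop hY
    filter_upwards [hlim] with x hx
    apply tendsto_const_nhds.congr'
    filter_upwards [hx] with n hn
    exact hn.2.symm
  have hC' : ∀ᵐ x ∂Q, |Y' x| ≤ C := by
    filter_upwards [hlim, ae_all_iff.2 hC] with x hx hx2
    obtain ⟨n, hn⟩ := hx.exists
    rw [← hn.2]
    exact hx2 n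
  have hK' : ∫⁻ x, ENNReal.ofReal (Real.exp (a' * D' x)) ∂Q ≤ ENNReal.ofReal K := by
    have h1 : ∫⁻ x, ENNReal.ofReal (Real.exp (a' * D' x)) ∂Q =
        ∫⁻ x, liminf (fun n => ENNReal.ofReal (Real.exp (a' * D n x))) atTop ∂Q := by
      apply lintegral_congr_ae
      filter_upwards [hlim] with x hx
      have h2 : Tendsto (fun n => ENNReal.ofReal (Real.exp (a' * D n x))) atTop
          (𝓝 (ENNReal.ofReal (Real.exp (a' * D' x)))) := by
        apply tendsto_const_nhds.congr'
        filter_upwards [hx] with n hn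
        rw [hn.1]
      exact h2.liminf_eq.symm
    rw [h1]
    refine (lintegral_liminf_le' fun n => ?_).trans ?_
    · exact ENNReal.measurable_ofReal.comp_aemeasurable
        (Real.measurable_exp.comp_aemeasurable ((hD n).const_mul a'))
    · apply liminf_le_of_frequently_le'
      exact Frequently.of_forall hK
  refine ⟨hDm, hK', ?_, ?_⟩
  · exact (tail_bound hDm hYm ha hC0 hK0 haa hC' hK' 0 le_rfl).1
  -- the limit
  have hmain : ∀ L : ℝ, 0 ≤ L → |∫ x, Y' x * Real.exp (a * D' x) ∂Q - m| ≤
      2 * (C * (Real.exp (-(a' - a) * L) * K)) := by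
    intro L hL
    have h1 : Tendsto (fun n => ∫ x, {x | D n x ≤ L}.indicator
        (fun x => Y n x * Real.exp (a * D n x)) x ∂Q) atTop
        (𝓝 (∫ x, {x | D' x ≤ L}.indicator (fun x => Y' x * Real.exp (a * D' x)) x ∂Q)) := by
      apply tendsto_integral_of_dominated_convergence (fun _ => C * Real.exp (a * L))
      · intro n
        have h2 : AEStronglyMeasurable (fun x => Y n x * Real.exp (a * D n x)) Q :=
          ((hY n).mul (Real.measurable_exp.comp_aemeasurable
            ((hD n).const_mul a))).aestronglyMeasurable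
        exact h2.indicator₀ (nullMeasurableSet_le (hD n) aemeasurable_const)
      · exact integrable_const _
      · intro n
        filter_upwards [hC n] with x hx
        by_cases h : x ∈ {x | D n x ≤ L}
        · rw [indicator_of_mem h, Real.norm_eq_abs, abs_mul, abs_of_pos (Real.exp_pos _)]
          refine mul_le_mul hx ?_ (Real.exp_pos _).le hC0
          rw [Real.exp_le_exp]
          exact mul_le_mul_of_nonneg_left h ha
        · rw [indicator_of_notMem h, norm_zero]
          positivity
      · filter_upwards [hlim] with x hx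
        apply tendsto_const_nhds.congr'
        filter_upwards [hx] with n hn
        by_cases h : D' x ≤ L
        · rw [indicator_of_mem (show x ∈ {x | D' x ≤ L} from h),
            indicator_of_mem (show x ∈ {x | D n x ≤ L} by rw [mem_ofPred_eq, hn.1]; exact h),
            hn.1, hn.2]
        · rw [indicator_of_notMem (show x ∉ {x | D' x ≤ L} from h),
            indicator_of_notMem (show x ∉ {x | D n x ≤ L} by
              rw [mem_ofPred_eq, hn.1]; exact h)]
    have h3 : |∫ x, {x | D' x ≤ L}.indicator (fun x => Y' x * Real.exp (a * D' x)) x ∂Q - m| ≤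
        C * (Real.exp (-(a' - a) * L) * K) := by
      have h4 : Tendsto (fun n => |∫ x, {x | D n x ≤ L}.indicator
          (fun x => Y n x * Real.exp (a * D n x)) x ∂Q - m|) atTop
          (𝓝 |∫ x, {x | D' x ≤ L}.indicator (fun x => Y' x * Real.exp (a * D' x)) x ∂Q - m|) :=
        (h1.sub_const m).abs
      refine le_of_tendsto h4 (Eventually.of_forall fun n => ?_)
      have h5 := (tail_bound (hD n) (hY n) ha hC0 hK0 haa (hC n) (hK n) L hL).2.2
      rw [hm n, abs_sub_comm] at h5
      exact h5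
    have h6 := (tail_bound hDm hYm ha hC0 hK0 haa hC' hK' L hL).2.2
    have h7 := abs_add_le (∫ x, Y' x * Real.exp (a * D' x) ∂Q -
      ∫ x, {x | D' x ≤ L}.indicator (fun x => Y' x * Real.exp (a * D' x)) x ∂Q)
      (∫ x, {x | D' x ≤ L}.indicator (fun x => Y' x * Real.exp (a * D' x)) x ∂Q - m)
    have h8 : ∫ x, Y' x * Real.exp (a * D' x) ∂Q -
      ∫ x, {x | D' x ≤ L}.indicator (fun x => Y' x * Real.exp (a * D' x)) x ∂Q +
      (∫ x, {x | D' x ≤ L}.indicator (fun x => Y' x * Real.exp (a * D' x)) x ∂Q - m) =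
      ∫ x, Y' x * Real.exp (a * D' x) ∂Q - m := by ring
    rw [h8] at h7
    linarith
  have hz : Tendsto (fun L : ℝ => 2 * (C * (Real.exp (-(a' - a) * L) * K))) atTop (𝓝 0) := by
    have h1 : Tendsto (fun L : ℝ => Real.exp (-(a' - a) * L)) atTop (𝓝 0) := by
      apply Real.tendsto_exp_atBot.comp
      have : Tendsto (fun L : ℝ => (a' - a) * L) atTop atTop :=
        tendsto_id.const_mul_atTop (by linarith)
      have h2 := tendsto_neg_atTop_atBot.comp this
      refine h2.congr fun L => ?_
      simp only [Function.comp_apply]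
      ring
    have h2 := ((h1.mul_const K).const_mul C).const_mul 2
    simpa using h2
  have h0 : |∫ x, Y' x * Real.exp (a * D' x) ∂Q - m| ≤ 0 := by
    refine ge_of_tendsto hz ?_
    filter_upwards [eventually_ge_atTop (0 : ℝ)] with L hL
    exact hmain L hL
  have := abs_nonpos_iff.1 h0
  linarith

end Vale.Agent.P155.NT613
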