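import Vale.Agent.P155.NT613.YB
import Vale.Agent.P155.NT613.YC
import Vale.Agent.P155.U.Gam1
import Vale.Agent.P155.U.Lev
import Vale.Agent.P155.U.Vk

/-!
# P155, block (R): the exponential moments of the drops of the Green energy of radial bumps
-/

namespace Vale.Agent.P155.NT613

open MeasureTheory Filter Topology TopologicalSpace Set
open Vale.Agent.P155.Uq Vale.Agent.P155.Uq.Gam

variable {Ω : Set ℂ} {Q : Measure (Sp Ω)} {φ : ℂ → ℝ}

/-- the drop of the Green energy -/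
noncomputable def drop (Ω : Set ℂ) (φ : ℂ → ℝ) (k : ℕ) (s : Sp Ω) : ℝ :=
  greenEnergy (Ω \ (s k).1) φ - greenEnergy (Ω \ (s (k + 1)).1) φ

/-- the increment of the height -/
noncomputable def incr (φ : ℂ → ℝ) (k : ℕ) (s : Sp Ω) : ℝ :=
  pr (s (k + 1)).2 φ - pr (s k).2 φ

theorem meas_drop (hb : Bornology.IsBounded Ω) (hφ : IsTest Ω φ) (k : ℕ) :
    Measurable (drop Ω φ k) := (meas_green hb hφ k).sub (meas_green hb hφ (k + 1))

theorem meas_incr (hφ : IsTest Ω φ) (k : ℕ) : Measurable (incr (Ω := Ω) φ k) :=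
  (meas_pr hφ (k + 1)).sub (meas_pr hφ k)

/-- the real form of `gff` -/
theorem gff_cos (hb : Bornology.IsBounded Ω) (hQ : Canon Ω Q) (k : ℕ) (hφ : IsTest Ω φ)
    {Ψ : Past Ω k → ℝ} (hΨ : BM Ψ) :
    ∫ s, Ψ (past k s) * (Real.cos (cst * incr φ k s) *
        Real.exp (-greenEnergy (Ω \ (s (k + 1)).1) φ / 2)) ∂Q =
      ∫ s, Ψ (past k s) * Real.exp (-greenEnergy (Ω \ (s k).1) φ / 2) ∂Q := by
  have := hQ.prob
  obtain ⟨hΨm, C, hC⟩ := hΨ
  have mpast : Measurable (fun s : Sp Ω => past k s) :=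
    measurable_pi_lambda _ fun j => measurable_pi_apply _
  have key := hQ.gff k φ hφ Ψ ⟨hΨm, C, hC⟩
  have e1 : ∀ s : Sp Ω, (Ψ (past k s) : ℂ) * Complex.exp (Complex.I * cst *
      (pr (s (k + 1)).2 φ - pr (s k).2 φ) - greenEnergy (Ω \ (s (k + 1)).1) φ / 2) =
      ((Ψ (past k s) * Real.exp (-greenEnergy (Ω \ (s (k + 1)).1) φ / 2) : ℝ) : ℂ) *
        Complex.exp (((cst * incr φ k s : ℝ) : ℂ) * Complex.I) := by
    intro s
    have : (Complex.I * cst * (pr (s (k + 1)).2 φ - pr (s k).2 φ) -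
        greenEnergy (Ω \ (s (k + 1)).1) φ / 2 : ℂ) =
        ((-greenEnergy (Ω \ (s (k + 1)).1) φ / 2 : ℝ) : ℂ) +
          ((cst * incr φ k s : ℝ) : ℂ) * Complex.I := by
      unfold incr
      push_cast
      ring
    rw [this, Complex.exp_add]
    push_cast
    ring
  have e2 : ∀ s : Sp Ω, (Ψ (past k s) : ℂ) * Complex.exp (- greenEnergy (Ω \ (s k).1) φ / 2) =
      ((Ψ (past k s) * Real.exp (-greenEnergy (Ω \ (s k).1) φ / 2) : ℝ) : ℂ) := by
    intro s
    push_cast
    rfl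
  simp_rw [e1, e2] at key
  rw [integral_complex_ofReal] at key
  have hm : Measurable (fun s : Sp Ω =>
      ((Ψ (past k s) * Real.exp (-greenEnergy (Ω \ (s (k + 1)).1) φ / 2) : ℝ) : ℂ) *
        Complex.exp (((cst * incr φ k s : ℝ) : ℂ) * Complex.I)) := by
    apply Measurable.mul
    · apply Complex.measurable_ofReal.comp
      exact (hΨm.comp mpast).mul (Real.measurable_exp.comp
        ((meas_green hb hφ (k + 1)).neg.div_const 2))
    · apply Complex.measurable_exp.comp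
      exact (Complex.measurable_ofReal.comp ((meas_incr hφ k).const_mul cst)).mul_const _
  have hi : Integrable (fun s : Sp Ω =>
      ((Ψ (past k s) * Real.exp (-greenEnergy (Ω \ (s (k + 1)).1) φ / 2) : ℝ) : ℂ) *
        Complex.exp (((cst * incr φ k s : ℝ) : ℂ) * Complex.I)) Q := by
    refine Integrable.of_bound (C := C) hm.aestronglyMeasurable (Eventually.of_forall fun s => ?_)
    rw [norm_mul, Complex.norm_exp_ofReal_mul_I, mul_one, Complex.norm_real, norm_mul,
      Real.norm_eq_abs, Real.norm_of_nonneg (Real.exp_pos _).le]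
    have h1 : Real.exp (-greenEnergy (Ω \ (s (k + 1)).1) φ / 2) ≤ 1 := by
      rw [Real.exp_le_one_iff]
      have := green_nn hb hφ (U := Ω \ (s (k + 1)).1) sdiff_subset
      linarith
    calc |Ψ (past k s)| * Real.exp (-greenEnergy (Ω \ (s (k + 1)).1) φ / 2)
        ≤ |Ψ (past k s)| * 1 := mul_le_mul_of_nonneg_left h1 (abs_nonneg _)
      _ ≤ C := by rw [mul_one]; exact hC _
  have key2 := congrArg Complex.re key
  have h3 := integral_re hi
  rw [Complex.ofReal_re] at key2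
  rw [← key2]
  have h4 : (∫ s, ((Ψ (past k s) * Real.exp (-greenEnergy (Ω \ (s (k + 1)).1) φ / 2) : ℝ) : ℂ) *
        Complex.exp (((cst * incr φ k s : ℝ) : ℂ) * Complex.I) ∂Q).re =
      ∫ s, RCLike.re (((Ψ (past k s) * Real.exp (-greenEnergy (Ω \ (s (k + 1)).1) φ / 2) : ℝ) : ℂ) *
        Complex.exp (((cst * incr φ k s : ℝ) : ℂ) * Complex.I)) ∂Q := h3.symm
  rw [h4]
  apply integral_congr_ae
  refine Eventually.of_forall fun s => ?_
  change _ = (((Ψ (past k s) * Real.exp (-greenEnergy (Ω \ (s (k + 1)).1) φ / 2) : ℝ) : ℂ) *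
        Complex.exp (((cst * incr φ k s : ℝ) : ℂ) * Complex.I)).re
  rw [Complex.re_ofReal_mul, Complex.exp_ofReal_mul_I_re]
  ring

/-- the exponential form -/
theorem gff_exp (hb : Bornology.IsBounded Ω) (hQ : Canon Ω Q) (k : ℕ) (hφ : IsTest Ω φ)
    {Ψ : Past Ω k → ℝ} (hΨ : BM Ψ) :
    ∫ s, (Ψ (past k s) * Real.cos (cst * incr φ k s)) * Real.exp (1 / 2 * drop Ω φ k s) ∂Q =
      ∫ s, Ψ (past k s) ∂Q := by
  obtain ⟨hΨm, C, hC⟩ := hΨ
  have hmg : Measurable (fun p : Past Ω k => greenEnergy (Ω \ ((p (Fin.last k)).1 : Set ℂ)) φ) :=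
    (P155.U.measurable_green hb hφ).comp
      (measurable_fst.comp (measurable_pi_apply (Fin.last k)))
  have hBM : BM (fun p : Past Ω k => Ψ p *
      Real.exp (greenEnergy (Ω \ ((p (Fin.last k)).1 : Set ℂ)) φ / 2)) := by
    refine ⟨hΨm.mul (Real.measurable_exp.comp (hmg.div_const 2)),
      C * Real.exp (greenEnergy Ω φ / 2), fun p => ?_⟩
    rw [abs_mul, abs_of_pos (Real.exp_pos _)]
    refine mul_le_mul (hC p) ?_ (Real.exp_pos _).le ((abs_nonneg _).trans (hC p))
    rw [Real.exp_le_exp]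
    have := green_le hb hφ (U := Ω \ ((p (Fin.last k)).1 : Set ℂ)) sdiff_subset
    linarith
  have key := gff_cos hb hQ k hφ hBM
  have hlast : ∀ s : Sp Ω, past k s (Fin.last k) = s k := fun s => rfl
  simp only [hlast] at key
  refine Eq.trans (integral_congr_ae (Eventually.of_forall fun s => ?_))
    (key.trans (integral_congr_ae (Eventually.of_forall fun s => ?_)))
  · simp only [drop]
    have : Real.exp (1 / 2 * (greenEnergy (Ω \ (s k).1) φ - greenEnergy (Ω \ (s (k + 1)).1) φ)) =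
        Real.exp (greenEnergy (Ω \ (s k).1) φ / 2) *
          Real.exp (-greenEnergy (Ω \ (s (k + 1)).1) φ / 2) := by
      rw [← Real.exp_add]
      congr 1
      ring
    rw [this]
    ring
  · simp only
    rw [mul_assoc, ← Real.exp_add]
    have : greenEnergy (Ω \ (s k).1) φ / 2 + -greenEnergy (Ω \ (s k).1) φ / 2 = 0 := by ring
    rw [this, Real.exp_zero, mul_one]

/-- with an amplitude `θ` -/
theorem gff_theta (hb : Bornology.IsBounded Ω) (hQ : Canon Ω Q) (k : ℕ) (hφ : IsTest Ω φ)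
    {Ψ : Past Ω k → ℝ} (hΨ : BM Ψ) {θ : ℝ} (hθ : θ ≠ 0) :
    ∫ s, (Ψ (past k s) * Real.cos (cst * θ * incr φ k s)) *
        Real.exp (θ ^ 2 / 2 * drop Ω φ k s) ∂Q = ∫ s, Ψ (past k s) ∂Q := by
  rw [← gff_exp hb hQ k (test_smul hφ θ) hΨ]
  refine integral_congr_ae (Eventually.of_forall fun s => ?_)
  simp only [drop, incr]
  rw [green_smul hb hφ (U := Ω \ (s k).1) sdiff_subset hθ,
    green_smul hb hφ (U := Ω \ (s (k + 1)).1) sdiff_subset hθ, pr_smul, pr_smul]
  congr 2
  · congr 1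
    ring
  · ring

/-- the increments are bounded by the mass -/
theorem incr_le (hΩ : IsOpen Ω) (hb : Bornology.IsBounded Ω) (hne : Ω.Nonempty) (hQ : Canon Ω Q)
    (k : ℕ) : ∀ᵐ s ∂Q, ∀ φ, IsTest Ω φ → |incr φ k s| ≤ ∫ w, |φ w| := by
  filter_upwards [(levStmt Ω hΩ hb hne Q hQ k).rep] with s hs φ hφ
  obtain ⟨g, hg, hg1, hgφ⟩ := hs
  have h1 : incr φ k s = ∫ w, g w * φ w := hgφ φ hφ
  rw [h1, ← Real.norm_eq_abs]
  refine (norm_integral_le_integral_norm _).trans ?_
  have hi : Integrable φ := P155.U.test_int hφ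
  apply integral_mono
  · exact (hi.bdd_mul hg.aestronglyMeasurable (c := 1)
      (Eventually.of_forall fun w => by rw [Real.norm_eq_abs]; exact hg1 w)).norm
  · exact hi.abs
  · intro w
    simp only [norm_mul, Real.norm_eq_abs]
    calc |g w| * |φ w| ≤ 1 * |φ w| := mul_le_mul_of_nonneg_right (hg1 w) (abs_nonneg _)
      _ = |φ w| := one_mul _

/-- bound of the exponential moments -/
theorem mgf_le (hΩ : IsOpen Ω) (hb : Bornology.IsBounded Ω) (hne : Ω.Nonempty) (hQ : Canon Ω Q)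
    (k : ℕ) (hφ : IsTest Ω φ) (hφ1 : ∫ w, |φ w| ≤ 1) {θ : ℝ} (hθ : 0 < θ)
    (hθ2 : cst * θ < Real.pi / 2) :
    ∫⁻ s, ENNReal.ofReal (Real.exp (θ ^ 2 / 2 * drop Ω φ k s)) ∂Q ≤
      ENNReal.ofReal (Real.cos (cst * θ))⁻¹ := by
  have := hQ.prob
  have hcst : 0 < cst := Real.sqrt_pos.2 (by positivity)
  have hcpos : 0 < Real.cos (cst * θ) :=
    Real.cos_pos_of_mem_Ioo ⟨by have := mul_pos hcst hθ; linarith [Real.pi_pos], hθ2⟩
  have key := gff_theta hb hQ k hφ (Ψ := fun _ => 1) ⟨measurable_const, 1, fun _ => by simp⟩ hθ.ne'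
  simp only [one_mul, integral_const, probReal_univ, smul_eq_mul, mul_one] at key
  obtain ⟨B, hB⟩ := Uq.green_bounds hb hφ
  have hdb : ∀ s : Sp Ω, |drop Ω φ k s| ≤ B := by
    intro s
    unfold drop
    rw [abs_le]
    constructor <;> linarith [(hB (s k).1).1, (hB (s k).1).2, (hB (s (k + 1)).1).1,
      (hB (s (k + 1)).1).2]
  have hcosle : ∀ᵐ s ∂Q, Real.cos (cst * θ) ≤ Real.cos (cst * θ * incr φ k s) := by
    filter_upwards [incr_le hΩ hb hne hQ k] with s hs
    have h1 := (hs φ hφ).trans hφ1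
    rw [← Real.cos_abs (cst * θ * incr φ k s)]
    apply Real.cos_le_cos_of_nonneg_of_le_pi (abs_nonneg _) (by linarith [Real.pi_pos])
    rw [abs_mul, abs_of_pos (mul_pos hcst hθ)]
    calc cst * θ * |incr φ k s| ≤ cst * θ * 1 :=
          mul_le_mul_of_nonneg_left h1 (mul_pos hcst hθ).le
      _ = cst * θ := mul_one _
  have me : Measurable (fun s : Sp Ω => Real.exp (θ ^ 2 / 2 * drop Ω φ k s)) :=
    Real.measurable_exp.comp ((meas_drop hb hφ k).const_mul _)
  have hie : Integrable (fun s : Sp Ω => Real.exp (θ ^ 2 / 2 * drop Ω φ k s)) Q := by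
    refine Integrable.of_bound (C := Real.exp (θ ^ 2 / 2 * B)) me.aestronglyMeasurable
      (Eventually.of_forall fun s => ?_)
    rw [Real.norm_of_nonneg (Real.exp_pos _).le, Real.exp_le_exp]
    exact mul_le_mul_of_nonneg_left ((le_abs_self _).trans (hdb s)) (by positivity)
  have hce : Integrable (fun s : Sp Ω => Real.cos (cst * θ * incr φ k s) *
      Real.exp (θ ^ 2 / 2 * drop Ω φ k s)) Q :=
    hie.bdd_mul (Real.measurable_cos.comp
      ((meas_incr hφ k).const_mul _)).aestronglyMeasurable (c := 1)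
      (Eventually.of_forall fun s => by rw [Real.norm_eq_abs]; exact Real.abs_cos_le_one _)
  have h2 : Real.cos (cst * θ) * ∫ s, Real.exp (θ ^ 2 / 2 * drop Ω φ k s) ∂Q ≤ 1 := by
    rw [← integral_const_mul, ← key]
    apply integral_mono_ae (hie.const_mul _) hce
    filter_upwards [hcosle] with s hs
    exact mul_le_mul_of_nonneg_right hs (Real.exp_pos _).le
  rw [← ofReal_integral_eq_lintegral_ofReal hie (Eventually.of_forall fun s => (Real.exp_pos _).le)]
  apply ENNReal.ofReal_le_ofReal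
  rw [← one_div, le_div_iff₀ hcpos]
  linarith

end Vale.Agent.P155.NT613
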