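import Vale.Agent.P155.NT613.YB2
import Vale.Agent.P155.NT613.YD

/-!
# P155, block (R): a point of the domain lies in no carpet; the law of the drops at a point
-/

namespace Vale.Agent.P155.NT613

open MeasureTheory Filter Topology TopologicalSpace Set
open Vale.Agent.P155.Uq Vale.Agent.P155.Uq.Gam

variable {Ω : Set ℂ} {Q : Measure (Sp Ω)} {z : ℂ} {C : ℝ} {ψ : ℝ → ℂ → ℝ}

theorem cst_pos : 0 < cst := Real.sqrt_pos.2 (by positivity)

theorem cst_lt : cst < Real.pi / 2 := by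
  unfold cst
  rw [Real.sqrt_lt' (by positivity)]
  have := Real.pi_gt_three
  nlinarith

theorem frontier_ne (hb : Bornology.IsBounded Ω) (hne : Ω.Nonempty) : (frontier Ω).Nonempty := by
  rw [nonempty_frontier_iff]
  refine ⟨hne, ?_⟩
  rintro rfl
  exact NormedSpace.unbounded_univ ℝ ℂ hb

/-- the radii -/
theorem eps_pos {ρ : ℝ} (hρ : 0 < ρ) (n : ℕ) : 0 < ρ / ((n : ℝ) + 1) := by positivity

theorem eps_le {ρ : ℝ} (hρ : 0 < ρ) (n : ℕ) : ρ / ((n : ℝ) + 1) ≤ ρ := by
  apply div_le_self hρ.le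
  have : (0 : ℝ) ≤ n := Nat.cast_nonneg n
  linarith

theorem eps_lim (ρ : ℝ) : Tendsto (fun n : ℕ => ρ / ((n : ℝ) + 1)) atTop (𝓝 0) := by
  have h := tendsto_one_div_add_atTop_nhds_zero_nat (𝕜 := ℝ)
  have h2 := h.const_mul ρ
  simp only [mul_zero] at h2
  refine h2.congr fun n => ?_
  rw [mul_one_div]

theorem eps_test (hψ : ∀ ε, 0 < ε → YD.IsBmp C z ε (ψ ε)) {ρ : ℝ} (hρ : 0 < ρ)
    (hball : Metric.closedBall z ρ ⊆ Ω) (n : ℕ) : IsTest Ω (ψ (ρ / ((n : ℝ) + 1))) :=
  bmp_test (hψ _ (eps_pos hρ n))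
    ((Metric.closedBall_subset_closedBall (eps_le hρ n)).trans hball)

/-- **a point of the domain lies in no carpet** -/
theorem notMem_carpet (hψ : ∀ ε, 0 < ε → YD.IsBmp C z ε (ψ ε)) (hΩ : IsOpen Ω)
    (hb : Bornology.IsBounded Ω) (hQ : Canon Ω Q) (hz : z ∈ Ω) (k : ℕ) : ∀ᵐ s ∂Q, z ∉ ((s k).1 : Set ℂ) := by
  have hprob := hQ.prob
  have hne : Ω.Nonempty := ⟨z, hz⟩
  induction k with
  | zero =>
    filter_upwards [hQ.zero] with s hs
    rw [hs.1, frontier, hΩ.interior_eq]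
    exact fun h => h.2 hz
  | succ k ih =>
    obtain ⟨ρ', hρ', hball'⟩ := Metric.isOpen_iff.1 hΩ z hz
    set ρ := ρ' / 2 with hρd
    have hρ : 0 < ρ := by positivity
    have hball : Metric.closedBall z ρ ⊆ Ω :=
      (Metric.closedBall_subset_ball (by linarith)).trans hball'
    have htest := eps_test hψ hρ hball
    set f : ℕ → Sp Ω → ENNReal := fun n s => ENNReal.ofReal (Real.exp ((1 : ℝ) ^ 2 / 2 *
      drop Ω (ψ (ρ / ((n : ℝ) + 1))) k s)) with hf
    have hfm : ∀ n, Measurable (f n) := fun n => ENNReal.measurable_ofReal.comp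
      (Real.measurable_exp.comp ((meas_drop hb (htest n) k).const_mul _))
    have hle : ∀ n, ∫⁻ s, f n s ∂Q ≤ ENNReal.ofReal (Real.cos (cst * 1))⁻¹ := fun n =>
      mgf_le hΩ hb hne hQ k (htest n) (bmp_abs (hψ _ (eps_pos hρ n))) zero_lt_one
        (by rw [mul_one]; exact cst_lt)
    have hlim : ∫⁻ s, liminf (fun n => f n s) atTop ∂Q ≠ ⊤ := by
      refine ne_top_of_le_ne_top ENNReal.ofReal_ne_top
        ((lintegral_liminf_le hfm).trans (liminf_le_of_frequently_le' (Frequently.of_forall hle)))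
    have hlt := ae_lt_top (Measurable.liminf hfm) hlim
    have hlev := levStmt Ω hΩ hb hne Q hQ k
    filter_upwards [ih, hlt, hlev.fr, hlev.conn] with s h1 h2 h3 h4 h5
    have hopen : IsOpen (Ω \ ((s k).1 : Set ℂ)) := hΩ.sdiff (s k).1.isCompact.isClosed
    obtain ⟨r', hr', hbr'⟩ := Metric.isOpen_iff.1 hopen z ⟨hz, h1⟩
    have hbr : Metric.closedBall z (r' / 2) ⊆ Ω \ ((s k).1 : Set ℂ) :=
      (Metric.closedBall_subset_ball (by linarith)).trans hbr'
    obtain ⟨w, hw⟩ := frontier_ne hb hne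
    have hwz : 0 < dist w z := by
      rw [dist_pos]
      rintro rfl
      rw [frontier, hΩ.interior_eq] at hw
      exact hw.2 hz
    have htend : Tendsto (fun n => f n s) atTop (𝓝 ⊤) := by
      rw [ENNReal.tendsto_nhds_top_iff_nnreal]
      intro M
      obtain ⟨ε0, hε0, hmiss⟩ := green_miss' z (half_pos hr')
        (2 * Real.log ((M : ℝ) + 1) + 160 * (4 * C) ^ 2)
      filter_upwards [(eps_lim ρ).eventually_lt_const hε0,
        (eps_lim ρ).eventually_lt_const (show 0 < dist w z / 4 by positivity)] with n hn hn2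
      have e1 := hmiss _ (eps_pos hρ n) hn _ _ (hψ _ (eps_pos hρ n)) _ (hb.subset sdiff_subset) hbr
      have e2 := green_hit' (eps_pos hρ n) (hψ _ (eps_pos hρ n)) Ω h4.isPreconnected h5
        ⟨w, h3 hw, by linarith⟩
      have e3 : 2 * Real.log ((M : ℝ) + 1) ≤ drop Ω (ψ (ρ / ((n : ℝ) + 1))) k s := by
        unfold drop
        linarith
      have e4 : (M : ℝ) + 1 ≤ Real.exp ((1 : ℝ) ^ 2 / 2 *
          drop Ω (ψ (ρ / ((n : ℝ) + 1))) k s) := by
        have hM : (0 : ℝ) < (M : ℝ) + 1 := by positivity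
        rw [← Real.log_le_iff_le_exp hM]
        linarith
      have e5 : (M : ENNReal) = ENNReal.ofReal (M : ℝ) := (ENNReal.ofReal_coe_nnreal).symm
      simp only [hf]
      rw [e5, ENNReal.ofReal_lt_ofReal_iff (Real.exp_pos _)]
      linarith
    rw [htend.liminf_eq] at h2
    exact lt_irrefl _ h2

/-- the carpets belong to `CC Ω` -/
theorem mem_CC (hΩ : IsOpen Ω) (hb : Bornology.IsBounded Ω) (hne : Ω.Nonempty) (hQ : Canon Ω Q) :
    ∀ᵐ s ∂Q, ∀ k, (s k).1 ∈ P155.U.CC Ω := by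
  have hfr : ∀ᵐ s ∂Q, ∀ k, frontier Ω ⊆ ((s (k + 1)).1 : Set ℂ) := by
    rw [ae_all_iff]
    intro k
    exact (levStmt Ω hΩ hb hne Q hQ k).fr
  filter_upwards [hQ.conn, hQ.mono, hQ.zero, hfr] with s h1 h2 h3 h4 k
  refine ⟨h1 k, ?_, (h2 k).2⟩
  cases k with
  | zero => rw [h3.1]
  | succ k => exact h4 k

/-- **the law of the drops at a point**, for a function `T` which is `2 π` times the drop -/
theorem radii_canon (hψ : ∀ ε, 0 < ε → YD.IsBmp C z ε (ψ ε)) (hΩ : IsOpen Ω)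
    (hb : Bornology.IsBounded Ω) (hQ : Canon Ω Q) (hz : z ∈ Ω) {T : NonemptyCompacts ℂ → NonemptyCompacts ℂ → ℝ}
    (hT : ∀ K K' : NonemptyCompacts ℂ, K ∈ P155.U.CC Ω → K' ∈ P155.U.CC Ω →
      (K : Set ℂ) ⊆ K' → ∀ ε > 0, Metric.closedBall z ε ⊆ Ω \ (K' : Set ℂ) →
      greenEnergy (Ω \ (K : Set ℂ)) (ψ ε) - greenEnergy (Ω \ (K' : Set ℂ)) (ψ ε) =
        T K K' / (2 * Real.pi))
    (k : ℕ) {F : Past Ω k → ℝ} (hF : BM F) {t : ℝ} (ht0 : 0 ≤ t) (ht1 : t < 1 / 8) :
    Integrable (fun s => Real.exp (t * T (s k).1 (s (k + 1)).1)) Q ∧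
    ∫ s, F (past k s) * Real.exp (t * T (s k).1 (s (k + 1)).1) ∂Q =
      (∫ s, F (past k s) ∂Q) / Real.cos (Real.pi * Real.sqrt (2 * t)) := by
  have hprob := hQ.prob
  rcases ht0.eq_or_lt with rfl | ht
  · simp
  have hne : Ω.Nonempty := ⟨z, hz⟩
  obtain ⟨ρ', hρ', hball'⟩ := Metric.isOpen_iff.1 hΩ z hz
  set ρ := ρ' / 2 with hρd
  have hρ : 0 < ρ := by positivity
  have hball : Metric.closedBall z ρ ⊆ Ω :=
    (Metric.closedBall_subset_ball (by linarith)).trans hball'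
  have htest := eps_test hψ hρ hball
  have hpi := Real.pi_pos
  set θ := Real.sqrt (4 * Real.pi * t) with hθd
  have hθ : 0 < θ := Real.sqrt_pos.2 (by positivity)
  have hθ2 : θ ^ 2 = 4 * Real.pi * t := Real.sq_sqrt (by positivity)
  have hcθ : cst * θ = Real.pi * Real.sqrt (2 * t) := by
    unfold cst
    rw [hθd, ← Real.sqrt_mul (by positivity)]
    have : Real.pi / 2 * (4 * Real.pi * t) = Real.pi ^ 2 * (2 * t) := by ring
    rw [this, Real.sqrt_mul (by positivity), Real.sqrt_sq hpi.le]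
  have hlt : cst * θ < Real.pi / 2 := by
    rw [hcθ]
    have h1 : Real.sqrt (2 * t) < 1 / 2 := by
      rw [Real.sqrt_lt' (by norm_num)]
      linarith
    nlinarith
  obtain ⟨θ', h1, h2⟩ : ∃ θ', θ < θ' ∧ cst * θ' < Real.pi / 2 := by
    refine ⟨θ + (Real.pi / 2 - cst * θ) / (2 * cst), ?_, ?_⟩
    · have := cst_pos
      have : 0 < (Real.pi / 2 - cst * θ) / (2 * cst) := div_pos (by linarith) (by positivity)
      linarith
    · have hc := cst_pos
      have : cst * (θ + (Real.pi / 2 - cst * θ) / (2 * cst)) =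
          cst * θ + (Real.pi / 2 - cst * θ) / 2 := by
        field_simp
      rw [this]
      linarith
  have hθ' : 0 < θ' := hθ.trans h1
  have hcos : 0 < Real.cos (cst * θ) :=
    Real.cos_pos_of_mem_Ioo ⟨by have := mul_pos cst_pos hθ; linarith, hlt⟩
  have hcos' : 0 < Real.cos (cst * θ') :=
    Real.cos_pos_of_mem_Ioo ⟨by have := mul_pos cst_pos hθ'; linarith, h2⟩
  obtain ⟨hFm, C', hC⟩ := hF
  have mpast : Measurable (fun s : Sp Ω => past k s) :=
    measurable_pi_lambda _ fun j => measurable_pi_apply _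
  have key := ui_lim (Q := Q)
    (D := fun n s => drop Ω (ψ (ρ / ((n : ℝ) + 1))) k s)
    (Y := fun n s => F (past k s) * Real.cos (cst * θ * incr (ψ (ρ / ((n : ℝ) + 1))) k s))
    (D' := fun s => T (s k).1 (s (k + 1)).1 / (2 * Real.pi))
    (Y' := fun s => F (past k s) * Real.cos (cst * θ))
    (a := θ ^ 2 / 2) (a' := θ' ^ 2 / 2) (C := |C'|) (K := (Real.cos (cst * θ'))⁻¹)
    (fun n => (meas_drop hb (htest n) k).aemeasurable)
    (fun n => ((hFm.comp mpast).mul (Real.measurable_cos.comp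
      ((meas_incr (htest n) k).const_mul _))).aemeasurable)
    (by positivity) (abs_nonneg _) (by positivity) (by nlinarith)
    (fun n => Eventually.of_forall fun s => by
      rw [abs_mul]
      calc |F (past k s)| * |Real.cos (cst * θ * incr (ψ (ρ / ((n : ℝ) + 1))) k s)|
          ≤ |C'| * 1 := mul_le_mul ((hC _).trans (le_abs_self _)) (Real.abs_cos_le_one _)
            (abs_nonneg _) (abs_nonneg _)
        _ = |C'| := mul_one _)
    (fun n => mgf_le hΩ hb hne hQ k (htest n) (bmp_abs (hψ _ (eps_pos hρ n))) hθ' h2)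
    (by
      filter_upwards [notMem_carpet hψ hΩ hb hQ hz (k + 1), (levStmt Ω hΩ hb hne Q hQ k).sign,
        mem_CC hΩ hb hne hQ, hQ.mono] with s g1 g2 g3 g4
      have hopen : IsOpen (Ω \ ((s (k + 1)).1 : Set ℂ)) :=
        hΩ.sdiff (s (k + 1)).1.isCompact.isClosed
      obtain ⟨r', hr', hbr'⟩ := Metric.isOpen_iff.1 hopen z ⟨hz, g1⟩
      have hbr : Metric.closedBall z (r' / 2) ⊆ Ω \ ((s (k + 1)).1 : Set ℂ) :=
        (Metric.closedBall_subset_ball (by linarith)).trans hbr'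
      obtain ⟨τ, hτ, hτφ⟩ := g2 z (r' / 2) (half_pos hr') (hbr.trans sdiff_subset)
        (disjoint_left.2 fun w hw hw' => (hbr hw).2 hw')
      filter_upwards [(eps_lim ρ).eventually_lt_const (half_pos hr')] with n hn
      refine ⟨?_, ?_⟩
      · have := hT _ _ (g3 k) (g3 (k + 1)) (g4 k).1 _ (eps_pos hρ n)
          ((Metric.closedBall_subset_closedBall hn.le).trans hbr)
        exact this
      · have e1 : incr (ψ (ρ / ((n : ℝ) + 1))) k s = τ := by
          have := hτφ (ψ (ρ / ((n : ℝ) + 1))) (bmp_test (hψ _ (eps_pos hρ n))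
            (Metric.closedBall_subset_ball hn))
          rw [(hψ _ (eps_pos hρ n)).one, mul_one] at this
          exact this
        rw [e1]
        rcases hτ with rfl | rfl
        · rw [mul_one]
        · rw [mul_neg, mul_one, Real.cos_neg])
    (m := ∫ s, F (past k s) ∂Q)
    (fun n => gff_theta hb hQ k (htest n) ⟨hFm, C', hC⟩ hθ.ne')
  obtain ⟨-, -, k3, k4⟩ := key
  have e : ∀ s : Sp Ω, θ ^ 2 / 2 * (T (s k).1 (s (k + 1)).1 / (2 * Real.pi)) =
      t * T (s k).1 (s (k + 1)).1 := by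
    intro s
    rw [hθ2]
    field_simp
    ring
  simp only [e] at k3 k4
  refine ⟨k3, ?_⟩
  rw [← hcθ, eq_div_iff hcos.ne', ← k4, ← integral_mul_const]
  refine integral_congr_ae (Eventually.of_forall fun s => ?_)
  simp only
  ring

end Vale.Agent.P155.NT613
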