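import Vale.Agent.P155.NT613.YE2
import Vale.Agent.P155.U613.Canon

/-!
# P155, block (R): transfer from the canonical space
-/

namespace Vale.Agent.P155.NT613

open MeasureTheory Filter Topology TopologicalSpace Set
open Vale.Agent.P155.Uq

section
variable {Ω : Set ℂ} {Θ : Type} [MeasurableSpace Θ] {P : Measure Θ}
    [IsProbabilityMeasure P] {G : ℕ → Θ → NonemptyCompacts ℂ}
    {H : ℕ → Θ → (ℂ → ℝ) → ℝ} {Q : Measure (Sp Ω)} [IsProbabilityMeasure Q]

theorem meas_fin (hG : ∀ k, Measurable (G k)) (n : ℕ) :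
    Measurable (fun x (l : Fin n) => G l x) := measurable_pi_lambda _ fun l => hG l

theorem meas_finS (n : ℕ) : Measurable (fun (s : Sp Ω) (l : Fin n) => (s l).1) :=
  measurable_pi_lambda _ fun _ => measurable_fst.comp (measurable_pi_apply _)

/-- the laws of finitely many carpets agree -/
theorem map_carpets (hG : ∀ k, Measurable (G k))
    (hlaw : ∀ (k m : ℕ) (χ : Fin m → ℂ → ℝ), (∀ i, IsTest Ω (χ i)) →
      ∀ F : (Fin k → NonemptyCompacts ℂ) × (Fin k → Fin m → ℝ) → ℝ, Continuous F →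
      (∃ C, ∀ y, |F y| ≤ C) →
      ∫ x, F (fun l => G l x, fun l i => H l x (χ i)) ∂P =
        ∫ s, F (fun l => (s l).1, fun l i => pr (s l).2 (χ i)) ∂Q) (n : ℕ) :
    P.map (fun x (l : Fin n) => G l x) = Q.map (fun (s : Sp Ω) (l : Fin n) => (s l).1) := by
  have m1 := meas_fin hG n
  have m2 := meas_finS (Ω := Ω) n
  have : IsProbabilityMeasure (P.map (fun x (l : Fin n) => G l x)) :=
    Measure.isProbabilityMeasure_map m1.aemeasurable
  have : IsProbabilityMeasure (Q.map (fun (s : Sp Ω) (l : Fin n) => (s l).1)) :=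
    Measure.isProbabilityMeasure_map m2.aemeasurable
  apply ext_of_forall_integral_eq_of_IsFiniteMeasure
  intro f
  rw [integral_map m1.aemeasurable f.continuous.measurable.aestronglyMeasurable,
    integral_map m2.aemeasurable f.continuous.measurable.aestronglyMeasurable]
  exact hlaw n 0 Fin.elim0 (fun i => i.elim0) (fun p => f p.1) (f.continuous.comp continuous_fst)
    ⟨‖f‖, fun y => by rw [← Real.norm_eq_abs]; exact f.norm_coe_le_norm _⟩

omit [IsProbabilityMeasure P] [IsProbabilityMeasure Q] in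
theorem tr_int (hG : ∀ k, Measurable (G k)) {n : ℕ}
    (h : P.map (fun x (l : Fin n) => G l x) = Q.map (fun (s : Sp Ω) (l : Fin n) => (s l).1))
    {g : (Fin n → NonemptyCompacts ℂ) → ℝ} (hg : Measurable g) :
    ∫ x, g (fun l => G l x) ∂P = ∫ s : Sp Ω, g (fun l => (s l).1) ∂Q := by
  have h4 := integral_map (μ := P) (meas_fin hG n).aemeasurable (f := g) hg.aestronglyMeasurable
  have h5 := integral_map (μ := Q) (meas_finS (Ω := Ω) n).aemeasurable (f := g)
    hg.aestronglyMeasurable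
  rw [← h4, ← h5, h]

omit [IsProbabilityMeasure P] [IsProbabilityMeasure Q] in
theorem tr_integrable (hG : ∀ k, Measurable (G k)) {n : ℕ}
    (h : P.map (fun x (l : Fin n) => G l x) = Q.map (fun (s : Sp Ω) (l : Fin n) => (s l).1))
    {g : (Fin n → NonemptyCompacts ℂ) → ℝ} (hg : Measurable g)
    (hi : Integrable (fun s : Sp Ω => g (fun l => (s l).1)) Q) :
    Integrable (fun x => g (fun l => G l x)) P := by
  have h4 := integrable_map_measure (μ := P) (f := fun x (l : Fin n) => G l x) (g := g)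
    hg.aestronglyMeasurable (meas_fin hG n).aemeasurable
  have h5 := integrable_map_measure (μ := Q) (f := fun (s : Sp Ω) (l : Fin n) => (s l).1) (g := g)
    hg.aestronglyMeasurable (meas_finS (Ω := Ω) n).aemeasurable
  rw [h] at h4
  exact h4.1 (h5.2 hi)

omit [IsProbabilityMeasure P] [IsProbabilityMeasure Q] in
theorem tr_ae (hG : ∀ k, Measurable (G k)) {n : ℕ}
    (h : P.map (fun x (l : Fin n) => G l x) = Q.map (fun (s : Sp Ω) (l : Fin n) => (s l).1))
    {A : Set (Fin n → NonemptyCompacts ℂ)} (hA : MeasurableSet A)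
    (hi : ∀ᵐ s ∂Q, (fun l : Fin n => ((s : Sp Ω) l).1) ∈ A) :
    ∀ᵐ x ∂P, (fun l : Fin n => G l x) ∈ A := by
  have h4 := ae_map_iff (μ := P) (f := fun x (l : Fin n) => G l x) (p := fun p => p ∈ A)
    (meas_fin hG n).aemeasurable hA
  have h5 := ae_map_iff (μ := Q) (f := fun (s : Sp Ω) (l : Fin n) => (s l).1) (p := fun p => p ∈ A)
    (meas_finS (Ω := Ω) n).aemeasurable hA
  rw [h] at h4
  exact h4.1 (h5.2 hi)

end

theorem isOpen_notMem (z : ℂ) : IsOpen {K : NonemptyCompacts ℂ | z ∉ (K : Set ℂ)} := by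
  have : {K : NonemptyCompacts ℂ | z ∉ (K : Set ℂ)} =
      {K : NonemptyCompacts ℂ | (K : Set ℂ) ⊆ {z}ᶜ} := by
    ext K
    simp only [subset_compl_singleton_iff, mem_ofPred_eq]
  rw [this]
  exact NonemptyCompacts.isOpen_subsets_of_isOpen isOpen_compl_singleton

/-- the transferred statement, for a measurable `T` -/
theorem radii_P {Ω : Set ℂ} {z : ℂ} {C : ℝ} {ψ : ℝ → ℂ → ℝ}
    (hψ : ∀ ε, 0 < ε → YD.IsBmp C z ε (ψ ε)) (hΩ : IsOpen Ω) (hb : Bornology.IsBounded Ω)
    (hz : z ∈ Ω) {Θ : Type} [MeasurableSpace Θ] (P : Measure Θ)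
    [IsProbabilityMeasure P] {G : ℕ → Θ → NonemptyCompacts ℂ}
    {H : ℕ → Θ → (ℂ → ℝ) → ℝ} (hS : IsSignedCarpets P Ω G H)
    {T : NonemptyCompacts ℂ → NonemptyCompacts ℂ → ℝ}
    (hTm : Measurable (fun p : NonemptyCompacts ℂ × NonemptyCompacts ℂ => T p.1 p.2))
    (hT : ∀ K K' : NonemptyCompacts ℂ, K ∈ P155.U.CC Ω → K' ∈ P155.U.CC Ω →
      (K : Set ℂ) ⊆ K' → ∀ ε > 0, Metric.closedBall z ε ⊆ Ω \ (K' : Set ℂ) →
      greenEnergy (Ω \ (K : Set ℂ)) (ψ ε) - greenEnergy (Ω \ (K' : Set ℂ)) (ψ ε) =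
        T K K' / (2 * Real.pi)) :
    (∀ᵐ x ∂P, ∀ k, z ∉ (G k x : Set ℂ)) ∧
    ∀ k, ∀ s : ℝ, 0 ≤ s → s < 1 / 8 →
        Integrable (fun x => Real.exp (s * T (G k x) (G (k + 1) x))) P ∧
        ∀ Φ : (Fin (k + 1) → NonemptyCompacts ℂ) → ℝ, Measurable Φ → (∃ C, ∀ y, |Φ y| ≤ C) →
          ∫ x, Φ (fun j => G j x) * Real.exp (s * T (G k x) (G (k + 1) x)) ∂P =
            (∫ x, Φ (fun j => G j x) ∂P) / Real.cos (Real.pi * Real.sqrt (2 * s)) := by
  obtain ⟨Q, hQ, hlaw⟩ := U613.canonStmt Ω hΩ hb ⟨z, hz⟩ P G H hS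
  have hprob := hQ.prob
  have hGm : ∀ k, Measurable (G k) := fun k => (hS.meas k).1
  have hmap := fun n => map_carpets hGm hlaw n
  refine ⟨?_, fun k s hs0 hs1 => ?_⟩
  · rw [ae_all_iff]
    intro k
    have hms : MeasurableSet {p : Fin (k + 1) → NonemptyCompacts ℂ |
        z ∉ (p (Fin.last k) : Set ℂ)} := by
      have hc : Continuous (fun p : Fin (k + 1) → NonemptyCompacts ℂ => p (Fin.last k)) :=
        continuous_apply (Fin.last k)
      exact ((isOpen_notMem z).preimage hc).measurableSet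
    exact tr_ae hGm (hmap (k + 1)) hms (notMem_carpet hψ hΩ hb hQ hz k)
  · have hgm : Measurable (fun p : Fin (k + 2) → NonemptyCompacts ℂ =>
        Real.exp (s * T (p (Fin.castSucc (Fin.last k))) (p (Fin.last (k + 1))))) := by
      have h1 : Measurable (fun p : Fin (k + 2) → NonemptyCompacts ℂ =>
          (p (Fin.castSucc (Fin.last k)), p (Fin.last (k + 1)))) :=
        (measurable_pi_apply _).prodMk (measurable_pi_apply _)
      exact Real.measurable_exp.comp ((hTm.comp h1).const_mul s)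
    have key : ∀ {Φ : (Fin (k + 1) → NonemptyCompacts ℂ) → ℝ}, Measurable Φ →
        (∃ C, ∀ y, |Φ y| ≤ C) →
        Integrable (fun t : Sp Ω => Real.exp (s * T (t k).1 (t (k + 1)).1)) Q ∧
        ∫ t : Sp Ω, Φ (fun j => (t j).1) * Real.exp (s * T (t k).1 (t (k + 1)).1) ∂Q =
          (∫ t : Sp Ω, Φ (fun j => (t j).1) ∂Q) / Real.cos (Real.pi * Real.sqrt (2 * s)) := by
      intro Φ hΦ hΦb
      exact radii_canon hψ hΩ hb hQ hz hT k
        (F := fun p => Φ (fun j => (p j).1))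
        ⟨hΦ.comp (measurable_pi_lambda _ fun j =>
          measurable_fst.comp (measurable_pi_apply j)), by
          obtain ⟨C, hC⟩ := hΦb
          exact ⟨C, fun p => hC _⟩⟩ hs0 hs1
    refine ⟨?_, fun Φ hΦ hΦb => ?_⟩
    · exact tr_integrable hGm (hmap (k + 2)) hgm
        (key (Φ := fun _ => 0) measurable_const ⟨0, fun _ => by simp⟩).1
    · have h3 := (key hΦ hΦb).2
      have hΦm : Measurable (fun p : Fin (k + 2) → NonemptyCompacts ℂ =>
          Φ (fun j : Fin (k + 1) => p j.castSucc)) := hΦ.comp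
        (measurable_pi_lambda _ fun j => measurable_pi_apply _)
      have e1 := tr_int hGm (hmap (k + 2)) (hΦm.mul hgm)
      have e2 := tr_int hGm (hmap (k + 1)) hΦ
      rw [← e2] at h3
      rw [← h3]
      exact e1

end Vale.Agent.P155.NT613
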