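import Vale.Agent.P155.NT613.YF

/-!
# P155, block (R7): assembly of (R)
-/

namespace Vale.Agent.P155.NT613

open MeasureTheory Filter Topology TopologicalSpace Set
open Vale.Agent.P155.Uq

theorem ldec_meas (hR5 : YD.R5) {Ω : Set ℂ} (hΩ : IsOpen Ω) (hb : Bornology.IsBounded Ω)
    (z : ℂ) : Measurable (fun p : NonemptyCompacts ℂ × NonemptyCompacts ℂ =>
      YD.ldec Ω p.1 p.2 z) := by
  have hcr : Measurable (fun K : NonemptyCompacts ℂ => YD.crad (YD.hole Ω K z) z) :=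
    (hR5 Ω z hΩ hb).measurable
  have hl : Measurable (fun K : NonemptyCompacts ℂ =>
      Real.log (YD.crad (YD.hole Ω K z) z)) := Real.measurable_log.comp hcr
  exact (hl.comp measurable_fst).sub (hl.comp measurable_snd)

theorem drop_ldec (hR1d : YD.R1d) (hR6 : YD.R6) {C : ℝ} {ψ : ℝ → ℂ → ℝ} {c : ℝ → ℝ} {z : ℂ}
    (hψ : ∀ ε : ℝ, 0 < ε → YD.IsBmp C z ε (ψ ε) ∧ ∀ U : Set ℂ, IsOpen U →
      Bornology.IsBounded U → IsSimplyConnected U → Metric.closedBall z ε ⊆ U →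
      greenEnergy U (ψ ε) = c ε + (2 * Real.pi)⁻¹ * Real.log (YD.crad U z)) {Ω : Set ℂ}
    (hΩ : IsOpen Ω) (hb : Bornology.IsBounded Ω) (hsc : SimplyConnectedSpace Ω)
    (K K' : NonemptyCompacts ℂ) (hK : K ∈ P155.U.CC Ω) (hK' : K' ∈ P155.U.CC Ω)
    (hKK : (K : Set ℂ) ⊆ K') (ε : ℝ) (hε : ε > 0)
    (hball : Metric.closedBall z ε ⊆ Ω \ (K' : Set ℂ)) :
    greenEnergy (Ω \ (K : Set ℂ)) (ψ ε) - greenEnergy (Ω \ (K' : Set ℂ)) (ψ ε) =
      YD.ldec Ω K K' z / (2 * Real.pi) := by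
  have key : ∀ L : NonemptyCompacts ℂ, L ∈ P155.U.CC Ω →
      Metric.closedBall z ε ⊆ Ω \ (L : Set ℂ) →
      greenEnergy (Ω \ (L : Set ℂ)) (ψ ε) =
        c ε + (2 * Real.pi)⁻¹ * Real.log (YD.crad (YD.hole Ω L z) z) := by
    intro L hL hballL
    have hopen : IsOpen (Ω \ (L : Set ℂ)) := hΩ.sdiff L.isCompact.isClosed
    have hzL : z ∈ Ω \ (L : Set ℂ) := hballL (Metric.mem_closedBall_self hε.le)
    have hsub : Metric.closedBall z ε ⊆ connectedComponentIn (Ω \ (L : Set ℂ)) z :=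
      (convex_closedBall z ε).isPreconnected.subset_connectedComponentIn
        (Metric.mem_closedBall_self hε.le) hballL
    have h1 := hR1d (Ω \ (L : Set ℂ)) z (ψ ε) hopen (hb.subset sdiff_subset) hzL
      (bmp_test (hψ ε hε).1 hsub)
    rw [h1]
    exact (hψ ε hε).2 (YD.hole Ω L z) hopen.connectedComponentIn
      ((hb.subset sdiff_subset).subset (connectedComponentIn_subset _ _))
      (hR6 Ω z L hΩ hb hsc L.isCompact hL.1 (Or.inr hL.2.1) hzL).1 hsub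
  rw [key K hK (hball.trans (sdiff_subset_sdiff_right hKK)), key K' hK' hball]
  unfold YD.ldec
  rw [div_eq_inv_mul]
  ring

theorem r7 : YD.R7 := by
  intro hR1 hR1d _ hR5 hR6 Ω hΩ hb hne hsc Θ _ P hP G H hS z hz
  obtain ⟨C, φ, c, hφ⟩ := hR1
  have h := radii_P (ψ := φ z) (fun ε hε => (hφ z ε hε).1) hΩ hb hz P hS
    (T := fun K K' : NonemptyCompacts ℂ => YD.ldec Ω (K : Set ℂ) (K' : Set ℂ) z)
    (ldec_meas hR5 hΩ hb z)
    (drop_ldec hR1d hR6 (ψ := φ z) (hφ z) hΩ hb hsc)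
  refine ⟨h.1, fun k => ⟨?_, fun s hs0 hs1 => ?_⟩⟩
  · have hG : ∀ k, Measurable (G k) := fun k => (hS.meas k).1
    have h1 : Measurable (fun x => (G k x, G (k + 1) x)) := (hG k).prodMk (hG (k + 1))
    have h2 := (ldec_meas hR5 hΩ hb z).comp h1
    simp only [Function.comp_def] at h2
    exact h2
  · exact ⟨(h.2 k s hs0 hs1).1, fun Φ hΦ hΦb => (h.2 k s hs0 hs1).2 Φ hΦ.measurable hΦb⟩

end Vale.Agent.P155.NT613
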