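import Vale.Agent.P155.NT613.YR7
import Vale.Agent.P155.NT814Y.R1d
import Vale.Agent.P155.Y877.R1
import Vale.Agent.P155.NT34.YR56

/-!
# P155, block (R): the conformal radii, assembled
-/

namespace Vale.Agent.P155.NT613

/-- **(R)** for all signed carpets -/
theorem rgoal : YD.RGoal := r7 Y877.r1 NT814Y.r1d r4 NT34.Y.r5 NT34.Y.r6

end Vale.Agent.P155.NT613
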