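import Vale.Agent.P155.NT613.Num

/-!
# P155, block NT-B4: second moments of the weights of the zones
-/

namespace Vale.Agent.P155.NT613

open Vale.Agent.P155 Finset Skel BD J H12 E4

/-- **a zone** -/
theorem zone_sq (hsec : SecP) : ∃ c γ : ℝ, 0 < c ∧ 0 < γ ∧ γ ≤ 1 ∧ ∀ e0 : ℝ, 0 < e0 → e0 ≤ 1 →
    ∃ c1 > (0 : ℝ), ∀ c0 C0 : ℝ, 0 < c0 → 0 ≤ C0 → ∃ C : ℝ, 0 ≤ C ∧
    ∀ (R : ℕ) (T : Temp), 1 ≤ R → Fits T R → ∀ (p : Pt) (n0 h : ℕ) (U : Pt → ℝ), 1 ≤ n0 →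
      c0 * R ≤ n0 → (h : ℝ) ≤ (R : ℝ) ^ (1 - e0) → IsGreen T.faceSet (dens C0 p n0) U →
      (∀ r : ℕ, 1 ≤ r → 128 * r ≤ h →
        Ex T.V (SQ (Sw T (265 * r)) (Dz T U r)) ≤ C * (R : ℝ) ^ (-c1)) ∧
      ∀ (ρ D : ℕ), D + 2 ≤ ρ → (ρ : ℝ) ≤ 320 * (R : ℝ) ^ (min (c * (e0 * γ / 42) / 16) (γ / 72)) →
        Ex T.V (SQ (Sw T (3 * ρ)) (Db T (fun x => U x + dens C0 p n0 x) ρ D)) ≤
          C * (R : ℝ) ^ (-c1) := by
  obtain ⟨c, hc, hsec⟩ := hsec
  obtain ⟨γ, hγ, hγ1, hpot⟩ := pot_poly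
  obtain ⟨K2, hK20, hK2⟩ := zone_sum
  refine ⟨c, γ, hc, hγ, hγ1, ?_⟩
  intro e0 he0 he1
  obtain ⟨a, ha⟩ : ∃ a : ℝ, a = e0 * γ / 42 := ⟨_, rfl⟩
  have ha0 : 0 < a := by rw [ha]; positivity
  obtain ⟨Ca, hCa, hsec⟩ := hsec a ha0
  obtain ⟨Clog, hClog, hlog⟩ := log_sq ha0
  refine ⟨min (min (c * a) (21 * a)) (min (c * a / 2) (γ / 4)), by positivity, ?_⟩
  intro c0 C0 hc0 hC0
  obtain ⟨Cd, hCd, hpot⟩ := hpot c0 C0 hc0 hC0
  obtain ⟨M1, hM1⟩ : ∃ M1 : ℝ, M1 = 316200 * (K2 * C0) := ⟨_, rfl⟩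
  obtain ⟨K1, hK1⟩ : ∃ K1 : ℝ, K1 = Cd * (3 / c0) ^ γ := ⟨_, rfl⟩
  obtain ⟨K, hK⟩ : ∃ K : ℝ, K = (K2 + 128) * C0 := ⟨_, rfl⟩
  obtain ⟨B1, hB1⟩ : ∃ B1 : ℝ, B1 = Cd * (640 / c0) ^ γ + 8 * C0 / c0 := ⟨_, rfl⟩
  have hM10 : 0 ≤ M1 := by rw [hM1]; positivity
  have hK10 : 0 ≤ K1 := by rw [hK1]; positivity
  have hK0 : 0 ≤ K := by rw [hK]; positivity
  have hB10 : 0 ≤ B1 := by rw [hB1]; positivity
  refine ⟨Ca * (M1 ^ 2 + M1 * (1334275 * K1) * Clog) +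
    Ca * (81 * K ^ 2 * 320 ^ 8 + 729 * K * B1 * 320 ^ 8 * Clog), by positivity, ?_⟩
  intro R T hR hfit p n0 h U hn0 hcn hh hU
  have hR1 : (1 : ℝ) ≤ R := by exact_mod_cast hR
  have hRp : (0 : ℝ) < R := by linarith
  have hn0r : (0 : ℝ) < n0 := by exact_mod_cast hn0
  have hfin := A1.faceSet_finite T
  have hCPf : G45.CPr T.faceSet := Vale.Agent.P155.L.cp_faceSet T
  have hU0 := G45.green_nonneg hfin hU (fun y _ => dens_nonneg hC0 p n0 y)
  have hd0 : ∀ y, 0 ≤ E4.dens C0 p n0 y := fun y => dens_nonneg hC0 p n0 y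
  have hpow : ∀ m1 : ℝ, min (min (c * a) (21 * a)) (min (c * a / 2) (γ / 4)) ≤ m1 →
      (R : ℝ) ^ (-m1) ≤
        (R : ℝ) ^ (-(min (min (c * a) (21 * a)) (min (c * a / 2) (γ / 4)))) := by
    intro m1 hm1
    apply Real.rpow_le_rpow_of_exponent_le hR1
    linarith
  constructor
  · intro r hr hrh
    have hr1 : (1 : ℝ) ≤ r := by exact_mod_cast hr
    obtain ⟨b, hb⟩ : ∃ b : ℝ, b = K1 * (R : ℝ) ^ (-(42 * a)) := ⟨_, rfl⟩
    have hb0 : 0 ≤ b := by rw [hb]; positivity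
    have hUb : ∀ z ∈ Zn T r, U z ≤ b := by
      intro z hz
      obtain ⟨g1, g2, g3⟩ := mem_Zn.1 hz
      refine (hpot R T hR hfit p n0 U hn0 hcn hU z).trans ?_
      rw [hb, hK1, mul_assoc]
      apply mul_le_mul_of_nonneg_left _ hCd
      have h1 : (dF T.faceSet z : ℝ) / n0 ≤ 3 / c0 * (R : ℝ) ^ (-e0) := by
        rw [div_le_iff₀ hn0r]
        have h2 : (dF T.faceSet z : ℝ) ≤ 3 * h := by
          have : dF T.faceSet z ≤ 3 * h := by omega
          exact_mod_cast this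
        have h3 : (R : ℝ) ^ (1 - e0) = (R : ℝ) ^ (-e0) * R := by
          rw [sub_eq_neg_add, Real.rpow_add hRp, Real.rpow_one]
        rw [h3] at hh
        have h4 : 0 < (R : ℝ) ^ (-e0) := Real.rpow_pos_of_pos hRp _
        calc (dF T.faceSet z : ℝ) ≤ 3 * ((R : ℝ) ^ (-e0) * R) := h2.trans (by linarith)
          _ = 3 / c0 * (R : ℝ) ^ (-e0) * (c0 * R) := by field_simp
          _ ≤ _ := mul_le_mul_of_nonneg_left hcn (by positivity)
      calc ((dF T.faceSet z : ℝ) / n0) ^ γ ≤ (3 / c0 * (R : ℝ) ^ (-e0)) ^ γ :=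
            Real.rpow_le_rpow (by positivity) h1 hγ.le
        _ = (3 / c0) ^ γ * (R : ℝ) ^ (-(42 * a)) := by
            rw [Real.mul_rpow (by positivity) (by positivity), ← Real.rpow_mul hRp.le]
            congr 2
            rw [ha]
            ring
    have hS := hK2 T.faceSet p n0 (129 * r) C0 U hfin hCPf hn0 hC0 hU (by omega)
      (Zn T r) (fun x hx => by
        have := (mem_Zn.1 hx).2.2
        omega)
    have h1 := hsec R T hR hfit (Sw T (265 * r)) (Dz T U r) (19 * b / (r : ℝ) ^ 2) M1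
      (265 * (r : ℝ)) (by positivity) (fun x hx => (mem_Sw.1 hx).1) (fun x hx => by
        have := (mem_Sw.1 hx).2
        exact_mod_cast this) (fun x _ => Dz_nonneg hU0 r x) (fun x _ => Dz_le hr hb0 hUb x)
      (by rw [hM1]; exact sum_Dz_le hU0 hr hS _)
    have h2 := zone_num (E := Ex T.V (SQ (Sw T (265 * r)) (Dz T U r))) hR1 hCa hM10
      (by linarith : (0 : ℝ) < r) (hlog R hR) hClog hK10 hb h1
    refine h2.trans ?_
    have h3 := hpow _ (min_le_left (min (c * a) (21 * a)) (min (c * a / 2) (γ / 4)))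
    have h4 : 0 ≤ Ca * (81 * K ^ 2 * 320 ^ 8 + 729 * K * B1 * 320 ^ 8 * Clog) := by positivity
    have h5 : 0 ≤ Ca * (M1 ^ 2 + M1 * (1334275 * K1) * Clog) := by positivity
    calc _ ≤ Ca * (M1 ^ 2 + M1 * (1334275 * K1) * Clog) *
          (R : ℝ) ^ (-(min (min (c * a) (21 * a)) (min (c * a / 2) (γ / 4)))) :=
          mul_le_mul_of_nonneg_left h3 h5
      _ ≤ _ := by
          apply mul_le_mul_of_nonneg_right _ (by positivity)
          linarith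
  · intro ρ D hD hρ
    have hρ1 : (1 : ℝ) ≤ ρ := by
      have : 1 ≤ ρ := by omega
      exact_mod_cast this
    rw [← ha] at hρ
    obtain ⟨ab, hab⟩ : ∃ ab : ℝ, ab = min (c * a / 16) (γ / 72) := ⟨_, rfl⟩
    rw [← hab] at hρ
    have hab0 : 0 < ab := by rw [hab]; positivity
    obtain ⟨b, hb⟩ : ∃ b : ℝ, b = B1 * (R : ℝ) ^ ((ab - 1) * γ) := ⟨_, rfl⟩
    have hb0 : 0 ≤ b := by rw [hb]; positivity
    have hWb : ∀ z ∈ Zb T ρ, (fun x => U x + E4.dens C0 p n0 x) z ≤ b := by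
      intro z hz
      have g2 := (mem_Zb.1 hz).2
      have h1 : U z ≤ Cd * (640 / c0) ^ γ * (R : ℝ) ^ ((ab - 1) * γ) := by
        refine (hpot R T hR hfit p n0 U hn0 hcn hU z).trans ?_
        rw [mul_assoc]
        apply mul_le_mul_of_nonneg_left _ hCd
        have h2 : (dF T.faceSet z : ℝ) / n0 ≤ 640 / c0 * (R : ℝ) ^ (ab - 1) := by
          rw [div_le_iff₀ hn0r]
          have h3 : (dF T.faceSet z : ℝ) ≤ 2 * ρ := by exact_mod_cast g2
          have h4 : (R : ℝ) ^ ab = (R : ℝ) ^ (ab - 1) * R := by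
            rw [← Real.rpow_add_one hRp.ne']
            congr 1
            ring
          have h5 : 0 < (R : ℝ) ^ (ab - 1) := Real.rpow_pos_of_pos hRp _
          rw [h4] at hρ
          calc (dF T.faceSet z : ℝ) ≤ 640 * ((R : ℝ) ^ (ab - 1) * R) := by linarith
            _ = 640 / c0 * (R : ℝ) ^ (ab - 1) * (c0 * R) := by field_simp
            _ ≤ _ := mul_le_mul_of_nonneg_left hcn (by positivity)
        calc ((dF T.faceSet z : ℝ) / n0) ^ γ ≤ (640 / c0 * (R : ℝ) ^ (ab - 1)) ^ γ :=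
              Real.rpow_le_rpow (by positivity) h2 hγ.le
          _ = _ := by
              rw [Real.mul_rpow (by positivity) (by positivity), ← Real.rpow_mul hRp.le]
      have h2 : E4.dens C0 p n0 z ≤ 8 * C0 / c0 * (R : ℝ) ^ ((ab - 1) * γ) := by
        refine (dens_le hC0 p hn0 z).trans ?_
        have h3 : 8 * C0 / (n0 : ℝ) ^ 2 ≤ 8 * C0 / (c0 * R) := by
          apply div_le_div_of_nonneg_left (by positivity) (by positivity)
          have h4 : (1 : ℝ) ≤ n0 := by exact_mod_cast hn0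
          nlinarith
        refine h3.trans ?_
        have h4 : (R : ℝ) ^ (-(1 : ℝ)) ≤ (R : ℝ) ^ ((ab - 1) * γ) := by
          apply Real.rpow_le_rpow_of_exponent_le hR1
          have : 0 < ab * γ := by positivity
          nlinarith
        rw [Real.rpow_neg_one] at h4
        calc 8 * C0 / (c0 * R) = 8 * C0 / c0 * (R : ℝ)⁻¹ := by field_simp
          _ ≤ _ := mul_le_mul_of_nonneg_left h4 (by positivity)
      show U z + E4.dens C0 p n0 z ≤ b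
      rw [hb, hB1, add_mul]
      linarith
    have hW0 : ∀ x, 0 ≤ (fun x => U x + E4.dens C0 p n0 x) x :=
      fun x => add_nonneg (hU0 x) (hd0 x)
    have hS : ∑ z ∈ Zb T ρ, (fun x => U x + E4.dens C0 p n0 x) z ≤ K * (ρ : ℝ) ^ 2 := by
      simp only
      rw [Finset.sum_add_distrib]
      have h1 := hK2 T.faceSet p n0 ρ C0 U hfin hCPf hn0 hC0 hU (by omega)
        (Zb T ρ) (fun x hx => (mem_Zb.1 hx).2)
      have h2 := dens_mass hC0 p hn0 (Zb T ρ)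
      have h3 : (1 : ℝ) ≤ (ρ : ℝ) ^ 2 := one_le_pow₀ hρ1
      have h4 : 128 * C0 ≤ 128 * C0 * (ρ : ℝ) ^ 2 := le_mul_of_one_le_right (by positivity) h3
      rw [hK]
      nlinarith
    have hM2 : ∑ y ∈ Sw T (3 * ρ), Db T (fun x => U x + E4.dens C0 p n0 x) ρ D y ≤
        9 * K * (ρ : ℝ) ^ 4 := by
      refine (sum_Db_le hW0 hD hS _).trans (le_of_eq ?_)
      ring
    have h1 := hsec R T hR hfit (Sw T (3 * ρ)) (Db T (fun x => U x + E4.dens C0 p n0 x) ρ D)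
      (9 * b * (ρ : ℝ) ^ 2) (9 * K * (ρ : ℝ) ^ 4) (3 * (ρ : ℝ)) (by positivity)
      (fun x hx => (mem_Sw.1 hx).1)
      (fun x hx => by
        have := (mem_Sw.1 hx).2
        exact_mod_cast this) (fun x _ => Db_nonneg hW0 ρ D x) (fun x _ => Db_le hD hb0 hWb x)
      hM2
    have h2 := bot_num (e0 := e0) (E := Ex T.V (SQ (Sw T (3 * ρ)) (Db T
      (fun x => U x + E4.dens C0 p n0 x) ρ D))) hR1 hCa hK0 (by linarith : (0 : ℝ) ≤ ρ)
      (hlog R hR) hClog hγ hγ1 he1 (by rw [ha]; ring) hab0 (by rw [hab]; exact min_le_left _ _)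
      (by rw [hab]; exact min_le_right _ _) hρ hB10 hb h1
    refine h2.trans ?_
    have h3 := hpow _ (min_le_right (min (c * a) (21 * a)) (min (c * a / 2) (γ / 4)))
    have h4 : 0 ≤ Ca * (81 * K ^ 2 * 320 ^ 8 + 729 * K * B1 * 320 ^ 8 * Clog) := by positivity
    have h5 : 0 ≤ Ca * (M1 ^ 2 + M1 * (1334275 * K1) * Clog) := by positivity
    calc _ ≤ Ca * (81 * K ^ 2 * 320 ^ 8 + 729 * K * B1 * 320 ^ 8 * Clog) *
          (R : ℝ) ^ (-(min (min (c * a) (21 * a)) (min (c * a / 2) (γ / 4)))) :=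
          mul_le_mul_of_nonneg_left h3 h4
      _ ≤ _ := by
          apply mul_le_mul_of_nonneg_right _ (by positivity)
          linarith

end Vale.Agent.P155.NT613
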