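import Vale.Agent.P155.NT613.Main
import Vale.Agent.P155.NT905.UnxDet
import Vale.Agent.P155.NT743.FM

/-!
# P155, NT, visit bound (4): unexplored loops near the boundary of the polygon

The sum over the unexplored loops of (mass of the layer function near the polygon) × (mass of `φ`)
is small in mean, uniformly over all stopping times, centres and test functions.
-/

namespace Vale.Agent.P155.NT613

open Vale.Agent.P155 Finset SW HT T905 T802 T862 G45 J H904 H12 NT E4 S862 NT905 NT743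

open Classical in
/-- the part of `g` near the polygon -/
noncomputable def gz (T : Temp) (h : ℕ) (g : Pt → ℝ) : Pt → ℝ :=
  fun x => if dF T.faceSet x ≤ h then g x else 0

/-- the density of the uniform measure is below `dens` -/
theorem flat_dens {R : ℕ} (hR : 1 ≤ R) {C0 : ℝ} (hC0 : 0 ≤ C0) {y : Pt} (hy : y ∈ box (0, 0) R) :
    C0 / (R : ℝ) ^ 2 ≤ E4.dens (8 * C0) ((R : ℤ) + 1, 0) R y := by
  have hR1 : (1 : ℝ) ≤ R := by exact_mod_cast hR
  have hR0 : (0 : ℝ) < R := by linarith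
  have h1 : dn ((R : ℤ) + 1, 0) y ≤ 2 * R + 1 := by
    rw [mem_box_coord] at hy
    rw [H904.dn_le_iff, abs_le, abs_le]
    simp only at hy ⊢
    push_cast at hy ⊢
    refine ⟨⟨?_, ?_⟩, ?_, ?_⟩ <;> omega
  have h2 : (dn ((R : ℤ) + 1, 0) y : ℝ) ≤ 2 * R + 1 := by exact_mod_cast h1
  unfold E4.dens
  rw [div_le_div_iff₀ (by positivity) (by positivity)]
  have h3 : ((R : ℝ) + dn ((R : ℤ) + 1, 0) y) ^ 3 ≤ (4 * R) ^ 3 :=
    pow_le_pow_left₀ (by positivity) (by linarith) 3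
  calc C0 * ((R : ℝ) + dn ((R : ℤ) + 1, 0) y) ^ 3 ≤ C0 * (4 * R) ^ 3 :=
        mul_le_mul_of_nonneg_left h3 hC0
    _ = 8 * (8 * C0) * R * (R : ℝ) ^ 2 := by ring

/-- an unexplored loop around a layer point passes near it -/
theorem unx_near {T : Temp} {xS : ℤ} {τ : Stop T.V xS} {ω : Conf} (hω : ω ∈ DD T.V)
    (hN : τ.New ω) {x : Pt} {s : ℕ} (hO : (OE T (τ.E ω)).Finite)
    (hdF : dF (OE T (τ.E ω)) x ≤ 2 * s) {A : Set Pt} (hA : A ∈ Loops ω)
    (hU : Unx (τ.E ω) A) (hs : surr ω A x) : ∃ u ∈ A, u ∈ box x (2 * s + 1) := by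
  obtain ⟨p, hp, hxp⟩ := H904.exists_dF (exists_notMem hO) x
  have hpb : p ∈ box x (2 * s) := by
    rw [mem_box_dn905]; omega
  have hns : ¬ surr ω A p := by
    intro h
    have h1 := A1.L_in hω hA h
    by_cases ht : Touch (τ.E ω) p
    · exact unx_touch hω hN.1 hA hU ht h
    · exact hp ⟨h1, ht⟩
  have hxb : x ∈ box x (2 * s) := by
    rw [mem_box_dn905, H904.dn_self]; omega
  refine (pass_count hω x (2 * s) {A} _ x p hxb hpb le_rfl ?_ ?_).2 A (mem_singleton_self A)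
  · intro B hB
    rw [mem_singleton] at hB
    rw [hB]; exact hA
  · intro B hB
    rw [mem_singleton] at hB
    rw [hB]; exact ⟨hs, hns⟩

/-- a loop around two distant faces is big -/
theorem big_of_two {V : Finset Pt} {ω : Conf} (hω : ω ∈ DD V) {A : Set Pt} (hA : A ∈ Loops ω)
    {x y : Pt} {h : ℕ} (hx : surr ω A x) (hy : surr ω A y) (hxy : 2 * h < dn x y) :
    ∀ z, ∃ v ∈ A, v ∉ box z h := by
  intro z
  by_cases h1 : x ∈ box z h
  · refine leaves_box hω hA (fun h2 => ?_) hy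
    rw [mem_box_dn905] at h1 h2
    have h3 := H904.dn_tri x z y
    rw [H904.dn_comm x z] at h3
    omega
  · exact leaves_box hω hA h1 hx

open Classical in
/-- **the polygon zone** -/
theorem zone_unx (e0 : ℝ) (he0 : 0 < e0) : ∃ c > (0 : ℝ), ∀ C0 Cc : ℝ, 0 ≤ C0 → 0 ≤ Cc →
    ∃ C : ℝ, 0 ≤ C ∧ ∀ (R : ℕ) (T : Temp), 1 ≤ R → Skel.Fits T R → ∀ s h : ℕ, 1 ≤ s →
    8 * s ≤ R → ((2 * s : ℕ) : ℝ) ≤ (R : ℝ) ^ c → (h : ℝ) ≤ (R : ℝ) ^ (1 - e0) → h ≤ R →
    ∃ F : Conf → ℝ, (∀ ω, 0 ≤ F ω) ∧ Ex T.V F ≤ C * (R : ℝ) ^ (-c) ∧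
    ∀ (xS : ℤ) (τ : Stop T.V xS), ∀ ω ∈ DD T.V, τ.New ω → ∀ (φ u χ : Pt → ℝ),
      (∀ y, |φ y| ≤ C0 / (R : ℝ) ^ 2) → (∀ y, φ y ≠ 0 → 3 * h < dF T.faceSet y) →
      IsCut (OE T (τ.E ω)) s Cc χ → IsGreen (OE T (τ.E ω)) φ u →
      ∑ A ∈ (LF ω).filter (fun A => Unx (τ.E ω) A),
        |mass ω (gz T h (fL (OE T (τ.E ω)) φ χ u)) A * mass ω φ A| ≤ F ω := by
  obtain ⟨c, hc, hnp⟩ := nearPoly e0 he0
  obtain ⟨γ', hγ', hγ1', hmass⟩ := mass_meso
  refine ⟨c / 2, by positivity, ?_⟩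
  intro C0 Cc hC0 hCc
  obtain ⟨C1, hC1, hnp⟩ := hnp 1 (8 * C0) Cc one_pos (by positivity) hCc
  obtain ⟨M, hM, hmass⟩ := hmass (8 * C0) Cc (by positivity)
  obtain ⟨Cτ, hCτ, htau⟩ := tau_small HT.l_cosh K.c_height' (ε := c / 2) (by positivity) (c / 2)
  refine ⟨9 * C0 * (C1 + M * Cτ), by positivity, ?_⟩
  intro R T hR hfit s h hs h8 hsR hh hhR
  have hR1 : (1 : ℝ) ≤ R := by exact_mod_cast hR
  have hR0 : (0 : ℝ) < R := by linarith
  have hRc : (R : ℝ) ^ (c / 2) ≤ (R : ℝ) ^ c :=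
    Real.rpow_le_rpow_of_exponent_le hR1 (by linarith)
  obtain ⟨F0, hF0, hEF, hF⟩ := hnp R T hR hfit ((R : ℤ) + 1, 0) R s (2 * s) h (by linarith) hs
    (by omega) h8 hhR (hsR.trans hRc) hh
  set S0 := box ((0 : ℤ), (0 : ℤ)) R with hS0
  have hcard : (S0.card : ℝ) * (C0 / (R : ℝ) ^ 2) ≤ 9 * C0 := by
    have h1 : (S0.card : ℝ) = (2 * (R : ℝ) + 1) ^ 2 := BD.card_box _ _
    rw [h1, mul_div_assoc', div_le_iff₀ (by positivity)]
    have h2 : (2 * (R : ℝ) + 1) ^ 2 ≤ (3 * R) ^ 2 :=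
      pow_le_pow_left₀ (by positivity) (by linarith) 2
    nlinarith [mul_le_mul_of_nonneg_right h2 hC0]
  refine ⟨fun ω => 9 * C0 * ((R : ℝ) ^ (c / 2) * F0 ω + M * tauN S0 ((R : ℝ) ^ (c / 2)) ω),
    fun ω => ?_, ?_, ?_⟩
  · have h1 := hF0 ω
    have h2 := tauN_nonneg S0 ((R : ℝ) ^ (c / 2)) ω
    positivity
  · rw [H12.Ex_mul, H12.Ex_add, H12.Ex_mul, H12.Ex_mul]
    have h1 : (R : ℝ) ^ (c / 2) * Ex T.V F0 ≤ C1 * (R : ℝ) ^ (-(c / 2)) := by
      calc (R : ℝ) ^ (c / 2) * Ex T.V F0 ≤ (R : ℝ) ^ (c / 2) * (C1 * (R : ℝ) ^ (-c)) :=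
            mul_le_mul_of_nonneg_left hEF (by positivity)
        _ = C1 * ((R : ℝ) ^ (c / 2) * (R : ℝ) ^ (-c)) := by ring
        _ = _ := by
            rw [← Real.rpow_add hR0]
            congr 2
            ring
    have h2 := htau R T hR hfit
    have h3 := mul_le_mul_of_nonneg_left h2 hM
    calc 9 * C0 * ((R : ℝ) ^ (c / 2) * Ex T.V F0 + M * Ex T.V (tauN S0 ((R : ℝ) ^ (c / 2))))
        ≤ 9 * C0 * (C1 * (R : ℝ) ^ (-(c / 2)) + M * (Cτ * (R : ℝ) ^ (-(c / 2)))) := by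
          apply mul_le_mul_of_nonneg_left _ (by positivity)
          exact add_le_add h1 h3
      _ = _ := by ring
  · intro xS τ ω hω hN φ u χ hφ hsupp hχ hu
    have hO : (OE T (τ.E ω)).Finite := S743.oe_finite T (τ.E ω)
    have hOs : OE T (τ.E ω) ⊆ T.faceSet := fun f hf => hf.1
    have hOb : OE T (τ.E ω) ⊆ (S0 : Set Pt) := hOs.trans hfit
    have hCP : CPr (OE T (τ.E ω)) := Stop.cpr (τ := τ) hω
    have hq : (((R : ℤ) + 1, 0) : Pt) ∉ OE T (τ.E ω) := by
      intro hc2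
      have := hOb hc2
      rw [mem_coe, hS0, mem_box_coord] at this
      simp at this
    have hφ0 : ∀ y, y ∉ S0 → φ y = 0 := by
      intro y hy
      by_contra hne
      have h1 := hsupp y hne
      have h2 : y ∈ T.faceSet := BD.mem_of_lt_dF (z := y) (by rw [H904.dn_self]; omega)
      exact hy (hfit h2)
    have hφd : ∀ y, |φ y| ≤ E4.dens (8 * C0) ((R : ℤ) + 1, 0) R y := by
      intro y
      by_cases hy : y ∈ S0
      · exact (hφ y).trans (flat_dens hR hC0 hy)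
      · rw [hφ0 y hy, abs_zero]
        exact dens_nonneg (by positivity) _ _ _
    set g := fL (OE T (τ.E ω)) φ χ u with hg
    have hgS : ∀ x, x ∉ S0 → g x = 0 := by
      intro x hx
      exact fL_zero_off hO hs hχ hu x (fun h => hx (by
        have := hOb ((Set.Finite.mem_toFinset hO).1 h)
        exact_mod_cast this))
    have hgzS : ∀ x, x ∉ S0 → gz T h g x = 0 := by
      intro x hx
      unfold gz
      rw [hgS x hx, ite_self]
    obtain ⟨m1, -, -⟩ := hmass (OE T (τ.E ω)) ((R : ℤ) + 1, 0) R s χ φ u hO hCP hq hR hs h8 hχ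
      hφd hu
    have hτ0 := tauN_nonneg S0 ((R : ℝ) ^ (c / 2)) ω
    -- one loop
    have hone : ∀ A ∈ (LF ω).filter (fun A => Unx (τ.E ω) A),
        |mass ω (gz T h g) A * mass ω φ A| ≤
          min (F0 ω) M * ∑ y ∈ S0, |φ y| * (if surr ω A y then 1 else 0) := by
      intro A hA
      obtain ⟨hA1, hAU⟩ := mem_filter.1 hA
      have hAL := (mem_LF hω).1 hA1
      have hmin0 : 0 ≤ min (F0 ω) M := le_min (hF0 ω) hM
      have hsum0 : ∀ y ∈ S0, 0 ≤ |φ y| * (if surr ω A y then (1 : ℝ) else 0) := fun y _ => by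
        split_ifs <;> simp
      have h2 : |mass ω φ A| ≤ ∑ y ∈ S0, |φ y| * (if surr ω A y then 1 else 0) := by
        rw [mass_eq_sum hφ0]
        refine (abs_sum_le_sum_abs _ _).trans (sum_le_sum fun y _ => ?_)
        rw [abs_mul]
        refine mul_le_mul_of_nonneg_left ?_ (abs_nonneg _)
        split_ifs <;> simp
      by_cases hy : ∃ y, φ y ≠ 0 ∧ surr ω A y
      swap
      · push Not at hy
        have h3 : mass ω φ A = 0 := by
          rw [mass_eq_sum hφ0]
          refine sum_eq_zero fun y _ => ?_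
          by_cases h4 : φ y = 0
          · rw [h4, zero_mul]
          · rw [if_neg (hy y h4), mul_zero]
        rw [h3, mul_zero, abs_zero]
        exact mul_nonneg hmin0 (sum_nonneg hsum0)
      obtain ⟨y, hy1, hy2⟩ := hy
      rw [abs_mul]
      refine mul_le_mul ?_ h2 (abs_nonneg _) hmin0
      -- the set of the zone points inside `A`
      set SA := S0.filter (fun x => (dF T.faceSet x ≤ h ∧ g x ≠ 0) ∧ surr ω A x) with hSA
      have h4 : |mass ω (gz T h g) A| ≤ ∑ x ∈ SA, |g x| := by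
        rw [mass_eq_sum hgzS]
        refine (abs_sum_le_sum_abs _ _).trans ?_
        rw [hSA, sum_filter]
        refine sum_le_sum fun x _ => ?_
        rw [abs_mul]
        unfold gz
        by_cases k1 : dF T.faceSet x ≤ h
        · rw [if_pos k1]
          by_cases k2 : surr ω A x
          · by_cases k3 : g x = 0
            · rw [k3, abs_zero, zero_mul]
              split_ifs <;> simp
            · rw [if_pos k2, if_pos ⟨⟨k1, k3⟩, k2⟩, abs_one, mul_one]
          · rw [if_neg k2, abs_zero, mul_zero]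
            split_ifs <;> positivity
        · rw [if_neg k1, abs_zero, zero_mul]
          split_ifs <;> positivity
      refine h4.trans (le_min ?_ (m1 SA))
      rcases SA.eq_empty_or_nonempty with hem | ⟨x0, hx0⟩
      · rw [hem, sum_empty]
        exact hF0 ω
      have hbig : ∀ z, ∃ v ∈ A, v ∉ box z h := by
        obtain ⟨-, ⟨k1, -⟩, k2⟩ := mem_filter.1 hx0
        refine big_of_two hω hAL k2 hy2 ?_
        have h5 := hsupp y hy1
        have h6 := H904.dF_lip (O := T.faceSet) (BDK.exists_notMem T) y x0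
        rw [H904.dn_comm] at h6
        omega
      refine hF ω hω A hAL hbig (OE T (τ.E ω)) χ φ u hCP hOs hχ hφd hu SA (fun x hx => ?_)
      obtain ⟨-, ⟨k1, k3⟩, k2⟩ := mem_filter.1 hx
      refine ⟨k1, ?_⟩
      have hdF : dF (OE T (τ.E ω)) x ≤ 2 * s :=
        (fL_supp (exists_notMem hO) hs hχ hu (hg ▸ k3)).2
      obtain ⟨v, hv, hvb⟩ := unx_near hω hN hO hdF hAL hAU k2
      exact ⟨v, hv, by rw [mem_box_dn905] at hvb; omega⟩
    refine (sum_le_sum hone).trans ?_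
    rw [← mul_sum]
    have hmin0 : 0 ≤ min (F0 ω) M := le_min (hF0 ω) hM
    have hN1 : ∑ A ∈ (LF ω).filter (fun A => Unx (τ.E ω) A),
        ∑ y ∈ S0, |φ y| * (if surr ω A y then (1 : ℝ) else 0) ≤
        9 * C0 * ((R : ℝ) ^ (c / 2) + tauN S0 ((R : ℝ) ^ (c / 2)) ω) := by
      rw [sum_comm]
      have h5 : ∀ y ∈ S0, ∑ A ∈ (LF ω).filter (fun A => Unx (τ.E ω) A),
          |φ y| * (if surr ω A y then (1 : ℝ) else 0) ≤
          C0 / (R : ℝ) ^ 2 * ((R : ℝ) ^ (c / 2) + tauN S0 ((R : ℝ) ^ (c / 2)) ω) := by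
        intro y hy
        rw [← mul_sum]
        refine mul_le_mul (hφ y) ?_ (sum_nonneg fun A _ => by split_ifs <;> simp) (by positivity)
        have h6 : ∑ A ∈ (LF ω).filter (fun A => Unx (τ.E ω) A),
            (if surr ω A y then (1 : ℝ) else 0) ≤ (N ω y : ℝ) := by
          rw [← sum_filter, sum_const, nsmul_eq_mul, mul_one]
          unfold N
          have h7 : (((LF ω).filter (fun A => Unx (τ.E ω) A)).filter
              (fun A => surr ω A y)).card ≤ Set.ncard {L | L ∈ Loops ω ∧ surr ω L y} := by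
            rw [← Set.ncard_coe_finset]
            apply Set.ncard_le_ncard
            · intro A hA
              rw [mem_coe, mem_filter, mem_filter] at hA
              exact ⟨(mem_LF hω).1 hA.1.1, hA.2⟩
            · exact (L.loops_finite hω).subset fun A hA => hA.1
          exact_mod_cast h7
        exact h6.trans (N_le_tau hy (by positivity))
      refine (sum_le_sum h5).trans ?_
      rw [sum_const, nsmul_eq_mul, ← mul_assoc]
      exact mul_le_mul_of_nonneg_right hcard (by positivity)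
    calc min (F0 ω) M * ∑ A ∈ (LF ω).filter (fun A => Unx (τ.E ω) A),
          ∑ y ∈ S0, |φ y| * (if surr ω A y then (1 : ℝ) else 0)
        ≤ min (F0 ω) M * (9 * C0 * ((R : ℝ) ^ (c / 2) + tauN S0 ((R : ℝ) ^ (c / 2)) ω)) :=
          mul_le_mul_of_nonneg_left hN1 hmin0
      _ = 9 * C0 * ((R : ℝ) ^ (c / 2) * min (F0 ω) M +
            min (F0 ω) M * tauN S0 ((R : ℝ) ^ (c / 2)) ω) := by ring
      _ ≤ 9 * C0 * ((R : ℝ) ^ (c / 2) * F0 ω + M * tauN S0 ((R : ℝ) ^ (c / 2)) ω) := by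
          apply mul_le_mul_of_nonneg_left _ (by positivity)
          apply add_le_add
          · exact mul_le_mul_of_nonneg_left (min_le_left _ _) (by positivity)
          · exact mul_le_mul_of_nonneg_right (min_le_right _ _) hτ0

end Vale.Agent.P155.NT613
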